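import Crest.Agent.N337.Top.ShortA

/-!
# Row 337, TOP: pressure closing (`ShortStmt` from `KillStmt` and `VarStmt`)
-/

set_option autoImplicit false
set_option linter.unusedSectionVars false

namespace Crest.Agent.N337.Top.Sh

open Finset Equiv Filter Crest.Agent.N337.Rep Crest.Agent.N337.Slot

section model
variable {Λ : Type} [Fintype Λ] [DecidableEq Λ] {T : ℕ} [NeZero T]

/-- fugacity `y` at time `0`, killing off `S`. -/
def bk (S : Λ → Prop) [DecidablePred S] (y : ℝ) (v : Fin T × Λ) : ℝ := if S v.2 then bt y v else 0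

/-- weights at fugacity one. -/
noncomputable def ww (ex ey : Fin T → Λ) (p : Fin T → ℝ) (S : Λ → Prop) [DecidablePred S]
    (ω : (Fin T → Bool) × (Fin T × Λ → Bool)) : ℝ :=
  Pw p ω.1 * if ∀ v, ω.2 (Sg ex ey ω.1 v) = ω.2 v then zd (bk S 1) ω.2 else 0

theorem zd_bk (S : Λ → Prop) [DecidablePred S] (y : ℝ) (D : Fin T × Λ → Bool) :
    zd (bk S y) D = zd (bk S 1) D * y ^ N0 D := by
  have h : y ^ N0 D = ∏ v : Fin T × Λ, if v.1 = 0 ∧ D v = true then y else 1 := by
    rw [N0, Rep.pow_cnt, Fintype.prod_prod_type,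
      Finset.prod_eq_single (0 : Fin T) (fun s _ hs => by simp [hs]) (by simp)]
    simp
  rw [h, zd, zd, ← prod_mul_distrib]
  refine prod_congr rfl fun v _ => ?_
  unfold bk bt
  by_cases h1 : D v = true <;> by_cases h2 : S v.2 <;> by_cases h3 : v.1 = 0 <;> simp [h1, h2, h3]

theorem zd_bk_nonneg (S : Λ → Prop) [DecidablePred S] (D : Fin T × Λ → Bool) :
    0 ≤ zd (bk S 1) D :=
  prod_nonneg fun v _ => by unfold bk bt; split_ifs <;> norm_num

variable {ex ey : Fin T → Λ} {p : Fin T → ℝ}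

theorem ww_nonneg (hp : ∀ s, 0 ≤ p s ∧ p s ≤ 1) (S : Λ → Prop) [DecidablePred S]
    (ω : (Fin T → Bool) × (Fin T × Λ → Bool)) : 0 ≤ ww ex ey p S ω := by
  refine mul_nonneg (Pw_nonneg hp _) ?_
  split_ifs
  · exact zd_bk_nonneg S _
  · exact le_rfl

theorem ww_pos (hp : ∀ s, 0 ≤ p s ∧ p s ≤ 1) (S : Λ → Prop) [DecidablePred S] :
    0 < ∑ ω, ww ex ey p S ω := by
  obtain ⟨ξ, -, hξ⟩ := exists_ne_zero_of_sum_ne_zero ((sum_Pw p).trans_ne one_ne_zero)
  refine sum_pos' (fun ω _ => ww_nonneg hp S ω) ⟨(ξ, fun _ => false), mem_univ _, ?_⟩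
  simpa [ww, zd] using (Pw_nonneg hp ξ).lt_of_ne hξ.symm

theorem EE_bk (S : Λ → Prop) [DecidablePred S] (x : ℝ)
    (F : Perm (Fin T × Λ) → (Fin T × Λ → Bool) → ℝ) :
    EE ex ey p (bk S (Real.exp (-x))) F =
      ∑ ω, ww ex ey p S ω * Real.exp (-(x * N0 ω.2)) * F (Sg ex ey ω.1) ω.2 := by
  rw [EE, Fintype.sum_prod_type]
  refine sum_congr rfl fun ξ _ => ?_
  rw [mul_sum]
  refine sum_congr rfl fun D _ => ?_
  simp only [ww]
  split_ifs
  · rw [zd_bk, ← Real.exp_nat_mul]
    have : (N0 D : ℝ) * -x = -(x * N0 D) := by ring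
    rw [this]; ring
  · simp

theorem Ns_le (K : ℕ) (π : Perm (Fin T × Λ)) (D : Fin T × Λ → Bool) : Ns K π D ≤ N0 D :=
  card_le_card fun x hx => by
    simp only [mem_filter, mem_univ, true_and] at hx ⊢
    exact hx.1

theorem N0_le (D : Fin T × Λ → Bool) : N0 D ≤ Fintype.card Λ := card_le_univ _

end model

section geo
variable {L : ℕ} [NeZero L]

/-- the box of a site (`none`: corridor). -/
def bs (l m : ℕ) (x : Tor 3 L) : Option (Fin 3 → Fin m) :=
  if h : ∀ a, (x a).val % (l + 1) < l ∧ (x a).val / (l + 1) < m then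
    some fun a => ⟨(x a).val / (l + 1), (h a).2⟩ else none

/-- corner of a box. -/
def cz (l : ℕ) {m : ℕ} (j : Fin 3 → Fin m) : Tor 3 L := fun a => (((j a).val * (l + 1) : ℕ) : ZMod L)

theorem bs_some {l m : ℕ} {x : Tor 3 L} {j : Fin 3 → Fin m} :
    bs l m x = some j ↔ ∀ a, (x a).val % (l + 1) < l ∧ (x a).val / (l + 1) = (j a).val := by
  unfold bs
  split_ifs with h
  · simp only [Option.some.injEq]
    constructor
    · rintro rfl a; exact ⟨(h a).1, rfl⟩
    · intro h'; funext a; exact Fin.ext (h' a).2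
  · simp only [false_iff]
    exact fun h' => h fun a => ⟨(h' a).1, (h' a).2 ▸ (j a).2⟩

theorem bs_none {l m : ℕ} {x : Tor 3 L} (h : bs l m x = none) :
    ∃ a, ¬ ((x a).val % (l + 1) < l ∧ (x a).val / (l + 1) < m) := by
  unfold bs at h
  split_ifs at h with h'
  exact not_forall.1 h'

theorem val_sub_lt {l m j : ℕ} (hm : m * (l + 1) ≤ L) (hj : j < m) (u : ZMod L) :
    (u - ((j * (l + 1) : ℕ) : ZMod L)).val < l ↔ u.val % (l + 1) < l ∧ u.val / (l + 1) = j := by
  have h1 : j * (l + 1) + (l + 1) ≤ L := by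
    have := Nat.mul_le_mul_right (l + 1) (Nat.succ_le_of_lt hj)
    rw [Nat.succ_mul] at this; omega
  have hc : (((j * (l + 1) : ℕ) : ZMod L)).val = j * (l + 1) := ZMod.val_cast_of_lt (by omega)
  have hu := ZMod.val_lt u
  have hd := Nat.div_add_mod u.val (l + 1)
  have hr := Nat.mod_lt u.val (show 0 < l + 1 by omega)
  by_cases h : j * (l + 1) ≤ u.val
  · rw [ZMod.val_sub (by rwa [hc]), hc]
    constructor
    · intro h2
      have e : u.val / (l + 1) = j := Nat.div_eq_of_lt_le h (by rw [Nat.succ_mul]; omega)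
      rw [e, mul_comm] at hd
      exact ⟨by omega, e⟩
    · rintro ⟨h2, e⟩
      rw [e, mul_comm] at hd; omega
  · have e : u - ((j * (l + 1) : ℕ) : ZMod L) = ((u.val + L - j * (l + 1) : ℕ) : ZMod L) := by
      rw [Nat.cast_sub (by omega)]; simp
    rw [e, ZMod.val_cast_of_lt (by omega)]
    constructor
    · intro h2; omega
    · rintro ⟨h2, e⟩
      rw [e, mul_comm] at hd; omega

theorem mem_cube {l m : ℕ} (hm : m * (l + 1) ≤ L) (j : Fin 3 → Fin m) (x : Tor 3 L) :
    x ∈ cube (cz l j) l ↔ bs l m x = some j := by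
  rw [bs_some]
  exact forall_congr' fun a => val_sub_lt hm (j a).2 (x a)

theorem bs_step {l m : ℕ} (hm : m * (l + 1) ≤ L) {x : Tor 3 L} {a : Fin 3} {i j : Fin 3 → Fin m}
    (h1 : bs l m x = some i) (h2 : bs l m (x + Pi.single a 1) = some j) : i = j := by
  rw [bs_some] at h1 h2
  funext c
  refine Fin.ext ?_
  rw [← (h1 c).2, ← (h2 c).2]
  by_cases hc : c = a
  · subst hc
    have k1 := (h1 c).1
    have k2 := (h1 c).2
    have hd := Nat.div_add_mod (x c).val (l + 1)
    have h3 : (i c).val * (l + 1) + (l + 1) ≤ L := by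
      have := Nat.mul_le_mul_right (l + 1) (Nat.succ_le_of_lt (i c).2)
      rw [Nat.succ_mul] at this; omega
    rw [k2, mul_comm] at hd
    have e : (x c + 1).val = (x c).val + 1 := by
      have : x c + 1 = (((x c).val + 1 : ℕ) : ZMod L) := by simp
      rw [this, ZMod.val_cast_of_lt (by omega)]
    simp only [Pi.add_apply, Pi.single_eq_same]
    rw [e, k2]
    exact (Nat.div_eq_of_lt_le (by omega) (by rw [Nat.succ_mul]; omega)).symm
  · simp [Pi.single_eq_of_ne hc]

theorem card_bad {l m : ℕ} (hm : m = L / (l + 1)) (hq : l + 1 ≤ m) :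
    (univ.filter fun u : ZMod L => ¬ (u.val % (l + 1) < l ∧ u.val / (l + 1) < m)).card ≤ 2 * m := by
  have h : (univ.filter fun u : ZMod L => ¬ (u.val % (l + 1) < l ∧ u.val / (l + 1) < m)).card ≤
      ((range m).image (fun k => k * (l + 1) + l) ∪ Ico (m * (l + 1)) L).card := by
    refine card_le_card_of_injOn ZMod.val (fun u hu => ?_) (ZMod.val_injective L).injOn
    simp only [coe_filter, mem_univ, true_and, Set.mem_ofPred_eq] at hu
    have hd := Nat.div_add_mod u.val (l + 1)
    have hr := Nat.mod_lt u.val (show 0 < l + 1 by omega)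
    simp only [coe_union, Set.mem_union, mem_coe, mem_image, mem_range, mem_Ico]
    by_cases h1 : u.val / (l + 1) < m
    · refine Or.inl ⟨_, h1, ?_⟩
      have : ¬ u.val % (l + 1) < l := fun h => hu ⟨h, h1⟩
      rw [mul_comm]; omega
    · refine Or.inr ⟨?_, ZMod.val_lt u⟩
      exact (Nat.mul_le_mul_right _ (not_lt.1 h1)).trans (Nat.div_mul_le_self _ _)
  refine h.trans ((card_union_le _ _).trans ?_)
  have h1 : ((range m).image fun k => k * (l + 1) + l).card ≤ m := card_image_le.trans (by simp)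
  have h2 := Nat.div_add_mod L (l + 1)
  have h3 := Nat.mod_lt L (show 0 < l + 1 by omega)
  rw [← hm, mul_comm] at h2
  rw [Nat.card_Ico]; omega

theorem card_coord (a : Fin 3) (B : Finset (ZMod L)) :
    (univ.filter fun x : Tor 3 L => x a ∈ B).card = B.card * L ^ 2 := by
  have : (univ.filter fun x : Tor 3 L => x a ∈ B) =
      Fintype.piFinset (Function.update (fun _ => (univ : Finset (ZMod L))) a B) := by
    ext x
    simp only [mem_filter, mem_univ, true_and, Fintype.mem_piFinset]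
    constructor
    · intro h c
      by_cases hc : c = a
      · subst hc; simpa using h
      · simp [Function.update_of_ne hc]
    · intro h; simpa using h a
  rw [this, Fintype.card_piFinset, ← mul_prod_erase univ _ (mem_univ a), Function.update_self,
    prod_congr rfl fun c hc => by rw [Function.update_of_ne (ne_of_mem_erase hc)]]
  simp [ZMod.card]

theorem card_corr {l m : ℕ} (hm : m = L / (l + 1)) (hq : l + 1 ≤ m) :
    (univ.filter fun x : Tor 3 L => bs l m x = none).card * l ≤ 6 * L ^ 3 := by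
  set B := univ.filter fun u : ZMod L => ¬ (u.val % (l + 1) < l ∧ u.val / (l + 1) < m)
  have h : (univ.filter fun x : Tor 3 L => bs l m x = none).card ≤ 3 * (2 * m * L ^ 2) := by
    have : (univ.filter fun x : Tor 3 L => bs l m x = none) ⊆
        univ.biUnion fun a : Fin 3 => univ.filter fun x : Tor 3 L => x a ∈ B := by
      intro x hx
      obtain ⟨a, ha⟩ := bs_none (mem_filter.1 hx).2
      exact mem_biUnion.2 ⟨a, mem_univ _, mem_filter.2 ⟨mem_univ _, mem_filter.2 ⟨mem_univ _, ha⟩⟩⟩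
    refine (card_le_card this).trans (card_biUnion_le.trans ?_)
    refine (sum_le_card_nsmul _ _ (2 * m * L ^ 2) fun a _ => ?_).trans (by simp)
    rw [card_coord]
    exact Nat.mul_le_mul_right _ (card_bad hm hq)
  have h2 : m * l ≤ L := by
    have := Nat.div_mul_le_self L (l + 1)
    rw [← hm, Nat.mul_succ] at this; omega
  calc _ ≤ 3 * (2 * m * L ^ 2) * l := Nat.mul_le_mul_right _ h
    _ = 6 * L ^ 2 * (m * l) := by ring
    _ ≤ 6 * L ^ 2 * L := Nat.mul_le_mul_left _ h2
    _ = _ := by ring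

end geo

section word
variable {L n : ℕ} [NeZero L] [NeZero n] {β : ℝ} {w : ℕ} {sy : List (Sl L n × Sl L n × ℝ)}

theorem stp_cases (hs : Sym sy) (s : Fin (TT β w sy)) :
    (s % (lay sy).length < (bl L n).length ∧ ∃ q, stp β w sy s = ends q) ∨
      (¬ s % (lay sy).length < (bl L n).length ∧ stp β w sy s ∈ sy) := by
  have _ := hs
  have hlt : s % (lay sy).length < (bl L n ++ sy).length := Nat.mod_lt _ (NeZero.pos (lay sy).length)
  have e : stp β w sy s = (bl L n ++ sy)[s % (lay sy).length] := rfl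
  by_cases h : s % (lay sy).length < (bl L n).length
  · refine Or.inl ⟨h, ?_⟩
    have : stp β w sy s ∈ bl L n := by
      rw [e, List.getElem_append_left h]
      exact List.getElem_mem _
    obtain ⟨q, -, hq⟩ := List.mem_map.1 this
    exact ⟨q, hq.symm⟩
  · refine Or.inr ⟨h, ?_⟩
    rw [e, List.getElem_append_right (not_lt.1 h)]
    exact List.getElem_mem _

theorem le_MM (β : ℝ) (w : ℕ) : β ≤ MM β w := by
  have h1 := Nat.lt_floor_add_one β
  have h2 : ⌊β⌋₊ + 1 ≤ MM β w := Nat.le_mul_of_pos_right _ (Nat.succ_pos w)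
  have h3 : ((⌊β⌋₊ + 1 : ℕ) : ℝ) ≤ MM β w := by exact_mod_cast h2
  push_cast at h3; linarith

theorem MM_pos (β : ℝ) (w : ℕ) : (0 : ℝ) < MM β w := by exact_mod_cast NeZero.pos (MM β w)

theorem pp_mem (hβ : 0 ≤ β) (hs : Sym sy) (s : Fin (TT β w sy)) :
    0 ≤ pp β w sy s ∧ pp β w sy s ≤ 1 / 2 := by
  have hM := MM_pos β w
  unfold pp
  rcases stp_cases (β := β) (w := w) hs s with ⟨h, -⟩ | ⟨h, h'⟩
  · rw [if_pos h]
    refine ⟨by positivity, ?_⟩
    rw [div_le_iff₀ (by positivity)]; linarith [le_MM β w]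
  · rw [if_neg h]
    split_ifs
    · exact hs.prob _ h'
    · norm_num

theorem sum_mod (M E : ℕ) (g : ℕ → ℝ) :
    ∑ s ∈ range (M * E), g (s % E) = M * ∑ i ∈ range E, g i := by
  induction M with
  | zero => simp
  | succ M ih =>
    rw [Nat.succ_mul, sum_range_add, ih]
    have : ∑ i ∈ range E, g ((M * E + i) % E) = ∑ i ∈ range E, g i :=
      sum_congr rfl fun i hi => by rw [Nat.mul_add_mod_self_right, Nat.mod_eq_of_lt (mem_range.1 hi)]
    rw [this]; push_cast; ring

theorem sum_stp (G : Sl L n × Sl L n × ℝ → ℝ) :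
    ∑ s, G (stp β w sy s) = MM β w * ((lay sy).map G).sum := by
  set g : ℕ → ℝ := fun i => if h : i < (lay sy).length then G ((lay sy).get ⟨i, h⟩) else 0 with hg
  have h1 : ∑ s, G (stp β w sy s) = ∑ s : Fin (TT β w sy), g (s.val % (lay sy).length) :=
    sum_congr rfl fun s _ => by simp only [hg]; rw [dif_pos (Nat.mod_lt _ (NeZero.pos _))]; rfl
  rw [h1, Fin.sum_univ_eq_sum_range (fun s => g (s % (lay sy).length)), sum_mod,
    ← Fin.sum_univ_eq_sum_range, ← Fin.sum_univ_fun_getElem]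
  congr 1
  exact sum_congr rfl fun i _ => by simp [hg]

theorem cross_le (hβ : 0 ≤ β) (hs : Sym sy) (P : Tor 3 L → Prop) [DecidablePred P] :
    ∑ s ∈ univ.filter (fun s => ¬ (P (ex β w sy s).1 ↔ P (ey β w sy s).1)), pp β w sy s ≤
      3 * n ^ 2 * β * (univ.filter P).card := by
  set G : Sl L n × Sl L n × ℝ → ℝ := fun r => if ¬ (P r.1.1 ↔ P r.2.1.1) then 1 else 0 with hG
  have hM := MM_pos β w
  have h1 : ∑ s ∈ univ.filter (fun s => ¬ (P (ex β w sy s).1 ↔ P (ey β w sy s).1)), pp β w sy s =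
      β / (2 * MM β w) * ∑ s, G (stp β w sy s) := by
    rw [sum_filter, mul_sum]
    refine sum_congr rfl fun s _ => ?_
    simp only [hG]
    by_cases h : ¬ (P (ex β w sy s).1 ↔ P (ey β w sy s).1)
    · rw [if_pos h, if_pos (show ¬ (P (stp β w sy s).1.1 ↔ P (stp β w sy s).2.1.1) from h), mul_one]
      rcases stp_cases (β := β) (w := w) hs s with ⟨h2, -⟩ | ⟨-, h'⟩
      · rw [pp, if_pos h2]
      · exact absurd (by rw [ex, ey, hs.site _ h']) h
    · rw [if_neg h, if_neg (show ¬ ¬ (P (stp β w sy s).1.1 ↔ P (stp β w sy s).2.1.1) from h),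
        mul_zero]
  have h2 : ((lay sy).map G).sum = ∑ q : Bd L n, G (ends q) := by
    rw [lay, List.map_append, List.sum_append, bl, List.map_map, sum_map_toList,
      List.sum_eq_zero (l := sy.map G), add_zero]
    · rfl
    · intro r hr
      obtain ⟨q, hq, rfl⟩ := List.mem_map.1 hr
      simp [hG, hs.site _ hq]
  have h3 : ∑ q : Bd L n, G (ends q) ≤ 6 * n ^ 2 * (univ.filter P).card := by
    have a : ∀ q : Bd L n, G (ends q) ≤ (if P q.1 then 1 else 0) +
        (if P (q.1 + Pi.single q.2.1 1) then 1 else 0) := fun q => by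
      simp only [hG, ends]
      by_cases c1 : P q.1 <;> by_cases c2 : P (q.1 + Pi.single q.2.1 1) <;> simp [c1, c2]
    have b : ∀ e : Tor 3 L, ∑ z : Tor 3 L, (if P (z + e) then (1 : ℝ) else 0) =
        (univ.filter P).card := fun e => by
      refine (Equiv.sum_comp (Equiv.addRight e) fun z => if P z then (1 : ℝ) else 0).trans ?_
      simp
    have b0 := b 0
    simp only [add_zero] at b0
    refine (sum_le_sum fun q _ => a q).trans (le_of_eq ?_)
    rw [Fintype.sum_prod_type_right]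
    simp only [sum_add_distrib, b, b0, sum_const, card_univ, Fintype.card_prod, Fintype.card_fin,
      nsmul_eq_mul]
    push_cast; ring
  rw [h1, sum_stp, h2, ← mul_assoc, show β / (2 * MM β w) * MM β w = β / 2 by field_simp]
  calc β / 2 * ∑ q : Bd L n, G (ends q) ≤ β / 2 * (6 * n ^ 2 * (univ.filter P).card) :=
        mul_le_mul_of_nonneg_left h3 (by linarith)
    _ = _ := by ring

theorem card_slot (P : Tor 3 L → Prop) [DecidablePred P] :
    (univ.filter fun x : Sl L n => P x.1).card = (univ.filter P).card * n := by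
  have : (univ.filter fun x : Sl L n => P x.1) = univ.filter P ×ˢ univ := by ext x; simp
  rw [this, card_product]; simp

end word

end Crest.Agent.N337.Top.Sh

namespace Crest.Agent.N337.Top

open Finset Equiv Filter Crest.Agent.N337.Rep Crest.Agent.N337.Slot Sh

theorem short (hK : KillStmt) (hV : VarStmt) : ShortStmt := by
  intro n _
  obtain ⟨β0, hV⟩ := hV n
  refine ⟨max β0 1, fun β hβ K ε hε => ?_⟩
  have hβ1 : 1 ≤ β := (le_max_right _ _).trans hβ
  have hn : (1 : ℝ) ≤ n := by exact_mod_cast NeZero.pos n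
  set e : ℝ := min (ε / (400 * n ^ 2)) (1 / (K + 1)) with he
  have e0 : 0 < e := lt_min (by positivity) (by positivity)
  have e1 : e * (400 * n ^ 2) ≤ ε := (le_div_iff₀ (by positivity)).1 (min_le_left _ _)
  have e2 : e * (K + 1) ≤ 1 := (le_div_iff₀ (by positivity)).1 (min_le_right _ _)
  have hK0 : (0 : ℝ) ≤ K := Nat.cast_nonneg K
  have e3 : e ≤ 1 := by nlinarith
  obtain ⟨x, lam, l, hx, hxl, hle, hbl, hV⟩ := hV β ((le_max_left _ _).trans hβ) K e e0
  have hl : 0 < lam := pos_of_mul_pos_left (hx.trans_le (hxl.trans_eq (mul_comm _ _))) e0.le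
  refine ⟨x, hx, ?_⟩
  filter_upwards [hV, eventually_ge_atTop ((l + 1) * (l + 1))] with L hV hL sy hs
  filter_upwards [hV sy hs] with w hV x' hx0 hx'
  obtain ⟨m, hm⟩ : ∃ m, m = (L + 1) / (l + 1) := ⟨_, rfl⟩
  have hq : l + 1 ≤ m := hm ▸ (Nat.le_div_iff_mul_le (Nat.succ_pos l)).2 (hL.trans (Nat.le_succ L))
  have hmq : m * (l + 1) ≤ L + 1 := hm ▸ Nat.div_mul_le_self _ _
  have hp := pp_mem (w := w) (show 0 ≤ β by linarith) hs
  have hp1 : ∀ s, 0 ≤ pp β w sy s ∧ pp β w sy s ≤ 1 := fun s => ⟨(hp s).1, by linarith [(hp s).2]⟩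
  set V : ℝ := ((L + 1 : ℕ) : ℝ) ^ 3 with hVd
  set Cs : ℝ := ((univ.filter fun z : Tor 3 (L + 1) => bs l m z = none).card : ℝ) with hCs
  have hC0 : 0 ≤ Cs := Nat.cast_nonneg _
  have hC : Cs * l ≤ 6 * V := by
    have := card_corr (L := L + 1) hm hq
    rw [hCs, hVd]; exact_mod_cast this
  set c : ℝ := 17 * n ^ 2 * β * Cs with hc
  have hbt : ∀ y : ℝ, (bt y : Fin (TT β w sy) × Sl (L + 1) n → ℝ) = bk (fun _ => True) y :=
    fun y => by funext v; simp [bk]
  have key := chain (I := Fin 3 → Fin m)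
    (w := ww (ex β w sy) (ey β w sy) (pp β w sy) fun _ => True)
    (wb := fun j => ww (ex β w sy) (ey β w sy) (pp β w sy) fun v => bs l m v.1 = some j)
    (N := fun ω => (N0 ω.2 : ℝ)) (X := fun ω => (Ns K (Sg (ex β w sy) (ey β w sy) ω.1) ω.2 : ℝ))
    (ww_nonneg hp1 _) (ww_pos hp1 _) (fun j => ww_nonneg hp1 _) (fun j => ww_pos hp1 _)
    (x := x) (x' := x') (lam := lam) (c := c) (e := e * (l : ℝ) ^ 3) (B := V * n)
    (fun ω => by exact_mod_cast Ns_le K _ _)
    (fun ω => ⟨Nat.cast_nonneg _, by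
      have := N0_le ω.2
      simp only [Fintype.card_prod, Fintype.card_pi, ZMod.card, prod_const, card_univ,
        Fintype.card_fin] at this
      rw [hVd]; exact_mod_cast this⟩) hx hx0 hx' hl ?_ ?_
  · have a1 : ∀ (y : ℝ) (F : Perm (Fin (TT β w sy) × Sl (L + 1) n) →
        (Fin (TT β w sy) × Sl (L + 1) n → Bool) → ℝ),
        EW β w sy (bt (Real.exp (-y))) F / EW β w sy (bt (Real.exp (-y))) (fun _ _ => 1) =
          av (ww (ex β w sy) (ey β w sy) (pp β w sy) fun _ => True) (fun ω => (N0 ω.2 : ℝ)) y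
            fun ω => F (Sg (ex β w sy) (ey β w sy) ω.1) ω.2 := fun y F => by
      rw [EW, EW, hbt, EE_bk, EE_bk]; simp [av]
    rw [a1, a1]
    refine key.trans ?_
    have V0 : 0 ≤ V := by positivity
    have hn2 : (n : ℝ) ≤ n ^ 2 := by nlinarith
    have b1 : c ≤ 102 * n ^ 2 * e * x * V := by
      calc c ≤ 17 * n ^ 2 * (e * x * l) * Cs := by
            rw [hc]; gcongr
        _ = 17 * n ^ 2 * e * x * (Cs * l) := by ring
        _ ≤ 17 * n ^ 2 * e * x * (6 * V) := by gcongr
        _ = _ := by ring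
    have b2 : 2 * c / x ≤ 204 * (n ^ 2 * e * V) := by
      rw [div_le_iff₀ hx]; nlinarith
    have b3 : (x * (V * n) + c) / lam ≤ 103 * (n ^ 2 * e * V) := by
      rw [div_le_iff₀ hl]
      have t1 : x * (V * n) ≤ e * lam * (V * n ^ 2) := by gcongr
      have t2 : x ≤ lam := hxl.trans (mul_le_of_le_one_left hl.le e3)
      have t3 : 102 * n ^ 2 * e * x * V ≤ 102 * n ^ 2 * e * lam * V := by gcongr
      nlinarith
    have b4 : (Fintype.card (Fin 3 → Fin m) : ℝ) * (e * (l : ℝ) ^ 3) ≤ n ^ 2 * e * V := by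
      have t1 : (m : ℝ) * l ≤ (L + 1 : ℕ) := by
        have : m * l ≤ L + 1 := (Nat.mul_le_mul_left m (Nat.le_succ l)).trans hmq
        exact_mod_cast this
      have t2 : ((m : ℝ) * l) ^ 3 ≤ V := pow_le_pow_left₀ (by positivity) t1 3
      have t3 : (1 : ℝ) ≤ n ^ 2 := by nlinarith
      simp only [Fintype.card_pi, Fintype.card_fin, prod_const, card_univ]
      push_cast
      calc (m : ℝ) ^ 3 * (e * l ^ 3) = 1 * e * (m * l) ^ 3 := by ring
        _ ≤ n ^ 2 * e * V := by gcongr
    have b5 : 400 * (n ^ 2 * e * V) ≤ ε * V := by nlinarith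
    have b6 : 0 ≤ n ^ 2 * e * V := by positivity
    linarith
  · intro y t hy ht htl
    have hy1 : Real.exp (-y) ≤ 1 := Real.exp_le_one_iff.2 (by linarith)
    have k := hK (Sl (L + 1) n) (TT β w sy) (ex β w sy) (ey β w sy) (pp β w sy)
      (bt (Real.exp (-y))) (Fin 3 → Fin m) (fun v => bs l m v.1) K t hp
      (fun v => by unfold bt; split_ifs; exacts [⟨(Real.exp_pos _).le, hy1⟩, by norm_num]) ht
      (by nlinarith [mul_le_mul_of_nonneg_right (htl.trans hle) hK0])
      (by
        intro s i j h1 h2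
        rcases stp_cases (β := β) (w := w) hs s with ⟨-, q, hq⟩ | ⟨-, h'⟩
        · simp only [ex, ey, hq, ends] at h1 h2
          exact bs_step hmq h1 h2
        · simp only [ex, ey] at h1 h2
          rw [hs.site _ h', h2] at h1
          exact (Option.some.inj h1).symm)
    simp only at k
    have r1 : ∀ j : Fin 3 → Fin m, (fun v : Fin (TT β w sy) × Sl (L + 1) n =>
        if bs l m v.2.1 = some j then bt (Real.exp (-y)) v else 0) =
        bk (fun v => bs l m v.1 = some j) (Real.exp (-y)) := fun j => rfl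
    simp only [r1] at k
    rw [hbt] at k
    simp only [EE_bk] at k
    refine ⟨k.1, k.2.trans (mul_le_mul_of_nonneg_right (Real.exp_le_exp.2 ?_)
      (prod_nonneg fun j _ => (Zf_pos _ _ (ww_nonneg hp1 _) (ww_pos hp1 _) _ _).le))⟩
    have c1 := cross_le (w := w) (show 0 ≤ β by linarith) hs fun z => bs l m z = none
    rw [card_slot (n := n) fun z => bs l m z = none]
    push_cast
    rw [← hCs] at c1 ⊢
    have : Cs * n ≤ n ^ 2 * β * Cs := by
      rw [mul_comm]; exact mul_le_mul_of_nonneg_right (by nlinarith) hC0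
    linarith
  · intro j t ht htl
    have k := hV (cz l j) t ht htl
    have r1 : (bx (Real.exp (-x)) (cz l j) l : Fin (TT β w sy) × Sl (L + 1) n → ℝ) =
        bk (fun v => bs l m v.1 = some j) (Real.exp (-x)) := by
      funext v; simp only [bx, bk, mem_cube hmq]
    simp only [EW, r1, EE_bk] at k
    exact k

end Crest.Agent.N337.Top
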