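import Crest.Agent.N337.C.MoB
import Crest.Agent.N337.C.Defs
import Crest.Agent.N337.Rep.Cyc

/-!
# Row 337, TOP (helper4): the loop model of the torus and the two interface statements

State `(ξ, D)`: coins `ξ` and an invariant colouring `D` (`true` = down) of space-time.
`PolarStmt ⇐ VarStmt (killed box, the chain) + LongStmt (sharp zero mode)`, note 388.
Word: `T = M * E` steps, `M = (⌊β⌋₊ + 1) (w + 1)` sweeps (`⌊β⌋₊ + 1` windows of `w + 1` sweeps).
A sweep is the list `lay` = all nearest-neighbour slot bonds (each once, probability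
`β / (2 M)`), followed by the symmetriser steps (probability `0` except in the last sweep).
Fugacity only at time `0`.
-/

set_option autoImplicit false

namespace Crest.Agent.N337.Top

open Finset Equiv Filter Crest.Agent.N337.Rep Crest.Agent.N337.Slot

section model
variable {Λ : Type} [Fintype Λ] [DecidableEq Λ] {T : ℕ} [NeZero T]

/-- winding number (number of time-`0` points) of the loop through `v`. -/
noncomputable def wnd (π : Perm (Fin T × Λ)) (v : Fin T × Λ) : ℕ :=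
  (univ.filter fun x : Λ => o π (0, x) = o π v).card
/-- number of down slots at time `0`. -/
def N0 (D : Fin T × Λ → Bool) : ℕ := cnt fun x => D (0, x)
/-- number of down slots at time `0` on loops of winding `≤ K`. -/
noncomputable def Ns (K : ℕ) (π : Perm (Fin T × Λ)) (D : Fin T × Λ → Bool) : ℕ :=
  (univ.filter fun x : Λ => D (0, x) = true ∧ wnd π (0, x) ≤ K).card
/-- unnormalised expectation in the loop model `(ex, ey, p, b)`. -/
noncomputable def EE (ex ey : Fin T → Λ) (p : Fin T → ℝ) (b : Fin T × Λ → ℝ)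
    (F : Perm (Fin T × Λ) → (Fin T × Λ → Bool) → ℝ) : ℝ :=
  ∑ ξ, Pw p ξ * ∑ D : Fin T × Λ → Bool,
    if ∀ v, D (Sg ex ey ξ v) = D v then zd b D * F (Sg ex ey ξ) D else 0
/-- fugacity `y` at time `0`. -/
def bt (y : ℝ) (v : Fin T × Λ) : ℝ := if v.1 = 0 then y else 1
end model

/-- slots of the torus. -/
abbrev Sl (L n : ℕ) : Type := Tor 3 L × Fin n
/-- nearest-neighbour slot bonds `(z, i) - (z + e_a, j)`. -/
abbrev Bd (L n : ℕ) : Type := Tor 3 L × Fin 3 × Fin n × Fin n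

section word
variable {L n : ℕ} [NeZero L] [NeZero n]

/-- the two ends of a bond. -/
def ends (q : Bd L n) : Sl L n × Sl L n × ℝ :=
  ((q.1, q.2.2.1), (q.1 + Pi.single q.2.1 1, q.2.2.2), 0)
/-- the list of the bonds. -/
noncomputable def bl (L n : ℕ) [NeZero L] : List (Sl L n × Sl L n × ℝ) :=
  (univ : Finset (Bd L n)).toList.map ends

/-- symmetriser words. -/
structure Sym (sy : List (Sl L n × Sl L n × ℝ)) : Prop where
  prob : ∀ q ∈ sy, 0 ≤ q.2.2 ∧ q.2.2 ≤ 1 / 2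
  site : ∀ q ∈ sy, q.1.1 = q.2.1.1
  few : ∀ z : Tor 3 L, (sy.filter fun q => q.1.1 = z).length ≤ n ^ 2
  prod : SL.wp sy = C.Mo.PP (Tor 3 L) n

/-- one sweep. -/
noncomputable def lay (sy : List (Sl L n × Sl L n × ℝ)) : List (Sl L n × Sl L n × ℝ) :=
  bl L n ++ sy

instance (sy : List (Sl L n × Sl L n × ℝ)) : NeZero (lay sy).length :=
  ⟨by simp [lay, bl, NeZero.ne n, NeZero.ne L]⟩

/-- number of sweeps. -/
noncomputable def MM (β : ℝ) (w : ℕ) : ℕ := (⌊β⌋₊ + 1) * (w + 1)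

instance (β : ℝ) (w : ℕ) : NeZero (MM β w) := ⟨by simp [MM]⟩

/-- number of steps. -/
noncomputable abbrev TT (β : ℝ) (w : ℕ) (sy : List (Sl L n × Sl L n × ℝ)) : ℕ :=
  MM β w * (lay sy).length

variable (β : ℝ) (w : ℕ) (sy : List (Sl L n × Sl L n × ℝ))

/-- the step at time `s`. -/
noncomputable def stp (s : Fin (TT β w sy)) : Sl L n × Sl L n × ℝ :=
  (lay sy).get ⟨s % (lay sy).length, Nat.mod_lt _ (NeZero.pos _)⟩
noncomputable def ex (s : Fin (TT β w sy)) : Sl L n := (stp β w sy s).1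
noncomputable def ey (s : Fin (TT β w sy)) : Sl L n := (stp β w sy s).2.1
noncomputable def pp (s : Fin (TT β w sy)) : ℝ :=
  if s % (lay sy).length < (bl L n).length then β / (2 * MM β w)
  else if s / (lay sy).length + 1 = MM β w then (stp β w sy s).2.2 else 0

/-- unnormalised expectation in the word of the torus. -/
noncomputable def EW (b : Fin (TT β w sy) × Sl L n → ℝ)
    (F : Perm (Fin (TT β w sy) × Sl L n) → (Fin (TT β w sy) × Sl L n → Bool) → ℝ) : ℝ :=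
  EE (ex β w sy) (ey β w sy) (pp β w sy) b F

end word

/-- the cube of side `l` with corner `z`. -/
def cube {L : ℕ} (z : Tor 3 L) (l : ℕ) : Set (Tor 3 L) := {x | ∀ a, (x a - z a).val < l}

open Classical in
/-- fugacity `y` at time `0`, killing outside the cube. -/
noncomputable def bx {L n T : ℕ} [NeZero T] (y : ℝ) (z : Tor 3 L) (l : ℕ)
    (v : Fin T × Sl L n) : ℝ :=
  if v.2.1 ∈ cube z l then bt y v else 0

/-- **(Var)** what the chain has to deliver: in the killed cube at field `x`, tilted by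
`exp (t Ns)`, `0 ≤ t ≤ lam`, one has `lam * Var Ns ≤ ε * volume`. -/
def VarStmt : Prop :=
  ∀ (n : ℕ) [NeZero n], ∃ β0 : ℝ, ∀ β : ℝ, β0 ≤ β → ∀ (K : ℕ) (ε : ℝ), 0 < ε →
    ∃ (x lam : ℝ) (l : ℕ), 0 < x ∧ x ≤ ε * lam ∧ lam ≤ ε ∧ β ≤ ε * x * l ∧
      ∀ᶠ L : ℕ in atTop, ∀ sy : List (Sl (L + 1) n × Sl (L + 1) n × ℝ), Sym sy →
        ∀ᶠ w : ℕ in atTop, ∀ (z : Tor 3 (L + 1)) (t : ℝ), 0 ≤ t → t ≤ lam →
          let m : ℕ → ℝ := fun j => EW β w sy (bx (Real.exp (-x)) z l)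
            fun π D => Real.exp (t * Ns K π D) * (Ns K π D : ℝ) ^ j
          lam * (m 2 * m 0 - m 1 ^ 2) ≤ ε * (l : ℝ) ^ 3 * m 0 ^ 2

/-- **(Long)** the sharp zero mode: down slots on long loops at field `u / V`. -/
def LongStmt : Prop :=
  ∀ (n : ℕ) [NeZero n], ∃ β0 : ℝ, ∀ β : ℝ, β0 ≤ β → ∃ C u0 : ℝ, ∀ u : ℝ, u0 ≤ u →
    ∀ ε : ℝ, 0 < ε → ∃ K : ℕ,
      ∀ᶠ L : ℕ in atTop, ∀ sy : List (Sl (L + 1) n × Sl (L + 1) n × ℝ), Sym sy →
        ∀ᶠ w : ℕ in atTop,
          let V : ℝ := ((L + 1 : ℕ) : ℝ) ^ 3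
          let b : Fin (TT β w sy) × Sl (L + 1) n → ℝ := bt (Real.exp (-(u / V)))
          EW β w sy b (fun π D => (N0 D : ℝ) - Ns K π D) ≤
            (1 / u + C * Real.exp (-(β ^ (-(1 / 4 : ℝ)) * u)) + ε) * V * EW β w sy b fun _ _ => 1

/-- **(Sym)** symmetriser words exist. -/
def SymStmt : Prop :=
  ∀ (L n : ℕ) [NeZero L] [NeZero n], ∃ sy : List (Sl L n × Sl L n × ℝ), Sym sy

/-- **(Bridge)** the magnon density is the limit of the density of down slots of the word. -/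
def BridgeStmt : Prop :=
  ∀ (n : ℕ) [NeZero n] (L : ℕ), 2 ≤ L → ∀ β : ℝ, 0 < β →
    ∀ sy : List (Sl (L + 1) n × Sl (L + 1) n × ℝ), Sym sy → ∀ θ : ℝ,
      Tendsto (fun w : ℕ => EW β w sy (bt (Real.exp (-θ))) (fun _ D => (N0 D : ℝ)) /
          EW β w sy (bt (Real.exp (-θ))) fun _ _ => 1) atTop
        (nhds (C.dens n L β (θ / β) * ((L + 1 : ℕ) : ℝ) ^ 3))

/-- **(Kill)** cutting along corridors (`bo x = none`); `bo x = some i`: `x` lies in box `i`. -/
def KillStmt : Prop :=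
  ∀ (Λ : Type) [Fintype Λ] [DecidableEq Λ] (T : ℕ) [NeZero T] (ex ey : Fin T → Λ)
    (p : Fin T → ℝ) (b : Fin T × Λ → ℝ) (I : Type) [Fintype I] [DecidableEq I]
    (bo : Λ → Option I) (K : ℕ) (t : ℝ),
    (∀ s, 0 ≤ p s ∧ p s ≤ 1 / 2) → (∀ v, 0 ≤ b v ∧ b v ≤ 1) → 0 ≤ t → t * K ≤ 1 →
    (∀ s i j, bo (ex s) = some i → bo (ey s) = some j → i = j) →
    let Z : (Fin T × Λ → ℝ) → ℝ := fun b => EE ex ey p b fun π D => Real.exp (t * Ns K π D)
    let P : ℝ := ∏ i, Z fun v => if bo v.2 = some i then b v else 0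
    P ≤ Z b ∧ Z b ≤ Real.exp (2 * (univ.filter fun x => bo x = none).card +
      5 * ∑ s ∈ univ.filter (fun s => ¬ (bo (ex s) = none ↔ bo (ey s) = none)), p s) * P

/-- **(Short)** the pressure closing: down slots on short loops at small field. -/
def ShortStmt : Prop :=
  ∀ (n : ℕ) [NeZero n], ∃ β0 : ℝ, ∀ β : ℝ, β0 ≤ β → ∀ (K : ℕ) (ε : ℝ), 0 < ε →
    ∃ x : ℝ, 0 < x ∧
      ∀ᶠ L : ℕ in atTop, ∀ sy : List (Sl (L + 1) n × Sl (L + 1) n × ℝ), Sym sy →
        ∀ᶠ w : ℕ in atTop, ∀ x' : ℝ, 0 ≤ x' → x' ≤ x →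
          EW β w sy (bt (Real.exp (-x'))) (fun π D => (Ns K π D : ℝ)) /
              EW β w sy (bt (Real.exp (-x'))) (fun _ _ => 1) ≤
            EW β w sy (bt (Real.exp (-(x / 2)))) (fun _ D => (N0 D : ℝ)) /
              EW β w sy (bt (Real.exp (-(x / 2)))) (fun _ _ => 1) + ε * ((L + 1 : ℕ) : ℝ) ^ 3

end Crest.Agent.N337.Top
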