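import Crest.Agent.N337.Top.Defs
import Crest.Agent.N337.L4.Prod

/-!
# Row 337, TOP: cutting along corridors (helper35)
-/

set_option autoImplicit false
set_option linter.unusedSectionVars false

namespace Crest.Agent.N337.Top

open Finset Equiv Crest.Agent.N337.Rep

namespace Kill

variable {Λ : Type} [Fintype Λ] [DecidableEq Λ] {T : ℕ} [NeZero T]

/-- the sum over the colourings. -/
noncomputable def F (K : ℕ) (t : ℝ) (π : Perm (Fin T × Λ)) (b : Fin T × Λ → ℝ) : ℝ :=
  ∑ D : Fin T × Λ → Bool, if ∀ v, D (π v) = D v then zd b D * Real.exp (t * Ns K π D) else 0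

/-- winding number of an orbit. -/
noncomputable def kk (π : Perm (Fin T × Λ)) (g : Orb π) : ℕ :=
  (univ.filter fun x : Λ => o π (0, x) = g).card

/-- tilt of an orbit. -/
noncomputable def hh (K : ℕ) (t : ℝ) (π : Perm (Fin T × Λ)) (g : Orb π) : ℝ :=
  Real.exp (t * (if kk π g ≤ K then kk π g else 0 : ℕ))

variable {K : ℕ} {t : ℝ} {π π' : Perm (Fin T × Λ)} {b b' : Fin T × Λ → ℝ} {D : Fin T × Λ → Bool}

/-! ### the product formula -/

lemma Ns_comp (K : ℕ) (π : Perm (Fin T × Λ)) (c : Orb π → Bool) :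
    Ns K π (c ∘ o π) = ∑ g, if c g = true then (if kk π g ≤ K then kk π g else 0) else 0 := by
  rw [Ns, card_eq_sum_card_fiberwise (f := fun x => o π (0, x)) (t := univ) fun _ _ => mem_univ _]
  refine sum_congr rfl fun g _ => ?_
  rw [filter_filter, ← ite_and]
  split_ifs with h
  · refine congrArg card (filter_congr fun x _ => ⟨fun k => k.2, fun k => ⟨?_, k⟩⟩)
    subst k
    exact h
  · refine card_eq_zero.2 (filter_false_of_mem fun x _ k => h ?_)
    obtain ⟨k, rfl⟩ := k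
    exact k

lemma F_prod (K : ℕ) (t : ℝ) (π : Perm (Fin T × Λ)) (b : Fin T × Λ → ℝ) :
    F K t π b = ∏ g, (1 + pr π b g * hh K t π g) := by
  rw [F, sum_inv_prod π _ fun g k => if k = true then pr π b g * hh K t π g else 1]
  · exact prod_congr rfl fun g _ => by simp [add_comm]
  · intro c
    rw [zd_comp, Ns_comp, Nat.cast_sum, mul_sum, Real.exp_sum, ← prod_mul_distrib]
    refine prod_congr rfl fun g _ => ?_
    split_ifs <;> simp [hh, *]

lemma hh_pos (g : Orb π) : 0 < hh K t π g := Real.exp_pos _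

lemma hh_le (ht : 0 ≤ t) (hK : t * K ≤ 1) (g : Orb π) : hh K t π g ≤ 3 := by
  refine (Real.exp_le_exp.2 (le_trans (mul_le_mul_of_nonneg_left ?_ ht) hK)).trans
    Real.exp_one_lt_three.le
  split_ifs with h <;> simp [*]

lemma one_le_fac (h : ∀ v, 0 ≤ b v) (g : Orb π) : 1 ≤ 1 + pr π b g * hh K t π g :=
  le_add_of_nonneg_right (mul_nonneg (pr_nonneg h g) (hh_pos g).le)

lemma F_nonneg (h : ∀ v, 0 ≤ b v) : 0 ≤ F K t π b :=
  F_prod K t π b ▸ prod_nonneg fun g _ => zero_le_one.trans (one_le_fac h g)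

lemma F_mono (h : ∀ v, 0 ≤ b v) (h' : ∀ v, b v ≤ b' v) : F K t π b ≤ F K t π b' := by
  rw [F_prod, F_prod]
  refine prod_le_prod (fun g _ => zero_le_one.trans (one_le_fac h g)) fun g _ => ?_
  exact add_le_add_right (mul_le_mul_of_nonneg_right
    (prod_le_prod (fun v _ => h v) fun v _ => h' v) (hh_pos g).le) 1

/-! ### two permutations that agree on the down points -/

lemma inv_of (hD : ∀ v, D (π v) = D v) (h : ∀ v, D v = true → π' v = π v) (v : Fin T × Λ) :
    D (π' v) = D v := by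
  refine Bool.eq_iff_iff.2 ⟨fun k => ?_, fun k => by rw [h v k, hD, k]⟩
  have k1 : D (π.symm (π' v)) = true := by rw [← hD, apply_symm_apply, k]
  have k2 := h _ k1
  rw [apply_symm_apply] at k2
  rwa [π'.injective k2] at k1

lemma same_of (hD : ∀ v, D (π v) = D v) (h : ∀ v, D v = true → π' v = π v) {v w : Fin T × Λ}
    (hv : D v = true) (k : o π w = o π v) : o π' w = o π' v := by
  obtain ⟨j, -, rfl⟩ := (o_eq.1 k.symm).exists_pow_eq'
  have key : ∀ j : ℕ, D ((π ^ j) v) = true ∧ (π' ^ j) v = (π ^ j) v := fun j => by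
    induction j with
    | zero => exact ⟨hv, rfl⟩
    | succ j ih =>
      rw [pow_succ', pow_succ', Perm.mul_apply, Perm.mul_apply, hD, ih.2]
      exact ⟨ih.1, h _ ih.1⟩
  rw [← (key j).2, o_pow]

lemma Ns_of (hD : ∀ v, D (π v) = D v) (h : ∀ v, D v = true → π' v = π v) :
    Ns K π' D = Ns K π D := by
  refine congrArg card (filter_congr fun x _ => and_congr_right fun k => ?_)
  rw [show wnd π' (0, x) = wnd π (0, x) from congrArg card (filter_congr fun y _ =>
    ⟨same_of (inv_of hD h) (fun v hv => (h v hv).symm) k, same_of hD h k⟩)]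

lemma F_le (h0 : ∀ v, 0 ≤ b v) (h : ∀ v, b v ≠ 0 → b (π v) ≠ 0 → π' v = π v) :
    F K t π b ≤ F K t π' b := by
  refine sum_le_sum fun D _ => ?_
  have k0 : 0 ≤ zd b D := prod_nonneg fun v _ => by split_ifs; exacts [h0 v, zero_le_one]
  have k1 : 0 ≤ if ∀ v, D (π' v) = D v then zd b D * Real.exp (t * Ns K π' D) else 0 := by
    split_ifs; exacts [mul_nonneg k0 (Real.exp_pos _).le, le_rfl]
  by_cases hD : ∀ v, D (π v) = D v
  swap
  · rwa [if_neg hD]
  by_cases hz : zd b D = 0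
  · simp [hz]
  have k2 : ∀ v, D v = true → b v ≠ 0 := fun v hv e =>
    hz (prod_eq_zero (mem_univ v) (by rw [if_pos hv, e]))
  have k3 : ∀ v, D v = true → π' v = π v := fun v hv => h v (k2 v hv) (k2 _ ((hD v).trans hv))
  rw [if_pos hD, if_pos (inv_of hD k3), Ns_of hD k3]

/-! ### steps -/

lemma sg_cases (x y : Λ) (c : Bool) (w : Λ) : sg x y c w = w ∨
    c = true ∧ (w = x ∧ sg x y c w = y ∨ w = y ∧ sg x y c w = x) := by
  cases c
  · exact Or.inl rfl
  by_cases h1 : w = x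
  · exact Or.inr ⟨rfl, Or.inl ⟨h1, by simp [sg, h1]⟩⟩
  by_cases h2 : w = y
  · exact Or.inr ⟨rfl, Or.inr ⟨h2, by simp [sg, h2]⟩⟩
  exact Or.inl (by simp [sg, swap_apply_of_ne_of_ne h1 h2])

variable {ex ey : Fin T → Λ} {ξ ξ' : Fin T → Bool}

lemma Sg_congr {s : Fin T} {x : Λ} (h : x = ex s ∨ x = ey s → ξ' s = ξ s) :
    Sg ex ey ξ' (s, x) = Sg ex ey ξ (s, x) := by
  rw [Sg_apply, Sg_apply]
  by_cases k : x = ex s ∨ x = ey s
  · rw [h k]
  · have e : ∀ c, sg (ex s) (ey s) c x = x := fun c => (sg_cases _ _ c x).resolve_right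
      fun e => k (e.2.imp And.left And.left)
    rw [e, e]

variable {I : Type} [Fintype I] [DecidableEq I] {bo : Λ → Option I}

/-- killing on the corridors. -/
def bk (bo : Λ → Option I) (b : Fin T × Λ → ℝ) (v : Fin T × Λ) : ℝ :=
  if bo v.2 = none then 0 else b v
/-- killing outside box `i`. -/
def bi (bo : Λ → Option I) (b : Fin T × Λ → ℝ) (i : I) (v : Fin T × Λ) : ℝ :=
  if bo v.2 = some i then b v else 0

lemma bk_nonneg (h : ∀ v, 0 ≤ b v) (v : Fin T × Λ) : 0 ≤ bk bo b v := by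
  unfold bk; split_ifs; exacts [le_rfl, h v]
lemma bk_le (h : ∀ v, 0 ≤ b v) (v : Fin T × Λ) : bk bo b v ≤ b v := by
  unfold bk; split_ifs; exacts [h v, le_rfl]
lemma bi_nonneg (h : ∀ v, 0 ≤ b v) (i : I) (v : Fin T × Λ) : 0 ≤ bi bo b i v := by
  unfold bi; split_ifs; exacts [h v, le_rfl]

lemma F_bk (hs : ∀ s i j, bo (ex s) = some i → bo (ey s) = some j → i = j) :
    F K t (Sg ex ey ξ) (bk bo b) = ∏ i, F K t (Sg ex ey ξ) (bi bo b i) := by
  simp only [F_prod]
  rw [prod_comm]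
  refine prod_congr rfl fun g _ => ?_
  by_cases h : ∃ v, o (Sg ex ey ξ) v = g ∧ bo v.2 = none
  · obtain ⟨v, hv, h⟩ := h
    rw [pr_zero hv (if_pos h), zero_mul, add_zero]
    exact (prod_eq_one fun i _ => by
      rw [pr_zero hv (if_neg (by simp [h])), zero_mul, add_zero]).symm
  obtain ⟨v, rfl⟩ := o_surj _ g
  obtain ⟨i, hi⟩ := Option.ne_none_iff_exists'.1 fun e => h ⟨v, rfl, e⟩
  have key : ∀ j : ℕ, bo ((Sg ex ey ξ ^ j) v).2 = some i := fun j => by
    induction j with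
    | zero => exact hi
    | succ j ih =>
      obtain ⟨i', hi'⟩ := Option.ne_none_iff_exists'.1 fun e => h ⟨_, o_pow _ (j + 1) v, e⟩
      rw [hi']
      rw [pow_succ', Perm.mul_apply] at hi'
      generalize (Sg ex ey ξ ^ j) v = w at ih hi'
      obtain ⟨s, x⟩ := w
      rw [Sg_apply] at hi'
      rcases sg_cases (ex s) (ey s) (ξ s) x with e | ⟨-, ⟨rfl, e⟩ | ⟨rfl, e⟩⟩ <;> rw [e] at hi'
      · exact hi'.symm.trans ih
      · rw [hs s _ _ ih hi']
      · rw [hs s _ _ hi' ih]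
  rw [prod_eq_single i (fun j _ hj => by
    rw [pr_zero (v := v) (a := bi bo b j) rfl (if_neg (by simp [hi, hj.symm])), zero_mul,
      add_zero]) (by simp)]
  congr 2
  refine pr_congr fun w hw => ?_
  obtain ⟨j, -, rfl⟩ := (o_eq.1 hw.symm).exists_pow_eq'
  simp [bk, bi, key j]

/-- crossing steps. -/
def X (bo : Λ → Option I) (ex ey : Fin T → Λ) : Finset (Fin T) :=
  univ.filter fun s => ¬ (bo (ex s) = none ↔ bo (ey s) = none)

/-- `a ^ (number of active crossing steps)`. -/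
def Φ (A : Finset (Fin T)) (a : ℝ) (ξ : Fin T → Bool) : ℝ := ∏ s ∈ A, if ξ s = true then a else 1

/-- crossing coins switched off. -/
def off (A : Finset (Fin T)) (ξ : Fin T → Bool) (s : Fin T) : Bool := if s ∈ A then false else ξ s

lemma F_up (h0 : ∀ v, 0 ≤ b v ∧ b v ≤ 1) (ht : 0 ≤ t) (hK : t * K ≤ 1) :
    F K t (Sg ex ey ξ) b ≤ 4 ^ (univ.filter fun x => bo x = none).card *
      (Φ (X bo ex ey) 4 ξ * F K t (Sg ex ey ξ) (bk bo b)) := by
  set B : Finset (Orb (Sg ex ey ξ)) :=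
    (univ.filter fun x => bo x = none).image (fun x => o (Sg ex ey ξ) (0, x)) ∪
    ((X bo ex ey).filter fun s => ξ s = true).image fun s =>
      o (Sg ex ey ξ) (s, if bo (ex s) = none then ex s else ey s) with hB
  have key : ∀ v, bo v.2 = none → o (Sg ex ey ξ) v ∈ B := fun v hv => by
    by_contra hn
    have key : ∀ j : ℕ, bo ((Sg ex ey ξ ^ j) v).2 = none := fun j => by
      induction j with
      | zero => exact hv
      | succ j ih =>
        rw [← o_pow _ j] at hn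
        rw [pow_succ', Perm.mul_apply]
        generalize (Sg ex ey ξ ^ j) v = w at ih hn
        obtain ⟨s, x⟩ := w
        rw [Sg_apply]
        by_contra hx
        refine hn (mem_union_right _ (mem_image.2 ⟨s, ?_⟩))
        rcases sg_cases (ex s) (ey s) (ξ s) x with e | ⟨k, ⟨rfl, e⟩ | ⟨rfl, e⟩⟩ <;> rw [e] at hx
        · exact (hx ih).elim
        · exact ⟨mem_filter.2 ⟨mem_filter.2 ⟨mem_univ _, fun e => hx (e.1 ih)⟩, k⟩,
            by rw [if_pos ih]⟩
        · exact ⟨mem_filter.2 ⟨mem_filter.2 ⟨mem_univ _, fun e => hx (e.2 ih)⟩, k⟩,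
            by rw [if_neg hx]⟩
    obtain ⟨x, hx⟩ := exists_time ex ey ξ (o _ v) 0
    obtain ⟨j, -, e⟩ := (o_eq.1 hx.symm).exists_pow_eq'
    exact hn (mem_union_left _ (mem_image.2 ⟨x, mem_filter.2 ⟨mem_univ _, by
      simpa only [e] using key j⟩, hx⟩))
  rw [Φ, ← prod_filter, prod_const, ← mul_assoc, ← pow_add]
  refine le_trans ?_ (mul_le_mul_of_nonneg_right (pow_le_pow_right₀ (by norm_num)
    ((card_union_le _ _).trans (add_le_add card_image_le card_image_le)) : (4 : ℝ) ^ B.card ≤ _)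
    (F_nonneg (bk_nonneg fun v => (h0 v).1)))
  rw [F_prod, F_prod, ← prod_const, ← prod_ite_mem_eq B, ← prod_mul_distrib]
  refine prod_le_prod (fun g _ => zero_le_one.trans (one_le_fac (fun v => (h0 v).1) g))
    fun g _ => ?_
  split_ifs with hg
  · have k1 := one_le_fac (K := K) (t := t) (bk_nonneg (bo := bo) fun v => (h0 v).1) g
    have k2 := mul_le_mul (pr_le_one (fun v => (h0 v).1) (fun v => (h0 v).2) g) (hh_le ht hK g)
      (hh_pos g).le zero_le_one
    linarith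
  · rw [one_mul, pr_congr (a := b) (b := bk bo b) (g := g) fun v hv =>
      (if_neg fun e => hg (hv ▸ key v e)).symm]

lemma F_off (h0 : ∀ v, 0 ≤ b v) :
    F K t (Sg ex ey ξ) (bk bo b) ≤ F K t (Sg ex ey (off (X bo ex ey) ξ)) (bk bo b) := by
  refine F_le (bk_nonneg h0) ?_
  rintro ⟨s, x⟩ h1 h2
  have k1 : bo x ≠ none := fun e => h1 (if_pos e)
  have k2 : bo (sg (ex s) (ey s) (ξ s) x) ≠ none := fun e => h2 (if_pos e)
  rw [Sg_apply, Sg_apply, off]
  split_ifs with hs
  swap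
  · rfl
  rcases sg_cases (ex s) (ey s) (ξ s) x with e | ⟨-, ⟨rfl, e⟩ | ⟨rfl, e⟩⟩ <;> rw [e] at k2
  · rw [e]; rfl
  · exact ((mem_filter.1 hs).2 (iff_of_false k1 k2)).elim
  · exact ((mem_filter.1 hs).2 (iff_of_false k2 k1)).elim

lemma Φ_zero (A : Finset (Fin T)) {G : (Fin T → Bool) → ℝ} (h : 0 ≤ G ξ) :
    Φ A 0 ξ * G (off A ξ) ≤ G ξ := by
  by_cases e : ∃ s ∈ A, ξ s = true
  · obtain ⟨s, hs, e⟩ := e
    rwa [Φ, prod_eq_zero (f := fun s => if ξ s = true then (0 : ℝ) else 1) hs (if_pos e), zero_mul]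
  · have k : off A ξ = ξ := funext fun s => by
      unfold off
      split_ifs with hs
      exacts [(Bool.eq_false_iff.2 fun k => e ⟨s, hs, k⟩).symm, rfl]
    rw [k, Φ, prod_eq_one fun s hs => if_neg fun k => e ⟨s, hs, k⟩, one_mul]

/-! ### independence -/

section indep
variable {ι : Type} [Fintype ι] [DecidableEq ι] {E : ι → Type} [∀ i, Fintype (E i)]
  {q : ∀ i, E i → ℝ}

lemma indep (hq : PH.Pr q) (A : Finset ι) {f g : (∀ i, E i) → ℝ} (hf : PH.Meas (fun _ => A) f)
    (hg : ∀ ω ω', (∀ i ∉ A, ω' i = ω i) → g ω' = g ω) :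
    PH.ex q (fun ω => f ω * g ω) = PH.ex q f * PH.ex q g := by
  have e : ∀ ω, PH.P q (fun _ => A) g ω = PH.ex q g := fun ω =>
    sum_congr rfl fun ω' _ => by rw [hg ω' _ fun i hi => PH.pw_not _ _ hi]
  rw [← (PH.stop_const A).ex_mul_P hq hf g, mul_comm, ← PH.ex_mul]
  simp only [e, mul_comm]

lemma indep_prod (hq : PH.Pr q) (A : I → Finset ι) (hA : ∀ i j s, s ∈ A i → s ∈ A j → i = j)
    {f : I → (∀ i, E i) → ℝ} (hf : ∀ i, PH.Meas (fun _ => A i) (f i)) (U : Finset I) :
    PH.ex q (fun ω => ∏ i ∈ U, f i ω) = ∏ i ∈ U, PH.ex q (f i) := by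
  induction U using Finset.induction_on with
  | empty => simpa using hq.ex_const 1
  | insert a U ha ih =>
    simp only [prod_insert ha]
    rw [indep hq (A a) (hf a) fun ω ω' h => prod_congr rfl fun i hi =>
      hf i ω ω' fun s hs => h s fun k => ha (hA _ _ s hs k ▸ hi), ih]

end indep

lemma ex_Φ {p : Fin T → ℝ} (A : Finset (Fin T)) (a : ℝ) :
    PH.ex (fun s => wb (p s)) (Φ A a) = ∏ s ∈ A, (p s * a + (1 - p s)) := by
  have h := Fintype.prod_sum fun (s : Fin T) (c : Bool) =>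
    wb (p s) c * if s ∈ A then (if c = true then a else 1) else 1
  simp only [prod_mul_distrib, prod_ite_mem_eq] at h
  rw [← prod_ite_mem_eq A]
  refine h.symm.trans (prod_congr rfl fun s _ => ?_)
  split_ifs <;> simp [wb]

end Kill

open Kill

theorem kill : KillStmt := by
  intro Λ _ _ T _ ex ey p b I _ _ bo K t hp hb ht hK hs Z P
  have hq : PH.Pr fun s => wb (p s) := ⟨fun s c => by
    unfold wb; split_ifs <;> linarith [hp s], fun s => by simp [wb]⟩
  have h0 : ∀ v, 0 ≤ b v := fun v => (hb v).1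
  have hZ : ∀ b, Z b = PH.ex (fun s => wb (p s)) fun ξ => F K t (Sg ex ey ξ) b := fun _ => rfl
  have hP : Z (bk bo b) = P := by
    rw [hZ]
    simp only [F_bk hs]
    refine indep_prod hq (fun i => univ.filter fun s => bo (ex s) = some i ∨ bo (ey s) = some i)
      (fun i j s hi hj => ?_) (fun i => ?_) univ
    · rcases (mem_filter.1 hi).2 with e | e <;> rcases (mem_filter.1 hj).2 with e' | e'
      exacts [Option.some.inj (e.symm.trans e'), hs s _ _ e e', (hs s _ _ e' e).symm,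
        Option.some.inj (e.symm.trans e')]
    · have k : ∀ ξ ξ' : Fin T → Bool, (∀ s ∈ univ.filter fun s => bo (ex s) = some i ∨
          bo (ey s) = some i, ξ' s = ξ s) →
          F K t (Sg ex ey ξ) (bi bo b i) ≤ F K t (Sg ex ey ξ') (bi bo b i) := fun ξ ξ' h => by
        refine F_le (bi_nonneg h0 i) ?_
        rintro ⟨s, x⟩ h1 -
        have k1 : bo x = some i := by_contra fun e => h1 (if_neg e)
        exact Sg_congr fun e => h s (mem_filter.2 ⟨mem_univ _,
          e.imp (fun e : x = ex s => e ▸ k1) fun e : x = ey s => e ▸ k1⟩)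
      exact fun ξ ξ' h => le_antisymm (k _ _ fun s hs => (h s hs).symm) (k _ _ h)
  rw [← hP, hZ, hZ]
  refine ⟨hq.ex_mono fun ξ => F_mono (bk_nonneg h0) (bk_le h0), ?_⟩
  set G := fun ξ => F K t (Sg ex ey (off (X bo ex ey) ξ)) (bk bo b) with hG
  have e : ∀ a, PH.ex (fun s => wb (p s)) (fun ξ => Φ (X bo ex ey) a ξ * G ξ) =
      (∏ s ∈ X bo ex ey, (p s * a + (1 - p s))) * PH.ex (fun s => wb (p s)) G := fun a => by
    rw [indep hq (X bo ex ey) (f := Φ (X bo ex ey) a)
      (fun ξ ξ' h => prod_congr rfl fun s hs => by rw [h s hs]) fun ξ ξ' h => ?_, ex_Φ]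
    rw [hG]
    beta_reduce
    rw [show off (X bo ex ey) ξ' = off (X bo ex ey) ξ from funext fun s => by
      unfold off; split_ifs with hs; exacts [rfl, h s hs]]
  have g0 : 0 ≤ PH.ex (fun s => wb (p s)) G := hq.ex_nn fun ξ => F_nonneg (bk_nonneg h0)
  have l1 := hq.ex_mono fun ξ => Φ_zero (ξ := ξ) (X bo ex ey)
    (G := fun ξ => F K t (Sg ex ey ξ) (bk bo b)) (F_nonneg (bk_nonneg h0))
  have l2 := hq.ex_mono fun ξ => (F_up (bo := bo) (ex := ex) (ey := ey) (ξ := ξ) hb ht hK).trans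
    (mul_le_mul_of_nonneg_left (mul_le_mul_of_nonneg_left (F_off h0)
      (prod_nonneg fun s _ => by split_ifs <;> norm_num)) (by positivity))
  rw [PH.ex_mul, e] at l2
  rw [e] at l1
  refine l2.trans (le_trans ?_ (mul_le_mul_of_nonneg_left l1 (Real.exp_pos _).le))
  rw [Real.exp_add, mul_assoc, mul_comm 2, Real.exp_nat_mul, mul_sum, Real.exp_sum, ← mul_assoc
    (∏ _ ∈ _, _), ← X, ← prod_mul_distrib]
  have k0 : ∀ s, 0 ≤ p s * 4 + (1 - p s) := fun s => by linarith [hp s]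
  refine mul_le_mul (pow_le_pow_left₀ (by norm_num) ?_ _) (mul_le_mul_of_nonneg_right
    (prod_le_prod (fun s _ => k0 s) fun s _ => ?_) g0)
    (mul_nonneg (prod_nonneg fun s _ => k0 s) g0) (by positivity)
  · linarith [Real.quadratic_le_exp_of_nonneg (x := 2) (by norm_num)]
  · obtain ⟨k1, k2⟩ := hp s
    have k3 := mul_le_mul_of_nonneg_right
      (Real.quadratic_le_exp_of_nonneg (x := 5 * p s) (by linarith)) (by linarith : 0 ≤ 1 - p s)
    nlinarith [mul_nonneg (mul_nonneg k1 k1) (sub_nonneg.2 k2)]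

end Crest.Agent.N337.Top
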