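import Crest.Agent.N337.Top.Defs

/-!
# Row 337, TOP: basic facts on `EE`, `pp`, `bt` (helper37)
-/

set_option autoImplicit false
set_option linter.unusedSectionVars false

namespace Crest.Agent.N337.Top

open Finset Equiv Filter Crest.Agent.N337.Rep Crest.Agent.N337.Slot

section model
variable {Λ : Type} [Fintype Λ] [DecidableEq Λ] {T : ℕ} [NeZero T] (ex ey : Fin T → Λ)
  {p : Fin T → ℝ} {b : Fin T × Λ → ℝ} {F G : Perm (Fin T × Λ) → (Fin T × Λ → Bool) → ℝ}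

theorem zd_nonneg {S : Type} [Fintype S] {z : S → ℝ} (h : ∀ v, 0 ≤ z v) (D : S → Bool) :
    0 ≤ zd z D := prod_nonneg fun v _ => by split_ifs; exacts [h v, zero_le_one]

theorem EE_add (p : Fin T → ℝ) (b : Fin T × Λ → ℝ)
    (F G : Perm (Fin T × Λ) → (Fin T × Λ → Bool) → ℝ) :
    EE ex ey p b (fun π D => F π D + G π D) = EE ex ey p b F + EE ex ey p b G := by
  simp only [EE, ← sum_add_distrib, ← mul_add]
  refine sum_congr rfl fun ξ _ => congrArg _ (sum_congr rfl fun D _ => ?_)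
  split_ifs <;> ring

theorem EE_const_mul (p : Fin T → ℝ) (b : Fin T × Λ → ℝ) (c : ℝ)
    (F : Perm (Fin T × Λ) → (Fin T × Λ → Bool) → ℝ) :
    EE ex ey p b (fun π D => c * F π D) = c * EE ex ey p b F := by
  simp only [EE, mul_sum]
  refine sum_congr rfl fun ξ _ => sum_congr rfl fun D _ => ?_
  split_ifs <;> ring

theorem EE_sub (p : Fin T → ℝ) (b : Fin T × Λ → ℝ)
    (F G : Perm (Fin T × Λ) → (Fin T × Λ → Bool) → ℝ) :
    EE ex ey p b (fun π D => F π D - G π D) = EE ex ey p b F - EE ex ey p b G := by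
  rw [eq_sub_iff_add_eq, ← EE_add]
  simp only [sub_add_cancel]

theorem EE_zero (p : Fin T → ℝ) (b : Fin T × Λ → ℝ) : EE ex ey p b (fun _ _ => 0) = 0 := by
  simp [EE]

theorem EE_sum {ι : Type} (s : Finset ι) (p : Fin T → ℝ) (b : Fin T × Λ → ℝ)
    (F : ι → Perm (Fin T × Λ) → (Fin T × Λ → Bool) → ℝ) :
    EE ex ey p b (fun π D => ∑ i ∈ s, F i π D) = ∑ i ∈ s, EE ex ey p b (F i) := by
  classical
  induction s using Finset.induction_on with
  | empty => simp [EE]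
  | insert a s ha ih => simp only [sum_insert ha, EE_add, ih]

/-- monotonicity; the inequality is only needed for invariant colourings -/
theorem EE_mono' (hp : ∀ s, 0 ≤ p s ∧ p s ≤ 1) (hb : ∀ v, 0 ≤ b v)
    (h : ∀ ξ D, (∀ v, D (Sg ex ey ξ v) = D v) → F (Sg ex ey ξ) D ≤ G (Sg ex ey ξ) D) :
    EE ex ey p b F ≤ EE ex ey p b G :=
  sum_le_sum fun ξ _ => mul_le_mul_of_nonneg_left (sum_le_sum fun D _ => by
    split_ifs with h1
    · exact mul_le_mul_of_nonneg_left (h ξ D h1) (zd_nonneg hb D)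
    · exact le_rfl) (Pw_nonneg hp ξ)

theorem EE_mono (hp : ∀ s, 0 ≤ p s ∧ p s ≤ 1) (hb : ∀ v, 0 ≤ b v) (h : ∀ π D, F π D ≤ G π D) :
    EE ex ey p b F ≤ EE ex ey p b G := EE_mono' ex ey hp hb fun _ _ _ => h _ _

theorem EE_nonneg (hp : ∀ s, 0 ≤ p s ∧ p s ≤ 1) (hb : ∀ v, 0 ≤ b v) (h : ∀ π D, 0 ≤ F π D) :
    0 ≤ EE ex ey p b F := (EE_zero ex ey p b).ge.trans (EE_mono ex ey hp hb h)

theorem one_le_EE (hp : ∀ s, 0 ≤ p s ∧ p s ≤ 1) (hb : ∀ v, 0 ≤ b v) :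
    1 ≤ EE ex ey p b fun _ _ => 1 := by
  refine (sum_Pw p).ge.trans ?_
  simp only [EE, mul_one]
  exact sum_le_sum fun ξ _ => le_mul_of_one_le_right (Pw_nonneg hp ξ) (one_le_sumD hb _)

omit [Fintype Λ] [DecidableEq Λ] in
theorem bt_nonneg {y : ℝ} (hy : 0 ≤ y) (v : Fin T × Λ) : 0 ≤ bt y v := by
  unfold bt; split_ifs; exacts [hy, zero_le_one]

omit [Fintype Λ] [DecidableEq Λ] in
theorem bt_le_one {y : ℝ} (hy : y ≤ 1) (v : Fin T × Λ) : bt y v ≤ 1 := by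
  unfold bt; split_ifs; exacts [hy, le_rfl]

theorem Ns_le_N0 (K : ℕ) (π : Perm (Fin T × Λ)) (D : Fin T × Λ → Bool) : Ns K π D ≤ N0 D :=
  card_le_card fun x hx => by simp only [mem_filter, mem_univ, true_and] at hx ⊢; exact hx.1

end model

theorem le_MM (β : ℝ) (w : ℕ) : β ≤ MM β w := by
  have h1 := (Nat.lt_floor_add_one β).le
  have h2 : ((⌊β⌋₊ + 1 : ℕ) : ℝ) ≤ MM β w := by
    exact_mod_cast Nat.le_mul_of_pos_right _ (Nat.succ_pos w)
  push_cast at h2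
  linarith

theorem MM_pos (β : ℝ) (w : ℕ) : (0 : ℝ) < MM β w := by exact_mod_cast NeZero.pos (MM β w)

section word
variable {L n : ℕ} [NeZero L] [NeZero n] {β : ℝ} (w : ℕ) {sy : List (Sl L n × Sl L n × ℝ)}

theorem stp_mem_sy (β : ℝ) {s : Fin (TT β w sy)}
    (h : ¬ s % (lay sy).length < (bl L n).length) : stp β w sy s ∈ sy := by
  unfold stp
  simp only [lay, List.get_eq_getElem] at h ⊢
  rw [List.getElem_append_right (not_lt.1 h)]
  exact List.getElem_mem _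

theorem pp_mem (hβ : 0 ≤ β) (hs : Sym sy) (s : Fin (TT β w sy)) :
    0 ≤ pp β w sy s ∧ pp β w sy s ≤ 1 / 2 := by
  have h0 := MM_pos β w
  unfold pp
  split_ifs with h1 h2
  · exact ⟨by positivity, by rw [div_le_iff₀ (by positivity)]; linarith [le_MM β w]⟩
  · exact hs.prob _ (stp_mem_sy w β h1)
  · norm_num

theorem pp_mem' (hβ : 0 ≤ β) (hs : Sym sy) (s : Fin (TT β w sy)) :
    0 ≤ pp β w sy s ∧ pp β w sy s ≤ 1 :=
  ⟨(pp_mem w hβ hs s).1, by linarith [(pp_mem w hβ hs s).2]⟩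

theorem one_le_EW (hβ : 0 ≤ β) (hs : Sym sy) {b : Fin (TT β w sy) × Sl L n → ℝ}
    (hb : ∀ v, 0 ≤ b v) : 1 ≤ EW β w sy b fun _ _ => 1 :=
  one_le_EE _ _ (pp_mem' w hβ hs) hb

end word

end Crest.Agent.N337.Top
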