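import Crest.Agent.N337.Top.Defs
import Crest.Agent.N337.C.Rot
import Crest.Agent.N337.C.Model
import Crest.Agent.N337.KV.Word

/-!
# Row 337, TOP: the density of down slots of the word tends to the magnon density (helper31)
-/

set_option autoImplicit false
set_option linter.unusedSectionVars false

namespace Crest.Agent.N337.Top

open Finset Equiv Filter Topology Matrix Crest.Agent.N337.Rep Crest.Agent.N337.Slot
  Crest.MathPhysics.SpinModel

namespace Br

section model
variable {Λ : Type} [Fintype Λ] [DecidableEq Λ] {T : ℕ} [NeZero T]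

lemma zd_bt (y : ℝ) (D : Fin T × Λ → Bool) : zd (bt y) D = y ^ N0 D := by
  rw [zd, Fintype.prod_prod_type, prod_eq_single 0, N0, pow_cnt]
  · simp [bt]
  · intro s _ hs; simp [bt, hs]
  · simp

lemma ins1_diag (π : Perm (Fin T × Λ)) (D : Fin T × Λ → Bool) (g : (Λ → Bool) → ℝ) :
    ∏ r, ins1 0 (diagonal g) r (fun x => D (r, x)) (fun x => D (π.symm (r, x))) =
      if ∀ w, D (π w) = D w then g fun x => D (0, x) else 0 := by
  have h : ∀ r, ins1 0 (diagonal g) r (fun x => D (r, x)) (fun x => D (π.symm (r, x))) =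
      (1 : BOp Λ) (fun x => D (r, x)) (fun x => D (π.symm (r, x))) *
        if r = 0 then g fun x => D (0, x) else 1 := by
    intro r
    unfold ins1
    split_ifs with h1
    · subst h1
      rw [diagonal_apply, one_apply, ite_mul, one_mul, zero_mul]
    · rw [mul_one]
  simp only [h, prod_mul_distrib, ins0_eq, prod_ite_eq', mem_univ, if_true, ite_mul, one_mul,
    zero_mul]

lemma EE_eq (ex ey : Fin T → Λ) (p : Fin T → ℝ) (y : ℝ) (f : ℕ → ℝ) :
    EE ex ey p (bt y) (fun _ D => f (N0 D)) = amp (fun s => step (ex s) (ey s) (p s))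
      (ins1 0 (diagonal fun σ => y ^ cnt σ * f (cnt σ))) := by
  have h := Rep.amp_eq ex ey p (fun _ => 1) (ins1 0 (diagonal fun σ => y ^ cnt σ * f (cnt σ)))
  have h1 : (fug 1 : BOp Λ) = 1 := by simp [fug]
  simp only [h1, Matrix.one_mul, ins1_diag] at h
  rw [h, EE]
  simp only [zd_bt]
  simp [zd, N0]

lemma amp_pr (Y : Fin T → BOp Λ) (Y' : ℕ → BOp Λ) (h : ∀ s : Fin T, Y s = Y' s) (A : BOp Λ) :
    amp Y (ins1 0 A) = (KV.pr Y' T * A).trace := by
  rw [KV.amp_eq Y _ 0, ← KV.pr_ins Y' A (NeZero.pos T)]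
  congr 1
  refine KV.pr_congr fun j hj => ?_
  rw [h, Nat.zero_add, KV.tm_val_of_lt hj, ins1]
  congr 1
  exact if_congr (by rw [Fin.ext_iff, KV.tm_val_of_lt hj]; rfl) rfl rfl

lemma trace_diag (W : BOp Λ) (g : ℕ → ℝ) : (W * diagonal fun σ => g (cnt σ)).trace =
    ∑ N ∈ range (Fintype.card Λ + 1), C.Zs W N * g N := by
  simp only [C.Zs, C.sec, trace, diag_apply, diagonal_mul, mul_diagonal, sum_mul]
  rw [sum_comm]
  refine sum_congr rfl fun σ _ => ?_
  have : cnt σ ∈ range (Fintype.card Λ + 1) := mem_range.2 (Nat.lt_succ_of_le (card_le_univ _))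
  simp [this]

lemma rev_prod (l : List (Λ × Λ × ℝ)) :
    (l.map fun q => step q.1 q.2.1 q.2.2).reverse.prod = (SL.wp l)ᵀ := by
  induction l with
  | nil => simp [SL.wp]
  | cons q l ih =>
    simp only [SL.wp, List.map_cons, List.reverse_cons, List.prod_append,
      List.prod_cons, transpose_mul] at ih ⊢
    rw [ih]
    simp [step, transpose_add, transpose_smul, SL.swp_transpose]

end model

lemma getD_app {α β : Type} [One β] (l l' : List α) (f g : α → β) {i : ℕ} (hi : i < (l ++ l').length) :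
    (l.map f ++ l'.map g).getD i 1 =
      if i < l.length then f ((l ++ l').get ⟨i, hi⟩) else g ((l ++ l').get ⟨i, hi⟩) := by
  rw [List.getD_eq_getElem _ _ (by simpa using hi)]
  by_cases h : i < l.length <;> simp [List.getElem_append, h]

variable {L n : ℕ} [NeZero L] [NeZero n]

/-- one sweep of the bonds -/
noncomputable def G (L n : ℕ) [NeZero L] (d : ℝ) : BOp (Sl L n) :=
  ((bl L n).map fun q => 1 + d • ((1 / 2 : ℝ) • (swp q.1 q.2.1 - 1))).reverse.prod

lemma word (β : ℝ) (w : ℕ) {sy : List (Sl L n × Sl L n × ℝ)} (hs : Sym sy) (A : BOp (Sl L n)) :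
    amp (fun s => step (ex β w sy s) (ey β w sy s) (pp β w sy s)) (ins1 0 A) =
      (C.Mo.PP (Tor 3 L) n * G L n (β / MM β w) ^ MM β w * A).trace := by
  obtain ⟨M, hM⟩ : ∃ M, MM β w = M + 1 := Nat.exists_eq_succ_of_ne_zero (NeZero.ne _)
  set f : Sl L n × Sl L n × ℝ → BOp (Sl L n) :=
    fun q => 1 + (β / MM β w) • ((1 / 2 : ℝ) • (swp q.1 q.2.1 - 1)) with hf
  set l0 := (bl L n).map f ++ sy.map fun _ => 1 with hl0
  set l1 := (bl L n).map f ++ sy.map fun q => step q.1 q.2.1 q.2.2 with hl1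
  have hE : 0 < (lay sy).length := NeZero.pos _
  have e0 : l0.length = (lay sy).length := by simp [hl0, lay]
  have e1 : l1.length = (lay sy).length := by simp [hl1, lay]
  rw [amp_pr _ fun k => if k / (lay sy).length + 1 = MM β w then l1.getD (k % (lay sy).length) 1
    else l0.getD (k % (lay sy).length) 1]
  · congr 2
    rw [TT]
    generalize (lay sy).length = E at hE e0 e1
    conv_lhs => rw [hM, Nat.succ_mul, KV.pr_add]
    rw [KV.pr_congr (k := E) (g := fun j => l1.getD j 1) fun j hj => by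
        rw [if_pos (by rw [Nat.mul_comm, Nat.mul_add_div hE, Nat.div_eq_of_lt hj]),
          Nat.mul_add_mod_of_lt hj],
      KV.pr_congr (k := M * E) (g := fun j => l0.getD (j % E) 1) fun j hj => by
        rw [if_neg (by have := (Nat.div_lt_iff_lt_mul hE).2 hj; omega)],
      KV.pr_mul (by simp), KV.pr_congr (k := E) (f := fun j => l0.getD (j % E) 1)
        (g := fun j => l0.getD j 1) fun j hj => by rw [Nat.mod_eq_of_lt hj]]
    have b0 := KV.pr_getD l0
    have b1 := KV.pr_getD l1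
    rw [e0] at b0
    rw [e1] at b1
    rw [b0, b1]
    have a0 : l0.reverse.prod = G L n (β / MM β w) := by simp [hl0, G, hf]
    have a1 : l1.reverse.prod = C.Mo.PP (Tor 3 L) n * G L n (β / MM β w) := by
      rw [hl1, List.reverse_append, List.prod_append, rev_prod, hs.prod, C.Mo.PP_symm]; rfl
    rw [a0, a1]
    conv_rhs => rw [hM, pow_succ', ← hM]
    rw [Matrix.mul_assoc]
  · intro s
    have hi : (s : ℕ) % (lay sy).length < (bl L n ++ sy).length := Nat.mod_lt _ hE
    rw [hl0, hl1, getD_app _ _ _ _ hi, getD_app _ _ _ _ hi, pp]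
    have hq : ∀ q, f q = step q.1 q.2.1 (β / (2 * MM β w)) := fun q => by
      simp only [hf]
      rw [step, smul_smul, smul_sub, sub_smul, one_smul, mul_comm (2 : ℝ), ← div_div, mul_one_div]
      abel
    split_ifs
    · exact (hq _).symm
    · exact (hq _).symm
    · rfl
    · simp [step]

lemma J_eq (x y : Tor 3 L) : torJ (nnCoupling 3) L x y = ∑ a : Fin 3,
    ((if y = x + Pi.single a 1 then 1 else 0) + if x = y + Pi.single a 1 then 1 else 0) := by
  have h1 : Free.sp (Asy.coup_nn 3) = Asy.units 3 := by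
    ext z; rw [Free.mem_sp, ← mem_coe, ← Asy.support_nn]; rfl
  rw [Free.torJ_eq (Asy.coup_nn 3), h1, sum_congr rfl
    (g := fun z => if tcast L z = y - x then (1 : ℝ) else 0) fun z hz => by
      rw [nnCoupling, if_pos (Asy.mem_units.1 hz)], Asy.sum_units]
  refine sum_congr rfl fun a _ => ?_
  have h2 : tcast L (Pi.single a 1 : Fin 3 → ℤ) = Pi.single a 1 := by
    funext b; by_cases hb : b = a <;> simp [tcast, hb]
  have h3 : tcast L (Pi.single a (-1) : Fin 3 → ℤ) = -Pi.single a 1 := by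
    funext b; by_cases hb : b = a <;> simp [tcast, hb]
  rw [h2, h3]
  congr 1
  · exact if_congr (by rw [eq_comm, sub_eq_iff_eq_add']) rfl rfl
  · exact if_congr (by rw [neg_eq_iff_eq_neg, neg_sub, eq_comm, sub_eq_iff_eq_add']) rfl rfl

lemma sum_bl : ((bl L n).map fun q => (1 / 2 : ℝ) • (swp q.1 q.2.1 - 1)).sum =
    C.Mo.GG n (torJ (nnCoupling 3) L) := by
  have h1 : ∀ a : Fin 3, ∑ u : Sl L n, ∑ v : Sl L n,
      ((if u.1 = v.1 + Pi.single a 1 then (1 : ℝ) else 0) / 2 / 2) • (swp u v - 1) =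
      ∑ u : Sl L n, ∑ v : Sl L n,
      ((if v.1 = u.1 + Pi.single a 1 then (1 : ℝ) else 0) / 2 / 2) • (swp u v - 1) := fun a => by
    rw [sum_comm]
    exact sum_congr rfl fun u _ => sum_congr rfl fun v _ => by rw [SL.swp_comm]
  have h2 : ∀ (a : Fin 3) (u : Sl L n), ∑ v : Sl L n,
      ((if v.1 = u.1 + Pi.single a 1 then (1 : ℝ) else 0) / 2 / 2) • (swp u v - 1) =
      ∑ j, (1 / 2 / 2 : ℝ) • (swp u (u.1 + Pi.single a 1, j) - 1) := fun a u => by
    rw [Fintype.sum_prod_type, sum_eq_single (u.1 + Pi.single a 1)]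
    · simp
    · intro b _ hb; simp [hb]
    · simp
  have h3 : C.Mo.GG n (torJ (nnCoupling 3) L) = ∑ a : Fin 3, ∑ u : Sl L n,
      ∑ j, (1 / 2 : ℝ) • (swp u (u.1 + Pi.single a 1, j) - 1) := by
    rw [C.Mo.GG_eq]
    simp only [J_eq, sum_div, sum_smul, add_div, add_smul]
    simp only [sum_comm (s := (univ : Finset (Sl L n))) (t := (univ : Finset (Fin 3)))]
    refine sum_congr rfl fun a _ => ?_
    simp only [sum_add_distrib, h1, h2]
    simp only [← sum_add_distrib, ← add_smul, add_halves]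
  rw [h3, bl, List.map_map, sum_map_toList]
  simp only [Fintype.sum_prod_type, Function.comp, ends]
  exact sum_comm

lemma MM_tendsto (β : ℝ) : Tendsto (MM β) atTop atTop :=
  tendsto_atTop_mono (fun w => (Nat.le_succ w).trans (Nat.le_mul_of_pos_left _ (Nat.succ_pos _)))
    tendsto_id

open scoped Matrix.Norms.Operator in
lemma lim {β : ℝ} (hβ : 0 < β) {sy : List (Sl L n × Sl L n × ℝ)} (hs : Sym sy) (y : ℝ)
    (f : ℕ → ℝ) : Tendsto (fun w : ℕ => EW β w sy (bt y) fun _ D => f (N0 D)) atTop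
      (𝓝 (∑ N ∈ range (Fintype.card (Sl L n) + 1),
        C.Zs (C.Mo.WW n (torJ (nnCoupling 3) L) β) N * (y ^ N * f N))) := by
  have h0 : G L n 0 = 1 := by simp [G]
  have h1 : HasDerivAt (G L n) (C.Mo.GG n (torJ (nnCoupling 3) L)) 0 :=
    sum_bl (L := L) (n := n) ▸ KV.Lm.deriv_list (bl L n) fun q => (1 / 2 : ℝ) • (swp q.1 q.2.1 - 1)
  have h2 := (((KV.Lm.lim_one h0 h1 hβ).comp (MM_tendsto β)).const_mul
    (C.Mo.PP (Tor 3 L) n)).mul_const (diagonal fun σ => y ^ cnt σ * f (cnt σ))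
  have h3 := (continuous_id.matrix_trace.tendsto _).comp h2
  rw [← trace_diag _ fun N => y ^ N * f N]
  refine Tendsto.congr (fun w => ?_) h3
  rw [EW, EE_eq, word β w hs]
  rfl

end Br

open Br in
theorem bridge : BridgeStmt := by
  intro n _ L hL β hβ sy hs θ
  have hF := C.Mo.ferro_nn (d := 3) (L := L + 1) (by omega)
  obtain ⟨k, k0, hk⟩ := C.Mo.Zs_WW (n := n) hF β
  obtain ⟨r1, r2, -⟩ := C.rot (Tor 3 (L + 1)) n _ β hF
  have e : β * (θ / β) = θ := by field_simp
  have h0 : (((L + 1 : ℕ) : ℝ)) ^ 3 ≠ 0 := by positivity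
  have hm : ∀ j : ℕ, ∑ N ∈ range (Fintype.card (Sl (L + 1) n) + 1),
      C.Zs (C.Mo.WW n (torJ (nnCoupling 3) (L + 1)) β) N * (Real.exp (-θ) ^ N * (N : ℝ) ^ j) =
      k * C.mo (C.Zc n (torJ (nnCoupling 3) (L + 1)) β) (n * Fintype.card (Tor 3 (L + 1))) j θ := by
    intro j
    rw [C.mo, mul_sum, Fintype.card_prod, Fintype.card_fin, mul_comm _ n]
    refine sum_congr rfl fun N _ => ?_
    rw [hk, ← Real.exp_nat_mul, show (N : ℝ) * -θ = -(θ * N) by ring]
    ring
  have hne : C.mo (C.Zc n (torJ (nnCoupling 3) (L + 1)) β) (n * Fintype.card (Tor 3 (L + 1))) 0 θ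
      ≠ 0 := fun h => by
    have h1 := Zp_pos (n := n) (torJ (nnCoupling 3) (L + 1)) β (θ / β)
    have h2 := congrArg (Real.exp (θ * (n * Fintype.card (Tor 3 (L + 1)) / 2)) * ·) h
    simp only [C.mo, mul_sum, mul_zero] at h2
    rw [r1, e, sum_congr rfl fun N _ => ?_, h2] at h1
    · exact lt_irrefl _ h1
    · rw [pow_zero, mul_one, mul_left_comm, ← Real.exp_add]
      congr 2; ring
  have h1 := lim hβ hs (Real.exp (-θ)) fun N => (N : ℝ) ^ 1
  have h2 := lim hβ hs (Real.exp (-θ)) fun N => (N : ℝ) ^ 0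
  rw [hm] at h1 h2
  have h3 := h1.div h2 (mul_ne_zero k0.ne' hne)
  rw [mul_div_mul_left _ _ k0.ne'] at h3
  rw [C.dens, r2, div_mul_cancel₀ _ h0, e]
  simp only [pow_one, pow_zero] at h3
  exact h3

end Crest.Agent.N337.Top
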