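import Crest.Agent.N337.Top.BDefs
import Crest.Agent.N337.Top.Bas
import Crest.Agent.N337.Top.Bridge

/-!
# Row 337, TOP (B): the clock of the word of the torus (`WordStmt`, `RR.Word`)
-/

set_option autoImplicit false
set_option linter.unusedSectionVars false

namespace Crest.Agent.N337.ZM

open Finset Crest.MathPhysics.SpinModel Free KV G1 Crest.Agent.N337.Top

namespace Wd

lemma sum_getD {X : Type} (d : X) (f : X → ℝ) (l : List X) :
    ∑ a ∈ range l.length, f (l.getD a d) = (l.map f).sum := by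
  induction l with
  | nil => simp
  | cons x l ih =>
    rw [List.length_cons, sum_range_succ', List.map_cons, List.sum_cons, ← ih, add_comm]
    rfl

lemma sum_map_le {X : Type} (P : X → Prop) [DecidablePred P] (f : X → ℝ) (c : ℝ) (l : List X)
    (h : ∀ s ∈ l, f s ≤ if P s then c else 0) :
    (l.map f).sum ≤ ((l.filter fun s => P s).length : ℝ) * c := by
  induction l with
  | nil => simp
  | cons x l ih =>
    have h1 := h x List.mem_cons_self
    have h2 := ih fun s hs => h s (List.mem_cons_of_mem _ hs)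
    rw [List.map_cons, List.sum_cons, List.filter_cons]
    by_cases hx : P x
    · simp only [hx, if_true, decide_true, List.length_cons] at h1 ⊢
      push_cast
      linarith
    · simp only [hx, if_false, decide_false, Bool.false_eq_true] at h1 ⊢
      linarith

lemma sum_once {M N : ℕ} (hN : N ≤ M) (c : ℕ) {x : ℝ} (hx : 0 ≤ x) :
    ∑ j ∈ range N, (if (c + j) % M + 1 = M then x else 0) ≤ x := by
  rw [← sum_filter, sum_const, nsmul_eq_mul]
  refine mul_le_of_le_one_left hx ?_
  rw [Nat.cast_le_one, card_le_one]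
  intro a ha b hb
  simp only [mem_filter, mem_range] at ha hb
  exact Nat.ModEq.eq_of_lt_of_lt
    (Nat.ModEq.add_left_cancel' c (show (c + a) % M = (c + b) % M by omega))
    (by omega) (by omega)

variable {L n : ℕ} [NeZero L] [NeZero n]

lemma Jn_one (hL : 3 ≤ L) (x : Tor 3 L) (d : Fin 3) : Jn L x (x + Pi.single d 1) = 1 := by
  have h1 : (1 : ZMod L) ≠ 0 := fun h => by
    have := Nat.le_of_dvd one_pos ((ZMod.natCast_eq_zero_iff 1 L).1 (by simpa using h))
    omega
  have h2 : (1 + 1 : ZMod L) ≠ 0 := fun h => by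
    have := Nat.le_of_dvd two_pos ((ZMod.natCast_eq_zero_iff 2 L).1 (by
      rw [← h]; push_cast; ring))
    omega
  rw [Jn, Br.J_eq, sum_eq_single d, if_pos rfl, if_neg, add_zero]
  · intro h
    have := congrFun h d
    rw [Pi.add_apply, Pi.add_apply, Pi.single_eq_same, add_assoc, left_eq_add] at this
    exact h2 this
  · intro a _ ha
    rw [if_neg, if_neg, add_zero]
    · intro h
      have := congrFun h d
      rw [Pi.add_apply, Pi.add_apply, Pi.single_eq_same, Pi.single_eq_of_ne ha.symm, add_zero,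
        left_eq_add] at this
      exact h1 this
    · intro h
      have := congrFun h d
      rw [Pi.add_apply, Pi.add_apply, Pi.single_eq_same, Pi.single_eq_of_ne ha.symm, add_zero,
        add_eq_left] at this
      exact h1 this
  · simp

lemma Jn_cases {x y : Tor 3 L} (h : Jn L x y ≠ 0) :
    ∃ d : Fin 3, y = x + Pi.single d 1 ∨ x = y + Pi.single d 1 := by
  by_contra hc
  push Not at hc
  apply h
  rw [Jn, Br.J_eq]
  exact sum_eq_zero fun a _ => by rw [if_neg (hc a).1, if_neg (hc a).2, add_zero]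

lemma ne_add (hL : 3 ≤ L) (x : Tor 3 L) (d : Fin 3) : x ≠ x + Pi.single d 1 := by
  intro h
  have := congrFun h d
  rw [Pi.add_apply, Pi.single_eq_same, left_eq_add] at this
  have := Nat.le_of_dvd one_pos ((ZMod.natCast_eq_zero_iff 1 L).1 (by simpa using this))
  omega

/-- number of bonds at a slot. -/
lemma cnt_slot (z : Sl L n) :
    ∑ e : Bd L n, (if z = (ends e).1 ∨ z = (ends e).2.1 then (1 : ℝ) else 0) ≤ 6 * n := by
  have h1 : ∑ e : Bd L n, (if z = (ends e).1 then (1 : ℝ) else 0) = 3 * n := by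
    obtain ⟨x, c⟩ := z
    simp only [ends, Fintype.sum_prod_type, Prod.mk.injEq, ite_and]
    rw [sum_eq_single x (fun _ _ h => by simp [h.symm]) (by simp)]
    simp only [if_true, sum_comm (s := (univ : Finset (Fin n))) (t := (univ : Finset (Fin n)))
      (f := fun i _ => if c = i then (1 : ℝ) else 0), sum_ite_eq, mem_univ]
    simp
  have h2 : ∑ e : Bd L n, (if z = (ends e).2.1 then (1 : ℝ) else 0) = 3 * n := by
    obtain ⟨x, c⟩ := z
    rw [Fintype.sum_prod_type, sum_comm]
    simp only [ends, Prod.mk.injEq, ite_and, ← sub_eq_iff_eq_add, sum_ite_eq, mem_univ, if_true]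
    simp only [Fintype.sum_prod_type, sum_ite_eq, mem_univ, if_true]
    simp
  rw [show (6 : ℝ) * n = 3 * n + 3 * n by ring]
  nth_rw 1 [← h1]
  rw [← h2, ← sum_add_distrib]
  refine sum_le_sum fun e _ => ?_
  by_cases a : z = (ends e).1 <;> by_cases b : z = (ends e).2.1 <;> simp only [a, b] <;>
    split_ifs <;> simp_all

/-- number of bonds at a site. -/
lemma cnt_site (z : Tor 3 L) :
    ∑ e : Bd L n, (if (ends e).1.1 = z ∨ (ends e).2.1.1 = z then (1 : ℝ) else 0) ≤ 6 * n ^ 2 := by
  have h1 : ∑ e : Bd L n, (if (ends e).1.1 = z then (1 : ℝ) else 0) = 3 * n ^ 2 := by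
    rw [Fintype.sum_prod_type, sum_comm]
    have h : ∀ y : Fin 3 × Fin n × Fin n,
        ∑ x : Tor 3 L, (if (ends (x, y)).1.1 = z then (1 : ℝ) else 0) = 1 := fun y =>
      (sum_eq_single z (fun x _ h => if_neg h) (by simp)).trans (if_pos rfl)
    simp only [h]
    simp [pow_two]
  have h2 : ∑ e : Bd L n, (if (ends e).2.1.1 = z then (1 : ℝ) else 0) = 3 * n ^ 2 := by
    rw [Fintype.sum_prod_type, sum_comm]
    simp [ends, ← eq_sub_iff_add_eq, pow_two]
  rw [show (6 : ℝ) * n ^ 2 = 3 * n ^ 2 + 3 * n ^ 2 by ring]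
  nth_rw 1 [← h1]
  rw [← h2, ← sum_add_distrib]
  refine sum_le_sum fun e _ => ?_
  by_cases a : (ends e).1.1 = z <;> by_cases b : (ends e).2.1.1 = z <;> simp [a, b]

variable (β : ℝ) (w : ℕ) (sy : List (Sl L n × Sl L n × ℝ))

lemma val_mod (i : ℕ) {a : ℕ} (ha : a < (lay sy).length) :
    (tm (TT β w sy) (i * (lay sy).length + a)).val % (lay sy).length = a := by
  rw [tm_val, TT, Nat.mod_mul_left_mod, Nat.mul_add_mod', Nat.mod_eq_of_lt ha]

lemma val_div (i : ℕ) {a : ℕ} (ha : a < (lay sy).length) :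
    (tm (TT β w sy) (i * (lay sy).length + a)).val / (lay sy).length = i % MM β w := by
  rw [tm_val, TT, Nat.mod_mul_left_div_self, add_comm, Nat.add_mul_div_right _ _ (by omega),
    Nat.div_eq_of_lt ha, zero_add]

lemma stp_tm (i : ℕ) {a : ℕ} (ha : a < (lay sy).length) :
    stp β w sy (tm _ (i * (lay sy).length + a)) = (lay sy).getD a 0 := by
  simp only [stp, val_mod β w sy i ha, List.get_eq_getElem]
  exact (List.getD_eq_getElem _ _ ha).symm

lemma pp_tm (i : ℕ) {a : ℕ} (ha : a < (lay sy).length) :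
    pp β w sy (tm _ (i * (lay sy).length + a)) = if a < (bl L n).length then β / (2 * MM β w)
      else if i % MM β w + 1 = MM β w then ((lay sy).getD a 0).2.2 else 0 := by
  rw [pp, val_mod β w sy i ha, val_div β w sy i ha, stp_tm β w sy i ha]

/-- sums over one sweep. -/
lemma sweep (i : ℕ) (φ : Sl L n → Sl L n → ℝ → ℝ) :
    ∑ a ∈ range (lay sy).length, φ (ex β w sy (tm _ (i * (lay sy).length + a)))
      (ey β w sy (tm _ (i * (lay sy).length + a))) (pp β w sy (tm _ (i * (lay sy).length + a))) =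
      ∑ e : Bd L n, φ (ends e).1 (ends e).2.1 (β / (2 * MM β w)) +
        (sy.map fun s => φ s.1 s.2.1 (if i % MM β w + 1 = MM β w then s.2.2 else 0)).sum := by
  rw [sum_congr rfl fun a ha => by
    rw [ex, ey, stp_tm β w sy i (mem_range.1 ha), pp_tm β w sy i (mem_range.1 ha)]]
  rw [lay, List.length_append, sum_range_add, ← sum_getD 0]
  congr 1
  · rw [sum_congr rfl fun a ha => by
      rw [if_pos (mem_range.1 ha), List.getD_append _ _ _ _ (mem_range.1 ha)],
      sum_getD 0 fun s : Sl L n × Sl L n × ℝ => φ s.1 s.2.1 (β / (2 * MM β w)), bl, List.map_map,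
      sum_map_toList]
    rfl
  · refine sum_congr rfl fun a _ => ?_
    rw [if_neg (by omega), List.getD_append_right _ _ _ _ (by omega), Nat.add_sub_cancel_left]

/-- the place of a bond in the sweep. -/
lemma bond (e : Bd L n) : ∃ a < (lay sy).length, ∀ i,
    ex β w sy (tm _ (i * (lay sy).length + a)) = (ends e).1 ∧
      ey β w sy (tm _ (i * (lay sy).length + a)) = (ends e).2.1 ∧
      pp β w sy (tm _ (i * (lay sy).length + a)) = β / (2 * MM β w) := by
  obtain ⟨a, ha, h⟩ := List.mem_iff_getElem.1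
    (show ends e ∈ bl L n from List.mem_map_of_mem (mem_toList.2 (mem_univ e)))
  have ha' : a < (lay sy).length := by rw [lay, List.length_append]; omega
  refine ⟨a, ha', fun i => ?_⟩
  rw [ex, ey, stp_tm β w sy i ha', pp_tm β w sy i ha', if_pos ha, lay,
    List.getD_append _ _ _ _ ha, List.getD_eq_getElem _ _ ha, h]
  exact ⟨rfl, rfl, rfl⟩

variable {β sy}

lemma two_le_B (hβ : 1 ≤ β) : 2 ≤ ⌊β⌋₊ + 1 := by
  have := (Nat.one_le_floor_iff β).2 hβ
  omega

lemma q_pos (hβ : 1 ≤ β) : 0 < β / (2 * MM β w) := by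
  have := MM_pos β w
  positivity

lemma wq (hβ : 1 ≤ β) : 1 / 4 ≤ ((w + 1 : ℕ) : ℝ) * (β / (2 * MM β w)) ∧
    ((w + 1 : ℕ) : ℝ) * (β / (2 * MM β w)) ≤ 1 / 2 := by
  have h1 := Nat.floor_le (show 0 ≤ β by linarith)
  have h2 := Nat.lt_floor_add_one β
  have e : ((w + 1 : ℕ) : ℝ) * (β / (2 * MM β w)) = β / (2 * (⌊β⌋₊ + 1)) := by
    rw [MM]; push_cast; field_simp
  rw [e, le_div_iff₀ (by positivity), div_le_iff₀ (by positivity)]
  constructor <;> linarith

lemma nn (hL : 3 ≤ L) (hs : Sym sy) (s : Fin (TT β w sy)) :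
    tdist (ex β w sy s).1 (ey β w sy s).1 ≤ 1 := by
  have h : stp β w sy s ∈ bl L n ++ sy := List.get_mem _ _
  rw [ex, ey]
  rcases List.mem_append.1 h with h | h
  · obtain ⟨e, -, he⟩ := List.mem_map.1 h
    rw [← he]
    exact Jn_nn (by rw [ends, Jn_one hL]; exact one_ne_zero)
  · rw [hs.site _ h, tdist_self]; exact zero_le_one

lemma sweep_tch (hβ : 1 ≤ β) (hs : Sym sy) (i : ℕ) (z : Sl L n) :
    ∑ a ∈ range (lay sy).length, tch (ex β w sy) (ey β w sy) (pp β w sy) z
      (i * (lay sy).length + a) ≤ 6 * n * (β / (2 * MM β w)) +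
        if i % MM β w + 1 = MM β w then (n : ℝ) ^ 2 / 2 else 0 := by
  have hq := q_pos w hβ
  refine (sweep β w sy i fun x y p => if z = x ∨ z = y then p else 0).trans_le
    (add_le_add ?_ ?_)
  · refine le_trans (le_of_eq ?_) (mul_le_mul_of_nonneg_right (cnt_slot z) hq.le)
    rw [sum_mul]
    exact sum_congr rfl fun e _ => by rw [ite_mul, one_mul, zero_mul]
  · split_ifs with h
    · refine (sum_map_le (fun s => s.1.1 = z.1) _ (1 / 2) sy fun s hs' => ?_).trans ?_
      · have h1 := hs.prob s hs'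
        have h2 := hs.site s hs'
        split_ifs with a b b
        · exact h1.2
        · exact (b (a.elim (fun e => by rw [e]) fun e => by rw [h2, e])).elim
        · norm_num
        · exact le_rfl
      · have : ((sy.filter fun q => q.1.1 = z.1).length : ℝ) ≤ (n : ℝ) ^ 2 := by
          exact_mod_cast hs.few z.1
        linarith
    · simp

end Wd

open Wd

theorem word : WordStmt := by
  intro L n _ _ hL β hβ sy hs w y hy hy1
  have hn : (1 : ℝ) ≤ n := by exact_mod_cast NeZero.one_le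
  have hq := q_pos w hβ
  have hw := wq w hβ
  have hB := two_le_B hβ
  have hE : 0 < (lay sy).length := NeZero.pos _
  have hM : (⌊β⌋₊ + 1) * (w + 1) = MM β w := rfl
  have h2 : 2 * (w + 1) ≤ MM β w := Nat.mul_le_mul_right _ hB
  refine ⟨⟨rfl, hq, by nlinarith, ⟨by nlinarith, by nlinarith⟩, pp_mem w (by linarith) hs,
    fun i _ _ => ?_, fun i hi hb z => ?_, fun i hi hb a ha => ?_⟩,
    ⟨fun i z => ?_, fun s => ?_, fun i => ?_⟩, fun i _ _ x c c' => ?_, nn w hL hs⟩
  · have h : ∀ e : Tor 3 L × Tor 3 L × Fin n, ∃ a, Jn L e.1 e.2.1 ≠ 0 → a < (lay sy).length ∧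
        ((ex β w sy (tm _ (i * (lay sy).length + a)) = (e.1, e.2.2) ∧
          ey β w sy (tm _ (i * (lay sy).length + a)) = (e.2.1, e.2.2)) ∨
        (ex β w sy (tm _ (i * (lay sy).length + a)) = (e.2.1, e.2.2) ∧
          ey β w sy (tm _ (i * (lay sy).length + a)) = (e.1, e.2.2))) ∧
        pp β w sy (tm _ (i * (lay sy).length + a)) = β / (2 * MM β w) * Jn L e.1 e.2.1 := by
      rintro ⟨x, x', c⟩
      by_cases hJ : Jn L x x' ≠ 0
      · obtain ⟨d, rfl | rfl⟩ := Jn_cases hJ
        · obtain ⟨a, ha, h⟩ := bond β w sy (x, d, c, c)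
          exact ⟨a, fun _ => ⟨ha, Or.inl ⟨(h i).1, (h i).2.1⟩, by
            rw [(h i).2.2, Jn_one hL, mul_one]⟩⟩
        · obtain ⟨a, ha, h⟩ := bond β w sy (x', d, c, c)
          exact ⟨a, fun _ => ⟨ha, Or.inr ⟨(h i).1, (h i).2.1⟩, by
            rw [(h i).2.2, Cu.Jn_symm, Jn_one hL, mul_one]⟩⟩
      · exact ⟨0, fun h => (hJ h).elim⟩
    choose a ha using h
    refine ⟨a, fun k => ?_, fun x x' c hJ => ha (x, x', c) hJ⟩
    set u := ex β w sy (tm _ (i * (lay sy).length + k)) with hu
    set v := ey β w sy (tm _ (i * (lay sy).length + k)) with hv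
    refine (card_le_card (t := {(u.1, v.1, u.2), (v.1, u.1, u.2)}) fun e he => ?_).trans card_le_two
    obtain ⟨-, h1, h3⟩ := mem_filter.1 he
    have h4 := (ha e h1).2.1
    rw [h3, ← hu, ← hv] at h4
    rcases h4 with ⟨h5, h6⟩ | ⟨h5, h6⟩ <;> simp [h5, h6]
  · have h := sweep_tch w hβ hs i z
    simp only [mem_insert, mem_singleton, not_or] at hb
    rw [Nat.mod_eq_of_lt (hM ▸ hi), if_neg (by omega), add_zero] at h
    exact h.trans (mul_le_mul_of_nonneg_right (by nlinarith) hq.le)
  · simp only [mem_insert, mem_singleton, not_or] at hb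
    refine if_neg fun h => ?_
    have h1 := val_div β w sy i ha
    rw [h, Nat.mod_eq_of_lt (hM ▸ hi)] at h1
    simp at h1
    omega
  · rw [sum_Ico_eq_sum_range, show (i + 2) * ((w + 1) * (lay sy).length) -
      i * ((w + 1) * (lay sy).length) = 2 * (w + 1) * (lay sy).length by
        rw [add_mul i, Nat.add_sub_cancel_left, mul_assoc], sum_range_mul]
    have h : ∀ j ∈ range (2 * (w + 1)), ∑ a ∈ range (lay sy).length,
        tch (ex β w sy) (ey β w sy) (pp β w sy) z
          (i * ((w + 1) * (lay sy).length) + (j * (lay sy).length + a)) ≤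
        6 * n * (β / (2 * MM β w)) +
          if (i * (w + 1) + j) % MM β w + 1 = MM β w then (n : ℝ) ^ 2 / 2 else 0 := by
      intro j _
      refine le_trans (le_of_eq (sum_congr rfl fun a _ => ?_)) (sweep_tch w hβ hs _ z)
      congr 1
      ring
    refine (sum_le_sum h).trans ?_
    rw [sum_add_distrib, sum_const, card_range, nsmul_eq_mul]
    have h3 := sum_once h2 (i * (w + 1)) (x := (n : ℝ) ^ 2 / 2) (by positivity)
    have h4 : ((2 * (w + 1) : ℕ) : ℝ) * (6 * n * (β / (2 * MM β w))) =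
        12 * n * (((w + 1 : ℕ) : ℝ) * (β / (2 * MM β w))) := by push_cast; ring
    rw [h4]
    nlinarith [hw.2]
  · unfold b0
    split_ifs
    exacts [⟨by linarith, hy1⟩, ⟨zero_le_one, le_rfl⟩]
  · rw [prod_Ico_eq_prod_range, show (i + 2) * ((w + 1) * (lay sy).length) -
      i * ((w + 1) * (lay sy).length) = 2 * (w + 1) * (lay sy).length by
        rw [add_mul i, Nat.add_sub_cancel_left, mul_assoc]]
    have hT : 2 * (w + 1) * (lay sy).length ≤ TT β w sy := Nat.mul_le_mul_right _ h2
    unfold b0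
    by_cases h : ∃ k ∈ range (2 * (w + 1) * (lay sy).length),
        tm (TT β w sy) (i * ((w + 1) * (lay sy).length) + k) = 0
    · obtain ⟨k, hk, h⟩ := h
      rw [prod_eq_single_of_mem k hk fun k' hk' hne => if_neg fun h' => hne
        ((tm_add_inj _ ((mem_range.1 hk').trans_le hT) ((mem_range.1 hk).trans_le hT)).1
          (Eq.trans h' h.symm)), if_pos h]
      linarith
    · push Not at h
      rw [prod_eq_one fun k hk => if_neg (h k hk)]
      norm_num
  · obtain ⟨a, ha, h⟩ := bond β w sy (x, 0, c, c')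
    exact ⟨a, ha, h i⟩

theorem word' {L n : ℕ} [NeZero L] [NeZero n] (hL : 3 ≤ L) {β : ℝ} (hβ : 1 ≤ β)
    {sy : List (Sl L n × Sl L n × ℝ)} (hs : Sym sy) (w : ℕ) :
    RR.Word (ex β w sy) (ey β w sy) (pp β w sy) (lay sy).length (w + 1) (⌊β⌋₊ + 1)
      (6 * (n : ℝ) ^ 2 * (β / (2 * MM β w))) := by
  have hq := q_pos w hβ
  refine ⟨rfl, two_le_B hβ, pp_mem w (by linarith) hs, nn w hL hs, fun z => ?_, fun i z => ?_⟩
  · rw [← Nat.cast_le (α := ℝ), card_filter, Nat.cast_sum, sum_tm, sum_range_mul]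
    have h3 := sum_once (le_refl (MM β w)) 0 (x := (n : ℝ) ^ 2) (by positivity)
    rw [Nat.cast_pow]
    refine (sum_le_sum fun i _ => ?_).trans h3
    simp only [Nat.cast_ite, Nat.cast_one, Nat.cast_zero]
    refine (sweep β w sy i fun x y p => if x.1 = z ∧ y.1 = z ∧ p ≠ 0 then 1 else 0).trans_le ?_
    rw [sum_eq_zero fun e _ => if_neg fun h => ne_add hL e.1 e.2.1 (h.1.trans h.2.1.symm),
      zero_add, zero_add]
    split_ifs with h
    · refine (sum_map_le (fun s => s.1.1 = z) _ 1 sy fun s _ => ?_).trans ?_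
      · split_ifs with a b b
        exacts [le_rfl, (b a.1).elim, zero_le_one, le_rfl]
      · rw [mul_one]
        exact_mod_cast hs.few z
    · simp
  · refine (sweep β w sy i fun x y p =>
      if x.1 ≠ y.1 ∧ (x.1 = z ∨ y.1 = z) then p else 0).trans_le ?_
    rw [List.sum_eq_zero, add_zero]
    · refine le_trans ?_ (mul_le_mul_of_nonneg_right (cnt_site z) hq.le)
      rw [sum_mul]
      refine sum_le_sum fun e _ => ?_
      rw [ite_mul, one_mul, zero_mul]
      split_ifs with a b b
      exacts [le_rfl, (b a.2).elim, hq.le, le_rfl]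
    · intro x hx
      obtain ⟨s, hs', rfl⟩ := List.mem_map.1 hx
      exact if_neg fun h => h.1 (hs.site s hs')

end Crest.Agent.N337.ZM
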