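import Mathlib

/-!
# Row 337, TOP (B), part 1: transient nonnegative matrices, chains, the two-sided resolvent step
-/

set_option autoImplicit false
set_option linter.unusedSectionVars false

namespace Crest.Agent.N337.ZM

open Finset Matrix

variable {V : Type} [Fintype V] [DecidableEq V]

/-- nonnegative matrices with the comparison principle. -/
def Tr (P : Matrix V V ℝ) : Prop :=
  (∀ i j, 0 ≤ P i j) ∧ ∀ h : V → ℝ, (∀ i, 0 ≤ h i) → (∀ i, h i ≤ (P *ᵥ h) i) → ∀ i, h i = 0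

/-- the Green matrix. -/
noncomputable def Gr (P : Matrix V V ℝ) : Matrix V V ℝ := (1 - P)⁻¹

variable {P Q : Matrix V V ℝ}

lemma mv_mono (hP : ∀ i j, 0 ≤ P i j) {h k : V → ℝ} (hk : ∀ i, h i ≤ k i) (i : V) :
    (P *ᵥ h) i ≤ (P *ᵥ k) i :=
  sum_le_sum fun j _ => mul_le_mul_of_nonneg_left (hk j) (hP i j)

lemma mv_nonneg (hP : ∀ i j, 0 ≤ P i j) {h : V → ℝ} (hh : ∀ i, 0 ≤ h i) (i : V) :
    0 ≤ (P *ᵥ h) i := sum_nonneg fun j _ => mul_nonneg (hP i j) (hh j)

lemma Tr.le (hP : Tr P) {h : V → ℝ} (hh : ∀ i, h i ≤ (P *ᵥ h) i) (i : V) : h i ≤ 0 := by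
  have := hP.2 (fun i => max (h i) 0) (fun i => le_max_right _ _) (fun i => max_le
    ((hh i).trans (mv_mono hP.1 (fun j => le_max_left _ _) i))
    (mv_nonneg hP.1 (fun j => le_max_right _ _) i)) i
  exact (le_max_left _ _).trans this.le

lemma Tr.mono (hP : Tr P) (h0 : ∀ i j, 0 ≤ Q i j) (h1 : ∀ i j, Q i j ≤ P i j) : Tr Q :=
  ⟨h0, fun h hh hle => hP.2 h hh fun i => (hle i).trans
    (sum_le_sum fun j _ => mul_le_mul_of_nonneg_right (h1 i j) (hh j))⟩

lemma Tr.unit (hP : Tr P) : IsUnit (1 - P).det := by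
  rw [isUnit_iff_ne_zero]
  intro h0
  obtain ⟨h, hne, hh⟩ := exists_mulVec_eq_zero_iff.2 h0
  rw [sub_mulVec, one_mulVec, sub_eq_zero] at hh
  have h1 := hP.le (h := h) fun i => (congrFun hh i).le
  have h2 := hP.le (h := -h) fun i => by rw [mulVec_neg, ← hh]
  exact hne (funext fun i => le_antisymm (h1 i) (neg_nonpos.1 (h2 i)))

lemma Tr.mul_Gr (hP : Tr P) : (1 - P) * Gr P = 1 := mul_nonsing_inv _ hP.unit
lemma Tr.Gr_mul (hP : Tr P) : Gr P * (1 - P) = 1 := nonsing_inv_mul _ hP.unit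

lemma Tr.left (hP : Tr P) : Gr P = 1 + P * Gr P := by
  have := hP.mul_Gr
  rw [Matrix.sub_mul, Matrix.one_mul] at this
  exact eq_add_of_sub_eq this

lemma Tr.right (hP : Tr P) : Gr P = 1 + Gr P * P := by
  have := hP.Gr_mul
  rw [Matrix.mul_sub, Matrix.mul_one] at this
  exact eq_add_of_sub_eq this

lemma Tr.mv (hP : Tr P) (s : V → ℝ) (i : V) : (Gr P *ᵥ s) i = s i + (P *ᵥ (Gr P *ᵥ s)) i := by
  conv_lhs => rw [hP.left]
  rw [add_mulVec, one_mulVec, mulVec_mulVec]; rfl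

/-- comparison with the Green potential. -/
lemma Tr.cmp (hP : Tr P) {h s : V → ℝ} (hh : ∀ i, h i ≤ s i + (P *ᵥ h) i) (i : V) :
    h i ≤ (Gr P *ᵥ s) i := by
  have := hP.le (h := h - Gr P *ᵥ s) (fun i => by
    rw [mulVec_sub, Pi.sub_apply, Pi.sub_apply, hP.mv]; linarith [hh i]) i
  simpa using this

lemma col_eq (G : Matrix V V ℝ) (u : V) : G *ᵥ Pi.single u 1 = fun i => G i u := by
  rw [mulVec_single_one]; rfl

lemma Tr.col (hP : Tr P) (i u : V) :
    Gr P i u = (if i = u then 1 else 0) + (P *ᵥ fun j => Gr P j u) i := by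
  have := hP.mv (Pi.single u 1) i
  rw [col_eq, Pi.single_apply] at this
  exact this

lemma Tr.nonneg (hP : Tr P) (i u : V) : 0 ≤ Gr P i u := by
  have := hP.cmp (h := 0) (s := Pi.single u 1) (fun j => by
    rw [mulVec_zero, Pi.single_apply]; split_ifs <;> simp) i
  rwa [col_eq] at this

lemma Tr.one_le (hP : Tr P) (u : V) : 1 ≤ Gr P u u := by
  rw [hP.col, if_pos rfl]
  exact le_add_of_nonneg_right (mv_nonneg hP.1 (fun j => hP.nonneg j u) u)

lemma Gr_T (P : Matrix V V ℝ) : Gr Pᵀ = (Gr P)ᵀ := by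
  rw [Gr, Gr, transpose_nonsing_inv, transpose_sub, transpose_one]

lemma Tr.T (hP : Tr P) : Tr Pᵀ := by
  refine ⟨fun i j => hP.1 j i, fun h h0 hh i => le_antisymm ?_ (h0 i)⟩
  have e : h = (Gr P)ᵀ *ᵥ ((1 - Pᵀ) *ᵥ h) := by
    rw [mulVec_mulVec, ← transpose_one, ← transpose_sub, ← transpose_mul, hP.mul_Gr,
      transpose_one, one_mulVec]
  rw [e]
  refine sum_nonpos fun j _ => mul_nonpos_of_nonneg_of_nonpos (hP.nonneg j i) ?_
  rw [sub_mulVec, one_mulVec]
  exact sub_nonpos.2 (hh j)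

lemma Tr.Gr_mono (hP : Tr P) (h0 : ∀ i j, 0 ≤ Q i j) (h1 : ∀ i j, Q i j ≤ P i j) (i u : V) :
    Gr Q i u ≤ Gr P i u := by
  have hQ := hP.mono h0 h1
  have := hP.cmp (h := fun j => Gr Q j u) (s := Pi.single u 1) (fun j => by
    rw [hQ.col j, Pi.single_apply]
    exact add_le_add_right (sum_le_sum fun k _ =>
      mul_le_mul_of_nonneg_right (h1 j k) (hQ.nonneg k u)) _) i
  rwa [col_eq] at this

/-- a column is dominated by its diagonal entry. -/
lemma Tr.col_le (hP : Tr P) (hr : ∀ i, ∑ j, P i j ≤ 1) (i u : V) : Gr P i u ≤ Gr P u u := by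
  have hQ : Tr (Matrix.of fun a c => if a = u then 0 else P a c) :=
    hP.mono (fun a c => by rw [of_apply]; split_ifs; exacts [le_rfl, hP.1 a c])
      fun a c => by rw [of_apply]; split_ifs; exacts [hP.1 a c, le_rfl]
  have := hQ.le (h := fun j => Gr P j u - Gr P u u) (fun j => ?_) i
  · linarith
  by_cases hj : j = u
  · simp [hj, mulVec, dotProduct]
  have h1 := hP.col j u
  have h2 := mul_le_mul_of_nonneg_right (hr j) (hP.nonneg u u)
  simp only [mulVec, dotProduct, of_apply, hj, if_false, mul_sub, sum_sub_distrib, ← sum_mul]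
    at h1 ⊢
  linarith

lemma Tr.row_le (hP : Tr P) (hc : ∀ j, ∑ i, P i j ≤ 1) (u i : V) : Gr P u i ≤ Gr P u u := by
  have := hP.T.col_le hc i u
  rwa [Gr_T] at this

/-- points reached from `w` by steps of `P` inside `W`. -/
def Rch (P : Matrix V V ℝ) (W : V → Prop) (w v : V) : Prop :=
  Relation.ReflTransGen (fun a c => 0 < P a c ∧ W c) w v

/-- maximum principle along chains. -/
lemma Tr.upper (hP : Tr P) (hr : ∀ i, ∑ j, P i j ≤ 1) {F : V → ℝ} {a : ℝ} (ha : 0 ≤ a) {w : V}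
    (hF : ∀ v, Rch P (fun c => a < F c) w v → F v ≤ (P *ᵥ F) v) : F w ≤ a := by
  classical
  by_contra hw
  push Not at hw
  set A : V → Prop := Rch P (fun c => a < F c) w
  have hA : ∀ v, A v → a < F v := fun v hv => by
    induction hv with
    | refl => exact hw
    | tail _ h _ => exact h.2
  have := hP.le (h := fun v => if A v then F v - a else 0) (fun v => ?_) w
  · rw [if_pos (show A w from Relation.ReflTransGen.refl)] at this
    linarith
  have h0 : ∀ c, 0 ≤ if A c then F c - a else 0 := fun c => by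
    split_ifs with h; exacts [(sub_pos.2 (hA c h)).le, le_rfl]
  split_ifs with hv
  · have h1 : ∑ c, P v c * (F c - a) ≤ ∑ c, P v c * if A c then F c - a else 0 := by
      refine sum_le_sum fun c _ => ?_
      rcases (hP.1 v c).eq_or_lt with h | h
      · rw [← h, zero_mul, zero_mul]
      refine mul_le_mul_of_nonneg_left ?_ h.le
      split_ifs with hc
      · exact le_rfl
      · exact sub_nonpos.2 (not_lt.1 fun h' => hc (hv.tail ⟨h, h'⟩))
    have h2 := mul_le_mul_of_nonneg_right (hr v) ha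
    have h3 := hF v hv
    simp only [mul_sub, sum_sub_distrib, ← sum_mul] at h1
    simp only [mulVec, dotProduct] at h3 ⊢
    linarith
  · exact mv_nonneg hP.1 h0 v

/-- minimum principle along chains: only the killing inside the reached set is lost. -/
lemma Tr.lower (hP : Tr P) (hr : ∀ i, ∑ j, P i j ≤ 1) (hc : ∀ j, ∑ i, P i j ≤ 1) {F : V → ℝ}
    {a : ℝ} (ha : 0 ≤ a) (hF : ∀ v, (P *ᵥ F) v ≤ F v) {w : V} (B : Finset V)
    (hB : ∀ v, Rch P (fun c => F c < a) w v → v ∈ B) :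
    a - F w ≤ a * Gr P w w * ∑ v ∈ B, (1 - ∑ j, P v j) := by
  classical
  have d0 : ∀ v, 0 ≤ 1 - ∑ j, P v j := fun v => sub_nonneg.2 (hr v)
  have r0 : 0 ≤ a * Gr P w w * ∑ v ∈ B, (1 - ∑ j, P v j) :=
    mul_nonneg (mul_nonneg ha (hP.nonneg w w)) (sum_nonneg fun v _ => d0 v)
  by_cases hw : F w < a
  swap
  · linarith [not_lt.1 hw]
  set A : V → Prop := Rch P (fun c => F c < a) w
  have hA : ∀ v, A v → F v < a := fun v hv => by
    induction hv with
    | refl => exact hw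
    | tail _ h _ => exact h.2
  have h0 : ∀ c, 0 ≤ if A c then a - F c else 0 := fun c => by
    split_ifs with h; exacts [(sub_pos.2 (hA c h)).le, le_rfl]
  have := hP.cmp (h := fun v => if A v then a - F v else 0)
    (s := fun v => if v ∈ B then a * (1 - ∑ j, P v j) else 0) (fun v => ?_) w
  · rw [if_pos (show A w from Relation.ReflTransGen.refl)] at this
    refine this.trans ?_
    simp only [mulVec, dotProduct, mul_ite, mul_zero, sum_ite_mem, univ_inter, mul_sum]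
    refine sum_le_sum fun v _ => ?_
    rw [← mul_assoc, mul_comm _ a]
    exact mul_le_mul_of_nonneg_right (mul_le_mul_of_nonneg_left (hP.row_le hc w v) ha) (d0 v)
  by_cases hv : A v
  · have h1 : ∑ c, P v c * (a - F c) ≤ ∑ c, P v c * if A c then a - F c else 0 := by
      refine sum_le_sum fun c _ => ?_
      rcases (hP.1 v c).eq_or_lt with h | h
      · rw [← h, zero_mul, zero_mul]
      refine mul_le_mul_of_nonneg_left ?_ h.le
      split_ifs with hc
      · exact le_rfl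
      · exact sub_nonpos.2 (not_lt.1 fun h' => hc (hv.tail ⟨h, h'⟩))
    have h3 := hF v
    simp only [mul_sub, sum_sub_distrib, ← sum_mul] at h1
    simp only [mulVec, dotProduct] at h3 ⊢
    rw [if_pos hv, if_pos (hB v hv)]
    linarith
  · rw [if_neg hv]
    refine add_nonneg ?_ (mv_nonneg hP.1 h0 v)
    split_ifs; exacts [mul_nonneg ha (d0 v), le_rfl]

/-- Schur test as a bilinear bound. -/
lemma schur {N : V → V → ℝ} (S : Finset V) {m : ℝ} (h0 : ∀ i j, 0 ≤ N i j)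
    (hr : ∀ i ∈ S, ∑ j ∈ S, N i j = m) (hc : ∀ j ∈ S, ∑ i ∈ S, N i j = m) (f g : V → ℝ) :
    ∑ i ∈ S, ∑ j ∈ S, f i * N i j * g j ≤ m * (∑ i ∈ S, f i ^ 2 + ∑ j ∈ S, g j ^ 2) / 2 := by
  have h1 : ∑ i ∈ S, ∑ j ∈ S, f i * N i j * g j ≤
      ∑ i ∈ S, ∑ j ∈ S, (f i ^ 2 * N i j + g j ^ 2 * N i j) / 2 :=
    sum_le_sum fun i _ => sum_le_sum fun j _ => by
      nlinarith [mul_nonneg (h0 i j) (sq_nonneg (f i - g j))]
  have h2 : ∑ i ∈ S, ∑ j ∈ S, f i ^ 2 * N i j = m * ∑ i ∈ S, f i ^ 2 := by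
    rw [mul_sum]; exact sum_congr rfl fun i hi => by rw [← mul_sum, hr i hi, mul_comm]
  have h3 : ∑ i ∈ S, ∑ j ∈ S, g j ^ 2 * N i j = m * ∑ j ∈ S, g j ^ 2 := by
    rw [sum_comm, mul_sum]; exact sum_congr rfl fun j hj => by rw [← mul_sum, hc j hj, mul_comm]
  simp only [← sum_div, sum_add_distrib] at h1
  rw [h2, h3] at h1
  linarith

/-- splitting off the zero mode. -/
lemma zero_mode {N : V → V → ℝ} {S : Finset V} (hS : S.Nonempty) {m : ℝ} (h0 : ∀ i j, 0 ≤ N i j)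
    (hr : ∀ i ∈ S, ∑ j ∈ S, N i j = m) (hc : ∀ j ∈ S, ∑ i ∈ S, N i j = m) {f g : V → ℝ}
    (hf : ∑ i ∈ S, f i = 1) (hg : ∑ i ∈ S, g i = 1) (c c' : ℝ) :
    ∑ i ∈ S, ∑ j ∈ S, f i * N i j * g j ≤
      m * (1 / S.card + (∑ i ∈ S, (f i - c) ^ 2 + ∑ j ∈ S, (g j - c') ^ 2) / 2) := by
  have hn : (0 : ℝ) < S.card := by exact_mod_cast hS.card_pos
  obtain ⟨i0, hi0⟩ := hS
  have m0 : 0 ≤ m := hr i0 hi0 ▸ sum_nonneg fun j _ => h0 i0 j
  set k : ℝ := 1 / S.card with hk
  have hk1 : k * S.card = 1 := by rw [hk]; field_simp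
  have h1 := schur S h0 hr hc (fun i => f i - k) (fun j => g j - k)
  have var : ∀ (φ : V → ℝ) (c : ℝ), ∑ i ∈ S, φ i = 1 →
      ∑ i ∈ S, (φ i - k) ^ 2 ≤ ∑ i ∈ S, (φ i - c) ^ 2 := fun φ c h => by
    have : ∑ i ∈ S, (φ i - c) ^ 2 =
        ∑ i ∈ S, ((φ i - k) ^ 2 + 2 * (k - c) * φ i + ((k - c) ^ 2 - 2 * (k - c) * k)) :=
      sum_congr rfl fun i _ => by ring
    rw [this, sum_add_distrib, sum_add_distrib, ← mul_sum, h, sum_const, nsmul_eq_mul]
    have : (S.card : ℝ) * ((k - c) ^ 2 - 2 * (k - c) * k) =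
        S.card * (k - c) ^ 2 - 2 * (k - c) * (k * S.card) := by ring
    rw [this, hk1]
    nlinarith [mul_nonneg hn.le (sq_nonneg (k - c))]
  have e1 : ∑ i ∈ S, ∑ j ∈ S, f i * N i j = m := by
    rw [← one_mul m, ← hf, sum_mul]
    exact sum_congr rfl fun i hi => by rw [← mul_sum, hr i hi]
  have e2 : ∑ i ∈ S, ∑ j ∈ S, N i j * g j = m := by
    rw [sum_comm, ← mul_one m, ← hg, mul_sum]
    exact sum_congr rfl fun j hj => by rw [← sum_mul, hc j hj]
  have e3 : ∑ i ∈ S, ∑ j ∈ S, N i j = S.card * m := by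
    rw [sum_congr rfl hr, sum_const, nsmul_eq_mul]
  have e4 : ∑ i ∈ S, ∑ j ∈ S, (f i - k) * N i j * (g j - k) =
      ∑ i ∈ S, ∑ j ∈ S, f i * N i j * g j - k * ∑ i ∈ S, ∑ j ∈ S, f i * N i j -
        k * ∑ i ∈ S, ∑ j ∈ S, N i j * g j + k ^ 2 * ∑ i ∈ S, ∑ j ∈ S, N i j := by
    simp only [mul_sum, ← sum_sub_distrib, ← sum_add_distrib]
    exact sum_congr rfl fun i _ => sum_congr rfl fun j _ => by ring
  rw [e4, e1, e2, e3] at h1
  have h2 := mul_le_mul_of_nonneg_left (add_le_add (var f c hf) (var g c' hg)) m0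
  have e5 : k ^ 2 * (S.card * m) = k * m := by
    rw [show k ^ 2 * (S.card * m) = (k * S.card) * (k * m) by ring, hk1, one_mul]
  linarith

/-- weights: `t` on `S`, one on the rest of `Γ`, zero elsewhere. -/
def bt (Γ S : Finset V) (t : ℝ) (v : V) : ℝ := if v ∈ S then t else if v ∈ Γ then 1 else 0

/-- indicator. -/
def ind (A : Finset V) (v : V) : ℝ := if v ∈ A then 1 else 0

/-- a kernel that is doubly stochastic on `Γ`. -/
structure DS (K : Matrix V V ℝ) (Γ S : Finset V) : Prop where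
  nonneg : ∀ i j, 0 ≤ K i j
  sub : S ⊆ Γ
  row : K *ᵥ ind Γ = ind Γ
  col : ind Γ ᵥ* K = ind Γ

section res
variable {K : Matrix V V ℝ} {Γ S : Finset V}

lemma bt_add (hS : S ⊆ Γ) (t : ℝ) : bt Γ S t = ind Γ - (1 - t) • ind S := by
  funext v
  simp only [bt, ind, Pi.sub_apply, Pi.smul_apply, smul_eq_mul]
  by_cases h : v ∈ S
  · simp [h, hS h]
  · simp [h]

lemma diag_bt (s t : ℝ) : diagonal (bt Γ S t) = diagonal (bt Γ S s) + (t - s) • diagonal (ind S) := by
  ext i j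
  simp only [diagonal_apply, Matrix.add_apply, Matrix.smul_apply, bt, ind, smul_eq_mul]
  split_ifs <;> ring

lemma bt_nonneg {t : ℝ} (ht : 0 ≤ t) (v : V) : 0 ≤ bt Γ S t v := by
  unfold bt; split_ifs <;> simp [ht]

lemma bt_mono {s t : ℝ} (h : s ≤ t) (v : V) : bt Γ S s v ≤ bt Γ S t v := by
  unfold bt; split_ifs <;> simp [h]

lemma DS.tr (hK : DS K Γ S) {s t : ℝ} (hs : 0 ≤ s) (h : s ≤ t) (hP : Tr (K * diagonal (bt Γ S t))) :
    Tr (K * diagonal (bt Γ S s)) :=
  hP.mono (fun i j => by rw [mul_diagonal]; exact mul_nonneg (hK.nonneg i j) (bt_nonneg hs j))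
    fun i j => by
      rw [mul_diagonal, mul_diagonal]
      exact mul_le_mul_of_nonneg_left (bt_mono h j) (hK.nonneg i j)

lemma bt_ind (t : ℝ) (hS : S ⊆ Γ) : diagonal (bt Γ S t) *ᵥ ind Γ = bt Γ S t := by
  funext v
  rw [mulVec_diagonal]
  simp only [bt, ind]
  by_cases h : v ∈ S
  · simp [h, hS h]
  · by_cases h' : v ∈ Γ <;> simp [h, h']

/-- mass of a column on `S`. -/
lemma DS.mass_col (hK : DS K Γ S) {t : ℝ} (hP : Tr (K * diagonal (bt Γ S t))) :
    (1 - t) • (ind S ᵥ* Gr (K * diagonal (bt Γ S t))) = ind Γ := by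
  have : ind Γ ᵥ* (1 - K * diagonal (bt Γ S t)) = (1 - t) • ind S := by
    rw [vecMul_sub, vecMul_one, ← vecMul_vecMul, hK.col, ← mulVec_transpose, diagonal_transpose,
      bt_ind t hK.sub, bt_add hK.sub]
    abel
  rw [← smul_vecMul, ← this, vecMul_vecMul, hP.mul_Gr, vecMul_one]

lemma DS.mass_row (hK : DS K Γ S) {t : ℝ} (hP : Tr (K * diagonal (bt Γ S t))) :
    (1 - t) • ((Gr (K * diagonal (bt Γ S t)) * K) *ᵥ ind S) = ind Γ := by
  have : (1 - K * diagonal (bt Γ S t)) *ᵥ ind Γ = (1 - t) • (K *ᵥ ind S) := by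
    rw [sub_mulVec, one_mulVec, ← mulVec_mulVec, bt_ind t hK.sub, bt_add hK.sub, mulVec_sub,
      hK.row, mulVec_smul]
    abel
  rw [← mulVec_mulVec, ← mulVec_smul, ← this, mulVec_mulVec, hP.Gr_mul, one_mulVec]

lemma sum_ind_l (A : Finset V) (M : Matrix V V ℝ) (j : V) : (ind A ᵥ* M) j = ∑ i ∈ A, M i j := by
  simp [vecMul, dotProduct, ind]

lemma sum_ind_r (A : Finset V) (M : Matrix V V ℝ) (i : V) : (M *ᵥ ind A) i = ∑ j ∈ A, M i j := by
  simp [mulVec, dotProduct, ind]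

lemma mid_ind (A : Finset V) (M N : Matrix V V ℝ) (i j : V) :
    (M * diagonal (ind A) * N) i j = ∑ k ∈ A, M i k * N k j := by
  simp [Matrix.mul_apply, diagonal_apply, ind]

lemma res_eq {s t : ℝ} (hs : Tr (K * diagonal (bt Γ S s))) (ht : Tr (K * diagonal (bt Γ S t))) :
    Gr (K * diagonal (bt Γ S t)) = Gr (K * diagonal (bt Γ S s)) +
      (t - s) • (Gr (K * diagonal (bt Γ S s)) * K * diagonal (ind S) *
        Gr (K * diagonal (bt Γ S t))) ∧
    Gr (K * diagonal (bt Γ S t)) = Gr (K * diagonal (bt Γ S s)) +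
      (t - s) • (Gr (K * diagonal (bt Γ S t)) * K * diagonal (ind S) *
        Gr (K * diagonal (bt Γ S s))) := by
  have e : 1 - K * diagonal (bt Γ S s) =
      1 - K * diagonal (bt Γ S t) + (t - s) • (K * diagonal (ind S)) := by
    rw [diag_bt s t, Matrix.mul_add, Matrix.mul_smul]; abel
  constructor
  · have h := congrArg (fun M => Gr (K * diagonal (bt Γ S s)) * M * Gr (K * diagonal (bt Γ S t))) e
    simp only [hs.Gr_mul, Matrix.one_mul, Matrix.mul_add, Matrix.add_mul, Matrix.mul_smul,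
      Matrix.smul_mul] at h
    rw [Matrix.mul_assoc (Gr _) (1 - _), ht.mul_Gr, Matrix.mul_one] at h
    simpa only [Matrix.mul_assoc] using h
  · have h := congrArg (fun M => Gr (K * diagonal (bt Γ S t)) * M * Gr (K * diagonal (bt Γ S s))) e
    simp only [ht.Gr_mul, Matrix.one_mul, Matrix.mul_add, Matrix.add_mul, Matrix.mul_smul,
      Matrix.smul_mul] at h
    rw [Matrix.mul_assoc (Gr _) (1 - _), hs.mul_Gr, Matrix.mul_one] at h
    simpa only [Matrix.mul_assoc] using h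

/-- **the two-sided resolvent step with the sharp zero mode.** -/
theorem DS.sharp (hK : DS K Γ S) {y y' z : ℝ} (hy : 0 < y) (hyy : y < y') (hyz : y' ≤ z)
    (hz : z < 1) (h2 : z - y ≤ 2 * (y' - y)) (hP : Tr (K * diagonal (bt Γ S z))) {u : V}
    (hu : u ∈ S) (c c' : ℝ) :
    Gr (K * diagonal (bt Γ S z)) u u - 1 ≤ 3 * (Gr (K * diagonal (bt Γ S y')) u u - 1) +
      1 / (y * (1 - z)) * (1 / S.card +
        (∑ w ∈ S, ((1 - y) * Gr (K * diagonal (bt Γ S y)) u w - c) ^ 2 +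
          ∑ w ∈ S, ((1 - y) * Gr (K * diagonal (bt Γ S y)) w u - c') ^ 2) / 2) := by
  have hPy := hK.tr hy.le (hyy.le.trans hyz) hP
  have hPy' := hK.tr (hy.le.trans hyy.le) hyz hP
  set Gz := Gr (K * diagonal (bt Γ S z)) with hGz
  set Gy := Gr (K * diagonal (bt Γ S y)) with hGy
  set Gy' := Gr (K * diagonal (bt Γ S y')) with hGy'
  have GK : ∀ {t : ℝ}, Tr (K * diagonal (bt Γ S t)) → ∀ i j,
      0 ≤ (Gr (K * diagonal (bt Γ S t)) * K) i j := fun h i j =>
    sum_nonneg fun k _ => mul_nonneg (h.nonneg i k) (hK.nonneg k j)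
  have ha : ∀ w ∈ S, y * (Gy * K) u w ≤ Gy u w := fun w hw => by
    have := congrFun (congrFun hPy.right u) w
    rw [Matrix.add_apply, ← Matrix.mul_assoc, mul_diagonal, bt, if_pos hw] at this
    rw [← hGy] at this
    have h0 : (0 : ℝ) ≤ (1 : Matrix V V ℝ) u w := by rw [one_apply]; split_ifs <;> simp
    linarith
  have hyz' : 0 ≤ z - y := by linarith
  -- first order term
  have e1 := congrFun (congrFun (res_eq hPy hPy').1 u) u
  rw [Matrix.add_apply, Matrix.smul_apply, mid_ind, smul_eq_mul, ← hGy, ← hGy'] at e1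
  have m1 : ∑ k ∈ S, (Gy * K) u k * Gy k u ≤ ∑ k ∈ S, (Gy * K) u k * Gy' k u :=
    sum_le_sum fun k _ => mul_le_mul_of_nonneg_left
      (hPy'.Gr_mono hPy.1 (fun i j => by
        rw [mul_diagonal, mul_diagonal]
        exact mul_le_mul_of_nonneg_left (bt_mono hyy.le j) (hK.nonneg i j)) k u) (GK hPy u k)
  have p1 : 0 ≤ ∑ k ∈ S, (Gy * K) u k * Gy k u :=
    sum_nonneg fun k _ => mul_nonneg (GK hPy u k) (hPy.nonneg k u)
  have o1 : 1 ≤ Gy u u := hPy.one_le u
  -- expansion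
  have e2 := congrFun (congrFun (res_eq hPy hP).1 u) u
  rw [Matrix.add_apply, Matrix.smul_apply, mid_ind, smul_eq_mul, ← hGy, ← hGz] at e2
  have e3 : ∀ k, Gz k u = Gy k u + (z - y) * ∑ l ∈ S, (Gz * K) k l * Gy l u := fun k => by
    have := congrFun (congrFun (res_eq hPy hP).2 k) u
    rwa [Matrix.add_apply, Matrix.smul_apply, mid_ind, smul_eq_mul] at this
  have e4 : ∑ k ∈ S, (Gy * K) u k * Gz k u = ∑ k ∈ S, (Gy * K) u k * Gy k u +
      (z - y) * ∑ k ∈ S, ∑ l ∈ S, (Gy * K) u k * (Gz * K) k l * Gy l u := by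
    rw [mul_sum, ← sum_add_distrib]
    refine sum_congr rfl fun k _ => ?_
    rw [e3 k, mul_add, mul_sum, mul_sum, mul_sum]
    congr 1
    exact sum_congr rfl fun l _ => by ring
  have z1 : 0 < 1 - z := by linarith
  have y1 : 0 < 1 - y := by linarith
  have iS : ∀ v ∈ S, ind Γ v = 1 := fun v hv => by simp [ind, hK.sub hv]
  have hr : ∀ i ∈ S, ∑ j ∈ S, (Gz * K) i j = 1 / (1 - z) := fun i hi => by
    have := congrFun (hK.mass_row hP) i
    rw [Pi.smul_apply, sum_ind_r, iS i hi, smul_eq_mul] at this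
    rw [eq_div_iff z1.ne', mul_comm]; exact this
  have hc : ∀ j ∈ S, ∑ i ∈ S, (Gz * K) i j = 1 / (1 - z) := fun j hj => by
    have h1 : (1 - z) • (ind S ᵥ* (Gz * K)) = ind Γ := by
      rw [← vecMul_vecMul, ← smul_vecMul, hK.mass_col hP, hK.col]
    have := congrFun h1 j
    rw [Pi.smul_apply, sum_ind_l, iS j hj, smul_eq_mul] at this
    rw [eq_div_iff z1.ne', mul_comm]; exact this
  have hg : ∑ w ∈ S, (1 - y) * Gy w u = 1 := by
    have := congrFun (hK.mass_col hPy) u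
    rwa [Pi.smul_apply, sum_ind_l, iS u hu, smul_eq_mul, mul_sum] at this
  have hf : ∑ w ∈ S, (1 - y) * Gy u w = 1 := by
    have h1 := congrFun (hK.mass_row hPy) u
    rw [Pi.smul_apply, sum_ind_r, iS u hu, smul_eq_mul, ← hGy] at h1
    have h3 : ∀ w ∈ S, Gy u w = (if u = w then 1 else 0) + y * (Gy * K) u w := fun w hw => by
      have := congrFun (congrFun hPy.right u) w
      rw [Matrix.add_apply, ← Matrix.mul_assoc, mul_diagonal, bt, if_pos hw, one_apply] at this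
      rw [← hGy] at this
      rw [this, mul_comm]
    rw [← mul_sum, sum_congr rfl h3, sum_add_distrib, sum_ite_eq, if_pos hu, ← mul_sum]
    linear_combination y * h1
  have zm := zero_mode ⟨u, hu⟩ (GK hP) hr hc hf hg c c'
  set X := 1 / (S.card : ℝ) + (∑ w ∈ S, ((1 - y) * Gy u w - c) ^ 2 +
    ∑ w ∈ S, ((1 - y) * Gy w u - c') ^ 2) / 2
  have m2 : y * ((z - y) ^ 2 * ∑ k ∈ S, ∑ l ∈ S, (Gy * K) u k * (Gz * K) k l * Gy l u) ≤
      ∑ k ∈ S, ∑ l ∈ S, (1 - y) * Gy u k * (Gz * K) k l * ((1 - y) * Gy l u) := by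
    simp only [mul_sum]
    refine sum_le_sum fun k hk => sum_le_sum fun l _ => ?_
    have q0 := mul_nonneg (GK hP k l) (hPy.nonneg l u)
    have q1 : (z - y) ^ 2 ≤ (1 - y) ^ 2 := pow_le_pow_left₀ hyz' (by linarith) 2
    have q2 := mul_le_mul q1 (ha k hk) (mul_nonneg hy.le (GK hPy u k)) (sq_nonneg _)
    have q3 := mul_le_mul_of_nonneg_right q2 q0
    calc _ = (z - y) ^ 2 * (y * (Gy * K) u k) * ((Gz * K) k l * Gy l u) := by ring
      _ ≤ _ := q3
      _ = _ := by ring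
  have m3 : (z - y) ^ 2 * ∑ k ∈ S, ∑ l ∈ S, (Gy * K) u k * (Gz * K) k l * Gy l u ≤
      1 / (y * (1 - z)) * X := by
    rw [show 1 / (y * (1 - z)) * X = 1 / (1 - z) * X / y by field_simp, le_div_iff₀ hy, mul_comm]
    exact m2.trans zm
  have m4 := mul_le_mul_of_nonneg_right h2 p1
  have m5 := mul_le_mul_of_nonneg_left m1 (sub_pos.2 hyy).le
  rw [e2, e4]
  nlinarith

end res

end Crest.Agent.N337.ZM
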