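import Crest.Agent.N337.Top.Bas

/-!
# Row 337, TOP: `PolarStmt` from Sym, Bridge, Short, Long (helper37)
-/

set_option autoImplicit false

namespace Crest.Agent.N337.Top

open Finset Filter Crest.Agent.N337.Rep Crest.Agent.N337.Slot

theorem polar_of (hS : SymStmt) (hB : BridgeStmt) (hA : ShortStmt) (hL : LongStmt) :
    C.PolarStmt := by
  intro n hn
  have : NeZero n := ⟨by omega⟩
  obtain ⟨βA, hA⟩ := hA n
  obtain ⟨βL, hL⟩ := hL n
  refine ⟨max (max βA βL) 1, fun β hβ => ?_⟩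
  have hβ1 : 1 ≤ β := (le_max_right _ _).trans hβ
  have hβ0 : 0 < β := by linarith
  obtain ⟨C, u0, hL⟩ := hL β ((le_max_right _ _).trans ((le_max_left _ _).trans hβ))
  refine ⟨C, max u0 1, fun u hu ε hε => ?_⟩
  have hu0 : 0 < u := lt_of_lt_of_le one_pos ((le_max_right _ _).trans hu)
  obtain ⟨K, hL⟩ := hL u ((le_max_left _ _).trans hu) (ε / 2) (by positivity)
  obtain ⟨x, hx, hA⟩ := hA β ((le_max_left _ _).trans ((le_max_left _ _).trans hβ)) K (ε / 2)
    (by positivity)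
  refine ⟨x / 2 / β, by positivity, ?_⟩
  have hV : Tendsto (fun L : ℕ => u / ((L + 1 : ℕ) : ℝ) ^ 3) atTop (nhds 0) :=
    tendsto_const_nhds.div_atTop ((tendsto_pow_atTop (by norm_num)).comp
      (tendsto_natCast_atTop_atTop.comp (tendsto_add_atTop_nat 1)))
  filter_upwards [hL, hA, eventually_ge_atTop 2, hV.eventually (ge_mem_nhds hx)] with L hL hA h2 hx'
  obtain ⟨sy, hs⟩ := hS (L + 1) n
  set V : ℝ := ((L + 1 : ℕ) : ℝ) ^ 3 with hVd
  have hV0 : 0 < V := by positivity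
  set c := 1 / u + C * Real.exp (-(β ^ (-(1 / 4 : ℝ)) * u)) + ε / 2 with hc
  have t1 := hB n L h2 β hβ0 sy hs (u / V)
  have t2 := (hB n L h2 β hβ0 sy hs (x / 2)).add_const (ε / 2 * V + c * V)
  have key := le_of_tendsto_of_tendsto t1 t2 (by
    filter_upwards [hL sy hs, hA sy hs] with w h1 h3
    have h3 := h3 (u / V) (by positivity) hx'
    have h0 : 0 < EW β w sy (bt (Real.exp (-(u / V)))) fun _ _ => 1 :=
      one_pos.trans_le (one_le_EW w hβ0.le hs (bt_nonneg (Real.exp_pos _).le))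
    simp only [EW] at h0 h1 h3 ⊢
    rw [EE_sub, ← div_le_iff₀ h0, sub_div] at h1
    linarith)
  rw [div_div, mul_comm V β, ← hVd] at key
  refine le_of_mul_le_mul_right (key.trans (le_of_eq ?_)) hV0
  rw [hc]; ring

end Crest.Agent.N337.Top
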