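import Crest.Agent.N337.Top.Defs

/-!
# Row 337, TOP: short symmetriser words with probabilities `≤ 1/2` (helper37)
-/

set_option autoImplicit false
set_option linter.unusedSectionVars false

namespace Crest.Agent.N337.Top

open Finset Matrix Crest.Agent.N337.Slot Crest.Agent.N337.Slot.SL

namespace Sy

variable {Λ : Type} [Fintype Λ] [DecidableEq Λ]

theorem wp_append (u w : List (Λ × Λ × ℝ)) : wp (u ++ w) = wp u * wp w := by simp [wp]

theorem swp_swp {a c j : Λ} (hca : c ≠ a) (hcj : c ≠ j) :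
    swp c a * swp j a = swp j a * swp c j := by
  have := swp_conj j a c j
  rw [Equiv.swap_apply_left, Equiv.swap_apply_of_ne_of_ne hcj hca] at this
  exact this.symm

/-- the new letters. -/
theorem exR (a : Λ) (Q : BOp Λ) (U : Finset Λ) (ha : a ∉ U)
    (hQ : ∀ c ∈ U, ∀ d ∈ U, swp c d * Q = Q) (r : ℝ) (hr : 1 ≤ r) :
    ∃ R : List (Λ × Λ × ℝ), (∀ q ∈ R, (0 ≤ q.2.2 ∧ q.2.2 ≤ 1 / 2) ∧ q.1 ∈ U ∧ q.2.1 = a) ∧
      R.length = U.card ∧
      wp R * Q = (1 / (r + U.card)) • (r • Q + ∑ j ∈ U, swp j a * Q) := by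
  induction U using Finset.induction_on generalizing r with
  | empty =>
    refine ⟨[], by simp, by simp, ?_⟩
    simp only [wp, List.map_nil, List.prod_nil, Matrix.one_mul, card_empty, Nat.cast_zero, add_zero,
      sum_empty, smul_smul]
    rw [one_div_mul_cancel (by positivity), one_smul]
  | insert c U hc ih =>
    obtain ⟨R, h1, h2, h3⟩ := ih (fun h => ha (mem_insert_of_mem h))
      (fun x hx y hy => hQ x (mem_insert_of_mem hx) y (mem_insert_of_mem hy)) (r + 1) (by linarith)
    refine ⟨(c, a, 1 / (r + 1)) :: R, fun q hq => ?_, by simp [h2, card_insert_of_notMem hc], ?_⟩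
    · rcases List.mem_cons.1 hq with rfl | hq
      · exact ⟨⟨by positivity, one_div_le_one_div_of_le (by norm_num) (by linarith)⟩,
          mem_insert_self _ _, rfl⟩
      · exact ⟨(h1 q hq).1, mem_insert_of_mem (h1 q hq).2.1, (h1 q hq).2.2⟩
    · have e : wp ((c, a, 1 / (r + 1)) :: R) = step c a (1 / (r + 1)) * wp R := by simp [wp]
      have hca : c ≠ a := fun e => ha (e ▸ mem_insert_self _ _)
      have hS : swp c a * ∑ j ∈ U, swp j a * Q = ∑ j ∈ U, swp j a * Q := by
        rw [mul_sum]
        refine sum_congr rfl fun j hj => ?_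
        rw [← Matrix.mul_assoc, swp_swp hca (fun e => hc (e ▸ hj)), Matrix.mul_assoc,
          hQ c (mem_insert_self _ _) j (mem_insert_of_mem hj)]
      rw [e, Matrix.mul_assoc, h3, Matrix.mul_smul, step, Matrix.add_mul, Matrix.smul_mul,
        Matrix.smul_mul, Matrix.one_mul, Matrix.mul_add, hS, Matrix.mul_smul, sum_insert hc,
        card_insert_of_notMem hc]
      have : r + 1 ≠ 0 := by positivity
      push_cast
      rw [show r + 1 + U.card = r + (U.card + 1) by ring]
      congr 1
      match_scalars <;> field_simp <;> ring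

theorem exists_sym {X : Type} [DecidableEq X] (s : Λ → X) (S : Finset Λ) :
    ∃ w : List (Λ × Λ × ℝ),
      (∀ q ∈ w, (0 ≤ q.2.2 ∧ q.2.2 ≤ 1 / 2) ∧ s q.1 = s q.2.1) ∧
      (∀ z, (w.filter fun q => s q.1 = z).length ≤ (S.filter fun j => s j = z).card ^ 2) ∧
      ∀ c ∈ S, ∀ d ∈ S, s c = s d → swp c d * wp w = wp w := by
  induction S using Finset.induction_on with
  | empty => exact ⟨[], by simp, by simp, by simp⟩
  | insert a S ha ih =>
    obtain ⟨w, hw, hf, hQ⟩ := ih
    set Sa := S.filter fun j => s j = s a with hSa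
    have hmem : ∀ j, j ∈ Sa ↔ j ∈ S ∧ s j = s a := fun j => mem_filter
    set Q := wp w
    have hQa : ∀ c ∈ Sa, ∀ d ∈ Sa, swp c d * Q = Q := fun c hc d hd =>
      hQ c ((hmem c).1 hc).1 d ((hmem d).1 hd).1 (((hmem c).1 hc).2.trans ((hmem d).1 hd).2.symm)
    obtain ⟨R, h1, h2, h3⟩ := exR a Q Sa (fun h => ha ((hmem a).1 h).1) hQa 1 le_rfl
    rw [one_smul] at h3
    have hL : ∀ c ∈ Sa, swp c a * (Q + ∑ j ∈ Sa, swp j a * Q) = Q + ∑ j ∈ Sa, swp j a * Q := by
      intro c hc
      have hca : c ≠ a := fun e => ha (e ▸ ((hmem c).1 hc).1)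
      rw [← add_sum_erase _ _ hc, Matrix.mul_add, Matrix.mul_add, ← Matrix.mul_assoc, swp_mul_self,
        Matrix.one_mul, ← add_assoc, ← add_assoc, add_comm (swp c a * Q) Q, mul_sum]
      congr 1
      refine sum_congr rfl fun j hj => ?_
      rw [← Matrix.mul_assoc, swp_swp hca (ne_of_mem_erase hj).symm, Matrix.mul_assoc,
        hQa c hc j (mem_of_mem_erase hj)]
    refine ⟨R ++ w, fun q hq => ?_, fun z => ?_, fun c hc d hd hcd => ?_⟩
    · rcases List.mem_append.1 hq with hq | hq
      · exact ⟨(h1 q hq).1, by rw [(h1 q hq).2.2]; exact ((hmem _).1 (h1 q hq).2.1).2⟩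
      · exact hw q hq
    · rw [List.filter_append, List.length_append, filter_insert]
      split_ifs with hz
      · subst hz
        have := hf (s a)
        have h4 := List.length_filter_le (fun q : Λ × Λ × ℝ => decide (s q.1 = s a)) R
        rw [card_insert_of_notMem (fun h => ha (mem_filter.1 h).1), ← hSa]
        rw [← hSa] at this
        nlinarith
      · rw [List.filter_eq_nil_iff.2 fun q hq => by
          simpa [((hmem _).1 (h1 q hq).2.1).2] using hz]
        simpa using hf z
    · rw [wp_append, h3, Matrix.mul_smul]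
      congr 1
      rcases mem_insert.1 hc with rfl | hc1 <;> rcases mem_insert.1 hd with rfl | hd1
      · simp [swp_self]
      · rw [swp_comm]; exact hL d ((hmem d).2 ⟨hd1, hcd.symm⟩)
      · exact hL c ((hmem c).2 ⟨hc1, hcd⟩)
      · have hfix : Equiv.swap c d a = a :=
          Equiv.swap_apply_of_ne_of_ne (fun e => ha (e ▸ hc1)) (fun e => ha (e ▸ hd1))
        have hin : ∀ j ∈ Sa, Equiv.swap c d j ∈ Sa := by
          intro j hj
          rw [hmem] at hj ⊢
          rw [Equiv.swap_apply_def]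
          split_ifs with h1 h2
          · exact ⟨hd1, by rw [← hcd, ← h1, hj.2]⟩
          · exact ⟨hc1, by rw [hcd, ← h2, hj.2]⟩
          · exact hj
        rw [Matrix.mul_add, hQ c hc1 d hd1 hcd, mul_sum]
        congr 1
        refine sum_bij' (fun j _ => Equiv.swap c d j) (fun j _ => Equiv.swap c d j)
          hin hin (by simp) (by simp) fun j _ => ?_
        rw [← Matrix.mul_assoc, swp_conj, hfix, Matrix.mul_assoc, hQ c hc1 d hd1 hcd]

end Sy

theorem sym : SymStmt := by
  intro L n _ _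
  obtain ⟨w, hw, hf, hQ⟩ := Sy.exists_sym (Prod.fst : Sl L n → Tor 3 L) univ
  refine ⟨w, fun q hq => (hw q hq).1, fun q hq => (hw q hq).2, fun z => (hf z).trans ?_, ?_⟩
  · refine Nat.pow_le_pow_left ?_ 2
    refine (card_le_card_of_injOn (fun j => j.2) (t := univ) (fun _ _ => mem_univ _)
      fun i hi j hj e => ?_).trans (by simp)
    simp only [coe_filter, mem_univ, true_and, Set.mem_ofPred_eq] at hi hj
    exact Prod.ext (hi.trans hj.symm) e
  · have h1 : (UU (Tor 3 L) n)ᵀ * wp w = (UU (Tor 3 L) n)ᵀ := mul_wp _ w fun q hq => by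
      rw [← swp_transpose, ← Matrix.transpose_mul, swp_UU (hw q hq).2]
    rw [C.Mo.PP, ← h1]
    exact (UU_proj _ fun u v h => hQ u (mem_univ _) v (mem_univ _) h).symm

end Crest.Agent.N337.Top
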