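import Crest.Agent.N337.Top.BDefs

/-!
# Row 337, TOP (B): a long chain is seen by a test slot (`ChainStmt`, helper64)
-/

set_option autoImplicit false
set_option linter.unusedSectionVars false

namespace Crest.Agent.N337.ZM

open Finset Filter Equiv Crest.MathPhysics.SpinModel Geo Free KV G1 Crest.Agent.N337.Top

namespace Chn

variable {L n T : ℕ} [NeZero L] [NeZero T] {ex ey : Fin T → Tor 3 L × Fin n}
  {p p0 c0 : Fin T → ℝ} {b : Fin T × (Tor 3 L × Fin n) → ℝ}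
  {O : Finset (Fin T × (Tor 3 L × Fin n))} {φ : Fin T × (Tor 3 L × Fin n) → ℝ} {γ : Fin T → ℝ}
  {Γ κ : ℝ} {E w : ℕ}

theorem time {N : ℕ} {e : ℕ → Fin T × (Tor 3 L × Fin n)} (h : Walk ex ey p O N e) {i : ℕ}
    (hi : i ≤ N) : (e i).1 = tm T ((e 0).1.val + i) := by
  induction i with
  | zero => rw [Nat.add_zero, tm_fin]
  | succ i ih => rw [h.time i hi, ih (by omega), ← tm_succ, Nat.add_assoc]

/-- telescoping inside one window. -/
theorem tele (hL : Lip ex ey p O φ γ Γ) {D W : ℕ} (hD : D ∣ T) {z : Tor 3 L × Fin n}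
    (hz : ∀ k ∈ Ico (W * D) ((W + 1) * D), (tm T k, z) ∉ O) {a c : ℕ} (ha : W * D ≤ a)
    (hac : a ≤ c) (hc : c < (W + 1) * D) :
    |φ (tm T c, z) - φ (tm T a, z)| ≤ ∑ k ∈ Ico a c,
      (if z = ex (tm T k) ∨ z = ey (tm T k) then p (tm T k) else 0) * γ (tm T k) := by
  induction c, hac using Nat.le_induction with
  | base => simp
  | succ k hk ih =>
    have i1 := ih (by omega)
    have h0 : tm T k + 1 ≠ 0 := by
      rw [← tm_succ]
      intro h
      have h1 : (k + 1) % T = 0 := congrArg Fin.val h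
      obtain ⟨m, hm⟩ := hD.trans (Nat.dvd_of_mod_eq_zero h1)
      rw [hm, mul_comm D m] at hc
      have h2 : W * D < m * D := by rw [mul_comm m D, ← hm]; omega
      have h3 := Nat.lt_of_mul_lt_mul_right hc
      have h4 := Nat.lt_of_mul_lt_mul_right h2
      omega
    have i2 := hL.step (tm T k) z h0 (by
      rw [← tm_succ]
      exact hz _ (mem_Ico.2 ⟨by omega, hc⟩))
    rw [sum_Ico_succ_top hk, tm_succ]
    have := abs_sub_le (φ (tm T k + 1, z)) (φ (tm T k, z)) (φ (tm T a, z))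
    linarith

/-- a slot far from `O` sees free steps only. -/
theorem free (hE : Env ex ey p p0 b c0 O ∅) {z : Tor 3 L × Fin n} {s : Fin T}
    (hr : ∀ y, (s, y) ∈ O → 1 < tdist z.1 y.1) (h : z = ex s ∨ z = ey s) :
    p s = 0 ∨ p s = p0 s := by
  by_cases e : p s = 0
  · exact Or.inl e
  have hn := hE.nn _ e
  have a1 : tdist z.1 (ex s).1 ≤ 1 ∧ tdist z.1 (ey s).1 ≤ 1 := by
    rcases h with rfl | rfl
    · exact ⟨by rw [tdist_self]; omega, hn⟩
    · exact ⟨by rwa [tdist_comm], by rw [tdist_self]; omega⟩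
  rcases hE.free _ (fun h => (hr _ h).not_ge a1.1) (fun h => (hr _ h).not_ge a1.2) with e | e
  · exact Or.inr e
  · exact absurd e.1 (notMem_empty _)

/-- the static slot. -/
theorem stat (hL : Lip ex ey p O φ γ Γ) (hE : Env ex ey p p0 b c0 O ∅)
    (hP : Pers ex ey p0 c0 E w κ) (hp0 : ∀ s, 0 ≤ p0 s ∧ p0 s ≤ 1 / 2)
    (hp : ∀ s, 0 ≤ p s ∧ p s ≤ 1) (hD : w * E ∣ T) {W : ℕ} {z : Tor 3 L × Fin n}
    (hR : ∀ k ∈ Ico (W * (w * E)) ((W + 2) * (w * E)), ∀ y, (tm T k, y) ∈ O → 1 < tdist z.1 y.1)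
    {a c : ℕ} (ha : W * (w * E) ≤ a) (hac : a ≤ c) (hc : c < (W + 1) * (w * E)) :
    (φ (tm T c, z) - φ (tm T a, z)) ^ 2 ≤
      2 * κ * ∑ s, if z = ex s ∨ z = ey s then p s * (1 - p s) * γ s ^ 2 else 0 := by
  have hW : (W + 1) * (w * E) ≤ (W + 2) * (w * E) := Nat.mul_le_mul_right _ (by omega)
  have t1 := tele hL hD (z := z) (W := W) (fun k hk h => by
    have := hR k (mem_Ico.2 ⟨(mem_Ico.1 hk).1, (mem_Ico.1 hk).2.trans_le hW⟩) z h
    rw [tdist_self] at this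
    omega) ha hac hc
  set G : Fin T → ℝ := fun s => if z = ex s ∨ z = ey s then p s * (1 - p s) * γ s ^ 2 else 0
    with hG
  have G0 : ∀ s, 0 ≤ G s := fun s => by
    simp only [hG]
    split_ifs
    · exact mul_nonneg (mul_nonneg (hp s).1 (sub_nonneg.2 (hp s).2)) (sq_nonneg _)
    · exact le_rfl
  have t2 := sum_sq_le_sum_mul_sum_of_sq_le_mul (Ico a c)
    (r := fun k => (if z = ex (tm T k) ∨ z = ey (tm T k) then p (tm T k) else 0) * γ (tm T k))
    (f := tch ex ey p0 z) (g := fun k => 2 * G (tm T k))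
    (fun k _ => (Cr.tch_bd hp0 z k).1) (fun k _ => mul_nonneg zero_le_two (G0 _)) (fun k hk => by
      simp only [hG, tch]
      split_ifs with h
      · rcases free hE (hR k (mem_Ico.2 ⟨ha.trans (mem_Ico.1 hk).1,
          ((mem_Ico.1 hk).2.trans hc).trans_le hW⟩)) h with e | e
        · rw [e]
          simp
        · rw [e]
          have h1 := hp0 (tm T k)
          have h2 : 0 ≤ p0 (tm T k) ^ 2 * γ (tm T k) ^ 2 * (1 - 2 * p0 (tm T k)) :=
            mul_nonneg (by positivity) (by linarith [h1.2])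
          nlinarith
      · simp)
  have t3 : ∑ k ∈ Ico a c, tch ex ey p0 z k ≤ κ := (sum_le_sum_of_subset_of_nonneg
    (Ico_subset_Ico ha (hc.le.trans hW)) fun a _ _ => (Cr.tch_bd hp0 z a).1).trans (hP.rate W z)
  have hDT : w * E ≤ T := Nat.le_of_dvd (NeZero.pos T) hD
  have t4 : ∑ k ∈ Ico a c, G (tm T k) ≤ ∑ s, G s := by
    rw [← sum_image (f := G) (g := tm T) (s := Ico a c) fun k hk k' hk' e => by
      obtain ⟨k1, k2⟩ := mem_Ico.1 (mem_coe.1 hk)
      obtain ⟨k3, k4⟩ := mem_Ico.1 (mem_coe.1 hk')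
      rw [add_mul, one_mul] at hc
      have := (tm_add_inj (T := T) a (a := k - a) (b := k' - a) (by omega) (by omega)).1 (by
        rwa [Nat.add_sub_cancel' k1, Nat.add_sub_cancel' k3])
      omega]
    exact sum_le_univ_sum_of_nonneg G0
  have t5 : 0 ≤ ∑ k ∈ Ico a c, G (tm T k) := sum_nonneg fun k _ => G0 _
  have t6 : 0 ≤ ∑ k ∈ Ico a c, tch ex ey p0 z k := sum_nonneg fun k _ => (Cr.tch_bd hp0 z k).1
  rw [← mul_sum] at t2
  rw [← sq_abs]
  calc _ ≤ _ := pow_le_pow_left₀ (abs_nonneg _) t1 2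
    _ ≤ _ := t2
    _ ≤ κ * (2 * ∑ s, G s) := mul_le_mul t3 (by linarith) (by linarith) (t6.trans t3)
    _ = _ := by ring

/-- the test step of a window. -/
theorem step {B : ℕ} (hT : T = B * w * E) {σ : ℕ → ℕ}
    (hσ : ∀ t < B, σ t ∈ Ico (t * w) ((t + 1) * w)) (W : ℕ) :
    ∃ t < B, ∃ k ∈ Ico (W * (w * E)) ((W + 1) * (w * E)), tm T k = tm T (σ t * E) := by
  have hT0 := NeZero.pos T
  have hB : 0 < B := Nat.pos_of_ne_zero fun h => by rw [hT, h] at hT0; simp at hT0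
  have hD : 0 < w * E := Nat.pos_of_ne_zero fun h => by
    rw [hT, mul_assoc, h] at hT0; simp at hT0
  have ht := Nat.mod_lt W hB
  obtain ⟨s1, s2⟩ := mem_Ico.1 (hσ _ ht)
  obtain ⟨d, hd⟩ := Nat.exists_eq_add_of_le s1
  rw [add_mul, one_mul] at s2
  refine ⟨W % B, ht, (W * w + d) * E, mem_Ico.2 (Cr.win hD (mem_Ico.2 ⟨Nat.le_add_right _ _, by
    rw [add_mul, one_mul]; omega⟩)), ?_⟩
  have : (W * w + d) * E = σ (W % B) * E + T * (W / B) := by
    rw [hd]
    conv_lhs => rw [← Nat.mod_add_div W B]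
    conv_rhs => rw [hT]
    ring
  exact Fin.ext (by rw [tm_val, tm_val, this, Nat.add_mul_mod_self_left])

end Chn

theorem chain : ChainStmt := by
  intro L n T _ _ ex ey p p0 c0 b O E w B q κ Bd P U j A l r3 D hU D3 hp φ γ Γ hL σ hσ N e hW hd
  have hT := D.clock.hT
  have hT0 := NeZero.pos T
  have hD : 0 < w * E := Nat.pos_of_ne_zero fun h => by
    rw [hT, mul_assoc, h] at hT0; simp at hT0
  have hDT : w * E ∣ T := ⟨B, by rw [hT]; ring⟩
  have hmt := D.geom.ok.pos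
  have hA : 1 ≤ A := by have := D.geom.hA.1; omega
  have hA' := D.geom.hA.2
  have hκ : 0 ≤ κ := zero_le_one.trans D.clock.hκ
  have hs : ∀ i < N, (e (i + 1)).2 = (e i).2 ∨ (p (tm T ((e 0).1.val + i)) ≠ 0 ∧
      (e (i + 1)).2 = swap (ex (tm T ((e 0).1.val + i))) (ey (tm T ((e 0).1.val + i))) (e i).2) :=
    fun i hi => by rw [← Chn.time hW hi.le]; exact hW.step i hi
  obtain ⟨i2, -, j2, j3, j4⟩ := radial D.geom.ok D.geom.cov (c := fun i => (e i).2.1) (N := N)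
    (fun i hi => D.env.step_le (hs i hi)) (m := P.mt - 1) (by omega) (Nat.zero_le N) le_rfl hd
    (fun y _ l h1 h2 => by omega)
  have hU1 : (e i2).2.1 ∉ U 1 := not_mem_U hU hmt fun l h1 h2 =>
    (j4 _ (by rw [tdist_self]; omega)).2 l h1 h2
  have hee : ∀ i ≤ N, e i = (tm T ((e 0).1.val + i), (e i).2) := fun i hi =>
    Prod.ext (Chn.time hW hi) rfl
  have hN : ∀ z : Tor 3 L, tdist (e i2).2.1 z ≤ P.η 0 - A →
      Near P U z 1 A ∧ tdist (e 0).2.1 z ≤ 2 * P.η (P.mt - 1) := fun z hz =>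
    ⟨fun y hy => ⟨by simp [hU], fun l h1 h2 => (j4 y (by
      have := tdist_triangle (e i2).2.1 z y
      omega)).2 l h1 h2⟩, by have := (j4 z (by omega)).1; omega⟩
  rcases cross0 D.env hD (c := fun i => (e i).2) hs (r0 := P.η 0 - A) (r := 4 * P.η 0) j2
    (D.geom.leaf _ hU1 _ (by rw [tdist_self]; omega)) (D3.leaf3 _ hU1) (by omega)
    (by have := D3.h1; omega) D3.h2 (Or.inl ⟨N, j2, le_rfl, (Nat.sub_le _ _).trans j3⟩) with
    ⟨i', -, a2, a3, -, a5⟩ | ⟨W, -, -, a3⟩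
  · obtain ⟨t, ht, k, hk, htm⟩ := Chn.step hT hσ (((e 0).1.val + i') / (w * E))
    obtain ⟨k1, k2⟩ := mem_Ico.1 hk
    have hk' := a5 k (mem_Ico.2 ⟨k1, k2.trans_le (Nat.mul_le_mul_right _ (by omega))⟩)
    rw [htm] at hk'
    refine ⟨i', a2.le, t, ht, (e i').2, ⟨fun h => ?_, ?_, (hN _ a3).1⟩, (hN _ a3).2, ?_⟩
    · have := hk' _ h
      rw [tdist_self] at this
      omega
    · unfold Exp
      rw [filter_false_of_mem fun y hy ⟨c, hc⟩ => (hk' _ hc).not_ge (mem_bl.1 hy)]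
      simp
    have hlo : ((e 0).1.val + i') / (w * E) * (w * E) ≤ (e 0).1.val + i' := Nat.div_mul_le_self _ _
    have hhi : (e 0).1.val + i' < (((e 0).1.val + i') / (w * E) + 1) * (w * E) :=
      (Nat.div_lt_iff_lt_mul hD).1 (Nat.lt_succ_self _)
    have hR := fun k hk y hy => hA.trans_lt (a5 k hk y hy)
    rw [← htm]
    conv_lhs => rw [hee i' a2.le]
    rcases le_total k ((e 0).1.val + i') with h | h
    · exact Chn.stat hL D.env D3.pers D.clock.hp0 hp hDT hR k1 h hhi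
    · rw [← neg_sq, neg_sub]
      exact Chn.stat hL D.env D3.pers D.clock.hp0 hp hDT hR hlo h k2
  · obtain ⟨t, ht, k, hk, htm⟩ := Chn.step hT hσ W
    obtain ⟨i', -, b2, b3, b4, b5⟩ := a3 k hk
    have he : e i' = (tm T (σ t * E), (e i').2) := by rw [← htm, ← b3]; exact hee i' b2.le
    refine ⟨i', b2.le, t, ht, (e i').2, ⟨he ▸ hW.out i' b2.le, ?_, (hN _ b4).1⟩, (hN _ b4).2, ?_⟩
    · unfold Exp at b5 ⊢
      rwa [htm] at b5
    · rw [← he, sub_self, zero_pow two_ne_zero]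
      refine mul_nonneg (by positivity) (sum_nonneg fun s _ => ?_)
      split_ifs
      · exact mul_nonneg (mul_nonneg (hp s).1 (sub_nonneg.2 (hp s).2)) (sq_nonneg _)
      · exact le_rfl

end Crest.Agent.N337.ZM
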