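import Crest.Agent.N337.Top.BTest1

/-!
# Row 337, TOP (B), test slots (helper5): `test : TestStmt`
-/

set_option autoImplicit false

namespace Crest.Agent.N337.ZM

open Finset Crest.MathPhysics.SpinModel Geo Free KV G1 G1.Ex

namespace BT

variable {L : ℕ} [NeZero L] {n T : ℕ} [NeZero T] {ex ey : Fin T → Tor 3 L × Fin n}
  {p p0 c0 : Fin T → ℝ} {b φ : Fin T × (Tor 3 L × Fin n) → ℝ} {γ : Fin T → ℝ} {Γ q κ : ℝ}
  {O : Finset (Fin T × (Tor 3 L × Fin n))} {E w B D : ℕ} {Bd : Finset ℕ} {P : Scales}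
  {U : ℕ → Finset (Tor 3 L)} {j A : ℕ}

theorem sum_const_tor (a : ℝ) : ∑ _x : Tor 3 L, a = (L : ℝ) ^ 3 * a := by
  rw [sum_const, card_univ, card_Tor, nsmul_eq_mul]; push_cast; rfl

/-- energy of the layers at the start of a good sweep. -/
theorem energy (hE : Env ex ey p p0 b c0 O ∅) (hC : Clock ex ey p0 c0 E w B q κ Bd)
    (hp : ∀ s, 0 ≤ p s ∧ p s ≤ 1) (hη : 1 ≤ P.η 0) (H : Lip ex ey p O φ γ Γ) {i : ℕ}
    (hi : i < B * w) (hg : Gd0 ex ey p O E Bd P D j i) {EE : ℝ}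
    (h : w * ∑ a ∈ range E, (fun s => p s * (1 - p s) * γ s ^ 2) (tm T (i * E + a)) ≤ 2 * EE)
    (E0 : 0 ≤ EE) (c : Fin n) :
    En (Jn L) (U0 ex ey p O P D j (tm T (i * E)) c) 1 (fun y => φ (tm T (i * E), (y, c))) ≤
      (16 * κ ^ 2 + 48 * n * κ ^ 4) * (EE + q ^ 2 * Γ ^ 2 * (L : ℝ) ^ 3) := by
  have h1 := sweep hE hC hp hi hg φ (fun _ => κ * q * Γ) (by simp)
    (freeze hE hC hη H hi hg) _ fun _ => rfl
  have h2 : ∑ a ∈ range E, (fun s => p s * (1 - p s) * (φ (s, ex s) - φ (s, ey s)) ^ 2)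
      (tm T (i * E + a)) ≤ ∑ a ∈ range E, (fun s => p s * (1 - p s) * γ s ^ 2) (tm T (i * E + a)) :=
    sum_le_sum fun a _ => mul_le_mul_of_nonneg_left (sq_le_sq' (abs_le.1 (H.grad _)).1
      (abs_le.1 (H.grad _)).2) (mul_nonneg (hp _).1 (sub_nonneg.2 (hp _).2))
  have h3 := single_le_sum (f := fun c => En (Jn L) (U0 ex ey p O P D j (tm T (i * E)) c) 1
    fun y => φ (tm T (i * E), (y, c))) (fun c _ => En0 _ _) (mem_univ c)
  have h0 := En0 (U0 ex ey p O P D j (tm T (i * E)) c) fun y => φ (tm T (i * E), (y, c))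
  rw [sum_const, card_univ, Fintype.card_prod, card_Tor, Fintype.card_fin, nsmul_eq_mul] at h1
  push_cast at h1
  obtain ⟨w1, w2⟩ := hC.wq
  have hκ := hC.hκ
  have hq := hC.hq
  have h4 := (mul_le_mul_of_nonneg_left h3 hq.le).trans (h1.trans (add_le_add_left
    (mul_le_mul_of_nonneg_left h2 (by norm_num)) _))
  generalize En (Jn L) (U0 ex ey p O P D j (tm T (i * E)) c) 1 (fun y => φ (tm T (i * E), (y, c))) = e,
    ∑ a ∈ range E, (fun s => p s * (1 - p s) * γ s ^ 2) (tm T (i * E + a)) = s at h h0 h4 ⊢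
  have e0 : 0 ≤ q ^ 2 * Γ ^ 2 * (L : ℝ) ^ 3 := by positivity
  calc e ≤ κ * (w * q) * e := le_mul_of_one_le_left h0 w1
    _ = κ * w * (q * e) := by ring
    _ ≤ κ * w * (8 * s + 48 * q * (L ^ 3 * n * (κ * q * Γ) ^ 2)) := by gcongr
    _ = 8 * κ * (w * s) + 48 * n * κ ^ 3 * (w * q) * (q ^ 2 * Γ ^ 2 * (L : ℝ) ^ 3) := by ring
    _ ≤ 8 * κ ^ 2 * (2 * EE) + 48 * n * κ ^ 3 * κ * (q ^ 2 * Γ ^ 2 * (L : ℝ) ^ 3) := by
        refine add_le_add ((mul_le_mul_of_nonneg_left h (by positivity)).trans ?_) (by gcongr)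
        gcongr
        nlinarith
    _ ≤ _ := by
        have : 0 ≤ κ ^ 2 * (q ^ 2 * Γ ^ 2 * (L : ℝ) ^ 3) := by positivity
        have : 0 ≤ n * κ ^ 4 * EE := by positivity
        nlinarith

/-- two layers. -/
theorem layers (hE : Env ex ey p p0 b c0 O ∅) (hC : Clock ex ey p0 c0 E w B q κ Bd)
    (hX : Crs ex ey p0 E w B q Bd) (hp : ∀ s, 0 ≤ p s ∧ p s ≤ 1) (hη : 1 ≤ P.η 0)
    (H : Lip ex ey p O φ γ Γ) {i : ℕ} (hi : i < B * w) (hg : Gd0 ex ey p O E Bd P D j i) {EE : ℝ}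
    (h : w * ∑ a ∈ range E, (fun s => p s * (1 - p s) * γ s ^ 2) (tm T (i * E + a)) ≤ 2 * EE)
    (E0 : 0 ≤ EE) (c c' : Fin n) {S : Finset (Tor 3 L)}
    (hS : ∀ x ∈ S, x ∉ U0 ex ey p O P D j (tm T (i * E)) c ∧
      x + Pi.single 0 1 ∉ U0 ex ey p O P D j (tm T (i * E)) c') :
    ∑ x ∈ S, (φ (tm T (i * E), (x, c)) - φ (tm T (i * E), (x + Pi.single 0 1, c'))) ^ 2 ≤
      8 * κ ^ 2 * (EE + q ^ 2 * Γ ^ 2 * (L : ℝ) ^ 3) := by
  obtain ⟨F, hF⟩ : ∃ F : Fin T → ℝ, F = fun s => p s * (1 - p s) * γ s ^ 2 := ⟨_, rfl⟩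
  rw [← hF] at h
  have F0 : ∀ s, 0 ≤ F s := fun s => by
    rw [hF]; exact mul_nonneg (mul_nonneg (hp s).1 (sub_nonneg.2 (hp s).2)) (sq_nonneg _)
  obtain ⟨w1, -⟩ := hC.wq
  have hκ := hC.hκ
  have hq := hC.hq
  have nn : ∀ (x : Tor 3 L), ∀ a ∈ range E, 0 ≤
      if (ex (tm T (i * E + a))).1 = x then F (tm T (i * E + a)) else 0 := fun x a _ => by
    split_ifs; exacts [F0 _, le_rfl]
  have h1 : ∀ x ∈ S, (φ (tm T (i * E), (x, c)) - φ (tm T (i * E), (x + Pi.single 0 1, c'))) ^ 2 ≤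
      4 * κ * (w * ∑ a ∈ range E, if (ex (tm T (i * E + a))).1 = x then F (tm T (i * E + a)) else 0) +
        8 * (κ * q * Γ) ^ 2 := fun x hx => by
    obtain ⟨a, ha, e1, e2, e3⟩ := hX i hi hg.1 x c c'
    have g1 := green (z := (x, c)) hg (hS x hx).1 ha
    have g2 := green (z := (x + Pi.single 0 1, c')) hg (hS x hx).2 ha
    have f1 := abs_le.1 (freeze hE hC hη H hi hg (x, c) (hS x hx).1 a ha)
    have f2 := abs_le.1 (freeze hE hC hη H hi hg (x + Pi.single 0 1, c') (hS x hx).2 a ha)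
    have s1 := single_le_sum (nn x) (mem_range.2 ha)
    have gr := abs_le.1 (H.grad (tm T (i * E + a)))
    have p1 := (hE.free (tm T (i * E + a)) (e1 ▸ g1) (e2 ▸ g2)).resolve_right (by simp)
    have p2 := (hC.hp0 (tm T (i * E + a))).2
    rw [e1, e2] at gr
    rw [e3] at p1 p2
    rw [if_pos (by rw [e1]), show F (tm T (i * E + a)) = q * (1 - q) * γ (tm T (i * E + a)) ^ 2 by
      rw [hF, ← p1]] at s1
    generalize (∑ a ∈ range E, if (ex (tm T (i * E + a))).1 = x then F (tm T (i * E + a)) else 0) = s,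
      γ (tm T (i * E + a)) = g, κ * q * Γ = d, φ (tm T (i * E), (x, c)) = u1,
      φ (tm T (i * E), (x + Pi.single 0 1, c')) = u2, φ (tm T (i * E + a), (x, c)) = v1,
      φ (tm T (i * E + a), (x + Pi.single 0 1, c')) = v2 at s1 gr f1 f2 ⊢
    have e4 : (u1 - u2) ^ 2 ≤ (g + 2 * d) ^ 2 := sq_le_sq' (by linarith) (by linarith)
    have e5 : q * g ^ 2 ≤ 2 * s := by nlinarith [mul_nonneg hq.le (sq_nonneg g)]
    have e6 : g ^ 2 ≤ κ * w * (2 * s) :=
      (le_mul_of_one_le_left (sq_nonneg g) w1).trans ((show _ = κ * w * (q * g ^ 2) by ring).trans_le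
        (mul_le_mul_of_nonneg_left e5 (by positivity)))
    nlinarith [sq_nonneg (g - 2 * d)]
  refine (sum_le_sum h1).trans ((sum_le_sum_of_subset_of_nonneg (subset_univ _) fun x _ _ => by
    have := sum_nonneg (nn x); positivity).trans ?_)
  rw [sum_add_distrib, sum_const_tor, ← mul_sum, ← mul_sum, sum_comm]
  simp only [sum_ite_eq, mem_univ, if_true]
  have := mul_le_mul_of_nonneg_left h (show 0 ≤ 4 * κ by positivity)
  have : κ * EE ≤ κ ^ 2 * EE := mul_le_mul_of_nonneg_right (by nlinarith) E0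
  nlinarith

/-- two consecutive windows. -/
theorem windows (hE : Env ex ey p p0 b c0 O ∅) (hC : Clock ex ey p0 c0 E w B q κ Bd)
    (hP : Pers ex ey p0 c0 E w κ) (hp : ∀ s, 0 ≤ p s ∧ p s ≤ 1) (H : Lip ex ey p O φ γ Γ)
    {t i i' : ℕ} (ht : t + 1 < B) (hi : i ∈ Ico (t * w) ((t + 1) * w))
    (hi' : i' ∈ Ico ((t + 1) * w) ((t + 1 + 1) * w)) (c : Fin n) {S : Finset (Tor 3 L)}
    (hS : ∀ x ∈ S, ∀ k ∈ Ico (t * (w * E)) ((t + 2) * (w * E)), ∀ y,
      (tm T k, y) ∈ O → 1 < tdist x y.1) :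
    ∑ x ∈ S, (φ (tm T (i * E), (x, c)) - φ (tm T (i' * E), (x + 0, c))) ^ 2 ≤
      8 * κ ^ 2 * ∑ s, p s * (1 - p s) * γ s ^ 2 := by
  have hT := hC.hT
  have hκ := hC.hκ
  have E0 : 0 < E := Nat.pos_of_ne_zero fun e => NeZero.ne T (by simp [hT, e])
  rw [mem_Ico] at hi hi'
  have k1 : t * (w * E) ≤ i * E := by rw [← mul_assoc]; exact Nat.mul_le_mul_right _ hi.1
  have k2 : i * E ≤ i' * E := Nat.mul_le_mul_right _ (by omega)
  have k3 : i' * E < (t + 2) * (w * E) := by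
    rw [← mul_assoc]; exact Nat.mul_lt_mul_of_pos_right hi'.2 E0
  have k4 : (t + 2) * (w * E) ≤ T := by rw [hT, mul_assoc]; exact Nat.mul_le_mul_right _ ht
  have F0 : ∀ s, 0 ≤ p s * (1 - p s) * γ s ^ 2 := fun s =>
    mul_nonneg (mul_nonneg (hp s).1 (sub_nonneg.2 (hp s).2)) (sq_nonneg _)
  have h1 : ∀ x ∈ S, (φ (tm T (i * E), (x, c)) - φ (tm T (i' * E), (x + 0, c))) ^ 2 ≤
      2 * κ * ∑ s, ((if (ex s).1 = x then p s * (1 - p s) * γ s ^ 2 else 0) +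
        if (ey s).1 = x then p s * (1 - p s) * γ s ^ 2 else 0) := fun x hx => by
    rw [add_zero, sub_sq_comm]
    refine (static hE hC.hp0 hp H (x, c) k2 (by omega)
      (fun k hk => tm_ne0 (by rw [mem_Ico] at hk; omega))
      (fun k hk => hS x hx k (by rw [mem_Icc] at hk; rw [mem_Ico]; omega))
      ((sum_le_sum_of_subset_of_nonneg (Ico_subset_Ico k1 k3.le)
        fun k _ _ => (Cr.tch_bd hC.hp0 _ k).1).trans (hP.rate t (x, c)))).trans
      (mul_le_mul_of_nonneg_left (sum_le_sum fun s _ => ?_) (by positivity))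
    have := F0 s
    by_cases e1 : (x, c) = ex s
    · rw [if_pos (Or.inl e1), if_pos (by rw [← e1])]
      split_ifs <;> linarith
    by_cases e2 : (x, c) = ey s
    · rw [if_pos (Or.inr e2), if_pos (show (ey s).1 = x by rw [← e2])]
      split_ifs <;> linarith
    · rw [if_neg (not_or.2 ⟨e1, e2⟩)]
      split_ifs <;> linarith
  refine (sum_le_sum h1).trans ((sum_le_sum_of_subset_of_nonneg (subset_univ _) fun x _ _ =>
    mul_nonneg (by positivity) (sum_nonneg fun s _ => by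
      have := F0 s; split_ifs <;> linarith)).trans ?_)
  rw [← mul_sum, sum_comm]
  simp only [sum_add_distrib, sum_ite_eq, mem_univ, if_true]
  have := sum_nonneg fun s (_ : s ∈ univ) => F0 s
  have : κ * ∑ s, p s * (1 - p s) * γ s ^ 2 ≤ κ ^ 2 * ∑ s, p s * (1 - p s) * γ s ^ 2 :=
    mul_le_mul_of_nonneg_right (by nlinarith) this
  nlinarith

end BT
open BT

theorem test : TestStmt := by
  classical
  intro n B κ
  obtain ⟨c1, hc1⟩ : ∃ c1 : ℝ, c1 = 16 * κ ^ 2 + 48 * n * κ ^ 4 := ⟨_, rfl⟩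
  have c10 : 0 ≤ c1 := by rw [hc1]; positivity
  refine ⟨B * n * (2000 * c1 + 4 * (1 + B ^ 2) * (9 * (2000 * c1 + 8 * κ ^ 2))), by positivity, ?_⟩
  intro L T _ _ ex ey p p0 c0 b O E w q Bd P U j A l r3 D top D3 hX hp hL φ γ Γ H
  have hE := D.env
  have hC := D.clock
  have hG := D.geom
  have hη : 1 ≤ P.η 0 := by have := D3.h1; omega
  have hj : 3 * j < P.η 0 := by
    have h1 := D3.h1
    have : 1 ≤ A := by have := hG.hA; have := one_le_tS; omega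
    nlinarith [Nat.zero_le (l * (j * (2 * A + 1))), Nat.mul_le_mul_left j this]
  have F0 : ∀ s, 0 ≤ p s * (1 - p s) * γ s ^ 2 := fun s =>
    mul_nonneg (mul_nonneg (hp s).1 (sub_nonneg.2 (hp s).2)) (sq_nonneg _)
  choose! σ σ1 σ2 σ3 using fun t (ht : t < B) => pick (ex := ex) (ey := ey) (p := p) (O := O)
    (P := P) hC.hT D.fine (F := fun s => p s * (1 - p s) * γ s ^ 2) F0 ht
  have σ4 : ∀ t < B, σ t < B * w := fun t ht =>
    (mem_Ico.1 (σ1 t ht)).2.trans_le (Nat.mul_le_mul_right _ ht)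
  have E0 := sum_nonneg fun s (_ : s ∈ univ) => F0 s
  have en := fun t ht => energy hE hC hp hη H (σ4 t ht) (σ2 t ht) (σ3 t ht) E0
  have ly := fun t ht c c' S => layers hE hC hX hp hη H (σ4 t ht) (σ2 t ht) (σ3 t ht) E0 c c' (S := S)
  have wi := fun t ht c S => windows hE hC D3.pers hp H ht (σ1 t (by omega)) (σ1 (t + 1) ht) c (S := S)
  choose G m g1 g2 g3 g4 using fun t c => layer hG top hL (σ t * E) c
    (fun y => φ (tm T (σ t * E), (y, c))) fun y => (H.bd _).1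
  have M1 : 1 ≤ (L : ℝ) ^ 2 * (P.K (P.mt - 1) * P.η (P.mt - 1)) ^ 4 := by
    have := eta_mono hG.ok (m := P.mt - 1) (by have := hG.ok.pos; omega)
    refine one_le_mul_of_one_le_of_one_le (one_le_pow₀ ?_) (one_le_pow₀
      (one_le_mul_of_one_le_of_one_le (one_le_K P _) ?_))
    exacts [by exact_mod_cast (by omega : 1 ≤ L), by exact_mod_cast hη.trans this]
  rw [← hc1] at en
  have e0 : 0 ≤ q ^ 2 * Γ ^ 2 * (L : ℝ) ^ 3 := by positivity
  rw [mul_assoc _ ((L : ℝ) ^ 2)]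
  generalize (L : ℝ) ^ 2 * (P.K (P.mt - 1) * P.η (P.mt - 1)) ^ 4 = M at *
  have wi' := fun t ht c S h => (wi t ht c S h).trans
    (mul_le_mul_of_nonneg_left (le_add_of_nonneg_right e0) (by positivity))
  have X0 := add_nonneg E0 e0
  generalize ∑ s, p s * (1 - p s) * γ s ^ 2 + q ^ 2 * Γ ^ 2 * (L : ℝ) ^ 3 = X at *
  have M0 : 0 ≤ 1000 * M := by positivity
  have g3' := fun t ht c => (g3 t c).trans (mul_le_mul_of_nonneg_left (en t ht c) M0)
  have g4' := fun t ht c => (g4 t c).trans (mul_le_mul_of_nonneg_left (en t ht c) M0)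
  obtain ⟨Δ, hΔ⟩ : ∃ Δ, Δ = 9 * (1000 * M * (c1 * X) + 1000 * M * (c1 * X) + 8 * κ ^ 2 * X) :=
    ⟨_, rfl⟩
  have Δ0 : 0 ≤ Δ := by rw [hΔ]; positivity
  have V0 : (0 : ℝ) ≤ (L : ℝ) ^ 3 := by positivity
  have d1 : ∀ t < B, ∀ c c', (L : ℝ) ^ 3 * (m t c - m t c') ^ 2 ≤ Δ := fun t ht c c' =>
    hΔ ▸ cmp (Pi.single 0 1) (big (X := ∅) _ (g2 t c) (g2 t c') (by simp))
      (filter_subset _ _) (fun x hx => (mem_filter.1 hx).2.1) (g3' t ht c) (g3' t ht c')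
      (ly t ht c c' _ fun x hx => ⟨(g1 t c x (mem_filter.1 hx).1).1,
        (g1 t c' _ (mem_filter.1 hx).2.1).1⟩)
  have d2 : ∀ c t, t + 1 < B → (L : ℝ) ^ 3 * (m t c - m (t + 1) c) ^ 2 ≤ Δ := fun c t ht => by
    obtain ⟨S, hS⟩ : ∃ S : Finset (Tor 3 L), ∀ x, x ∈ S ↔ x ∉ U 1 ∧
        ∃ k ∈ Ico (t * (w * E)) ((t + 2) * (w * E)), ∃ y, (tm T k, y) ∈ O ∧ tdist x y.1 ≤ 1 :=
      ⟨_, fun x => ((mem_filter (s := univ) (p := fun x => x ∉ U 1 ∧
        ∃ k ∈ Ico (t * (w * E)) ((t + 2) * (w * E)), ∃ y, (tm T k, y) ∈ O ∧ tdist x y.1 ≤ 1)).trans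
        (and_iff_right (mem_univ x)))⟩
    exact hΔ ▸ cmp 0 (big (X := S) _ (g2 t c) (g2 (t + 1) c) (exc hG hj t fun x => (hS x).1))
      (filter_subset _ _) (fun x hx => (mem_filter.1 hx).2.1) (g3' t (by omega) c) (g3' _ ht c)
      (wi' t ht c _ fun x hx k hk y hy => not_le.1 fun e => (mem_filter.1 hx).2.2
        ((hS x).2 ⟨(g1 t c x (mem_filter.1 hx).1).2, k, hk, y, hy, e⟩))
  rcases isEmpty_or_nonempty (Fin n) with hn | ⟨⟨c'⟩⟩
  · exact ⟨σ, 0, σ1, by simp only [univ_eq_empty, filter_empty, sum_empty, sum_const_zero]; positivity⟩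
  refine ⟨σ, m 0 c', σ1, le_trans (sum_le_sum (g := fun _ => ∑ _c : Fin n,
    (2 * (1000 * M * (c1 * X)) + 4 * (1 + B ^ 2) * Δ)) fun t ht => ?_) ?_⟩
  · have ht := mem_range.1 ht
    rw [sum_filter, Fintype.sum_prod_type_right]
    refine sum_le_sum fun c _ => ?_
    have h1 := chainc (m := fun t => m t c') V0 ht (d2 c') Δ0
    have h2 := d1 t ht c c'
    have h3 := g4' t ht c
    have h4 : (L : ℝ) ^ 3 * (m t c - m 0 c') ^ 2 ≤ 2 * (1 + B ^ 2) * Δ := by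
      have := mul_le_mul_of_nonneg_left (show (m t c - m 0 c') ^ 2 ≤ 2 * (m t c - m t c') ^ 2 +
        2 * (m t c' - m 0 c') ^ 2 by nlinarith [sq_nonneg (m t c - 2 * m t c' + m 0 c')]) V0
      nlinarith
    rw [sum_filter] at h3
    refine le_trans (sum_le_sum (g := fun x => 2 * (if Tst O P U A (σ t * E) (x, c) then
      (φ (tm T (σ t * E), (x, c)) - m t c) ^ 2 else 0) + 2 * (m t c - m 0 c') ^ 2) fun x _ => ?_) ?_
    · split_ifs
      · nlinarith [sq_nonneg (φ (tm T (σ t * E), (x, c)) - 2 * m t c + m 0 c')]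
      · positivity
    · rw [sum_add_distrib, ← mul_sum, sum_const_tor]
      nlinarith
  · rw [sum_const, sum_const, card_range, card_univ, Fintype.card_fin, nsmul_eq_mul, nsmul_eq_mul,
      ← mul_assoc, mul_assoc _ _ M, mul_assoc (B * n : ℝ)]
    refine mul_le_mul_of_nonneg_left ?_ (by positivity)
    have h1 : κ ^ 2 * X ≤ κ ^ 2 * (M * X) :=
      mul_le_mul_of_nonneg_left (le_mul_of_one_le_left X0 M1) (sq_nonneg κ)
    have h2 : Δ ≤ 9 * (2000 * c1 + 8 * κ ^ 2) * (M * X) := by rw [hΔ]; nlinarith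
    have h3 := mul_le_mul_of_nonneg_left h2 (show (0 : ℝ) ≤ 4 * (1 + B ^ 2) by positivity)
    nlinarith

end Crest.Agent.N337.ZM
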