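import Crest.Agent.N337.Top.BFix
import Crest.Agent.N337.Top.BWord
import Crest.Agent.N337.Top.BChain
import Crest.Agent.N337.Top.BTest
import Crest.Agent.N337.R.Gb

/-!
# Row 337, TOP (B), part 7: `LongStmt`
-/

set_option autoImplicit false

namespace Crest.Agent.N337.ZM

open Finset Filter Crest.MathPhysics.SpinModel Free KV G1 Crest.Agent.N337.Top

lemma xb_le {L n k ρ : ℕ} {C C2 er m M Q : ℝ} (hL : (1 : ℝ) ≤ L) (hρ : (ρ : ℝ) ≤ Q) (hQ : 1 ≤ Q)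
    (C0 : 0 ≤ C) (hC : C ≤ C2 * ((L : ℝ) ^ 2 * Q ^ 4)) (er0 : 0 ≤ er) (er1 : er ≤ 1)
    (hm : (L : ℝ) ^ 3 * m ^ 2 ≤ M ^ 2) :
    Xb L n k ρ C er m (2 * m) ≤
      m ^ 2 * ((4 * k + 108 * n + 10976 * n * C2 + 16 * n * M ^ 2) * ((L : ℝ) ^ 2 * Q ^ 7)) := by
  have e : Xb L n k ρ C er m (2 * m) = m ^ 2 * (4 * k + 4 * n * (2 * (ρ : ℝ) + 1) ^ 3 +
      16 * n * ((6 * (ρ : ℝ) + 1) ^ 3 * (C * (1 + er))) + 16 * n * ((L : ℝ) ^ 3 * m ^ 2)) := by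
    rw [Xb]; ring
  have Q0 : 0 ≤ Q := zero_le_one.trans hQ
  have l2 : 1 ≤ (L : ℝ) ^ 2 := one_le_pow₀ hL
  have q7 : 1 ≤ (L : ℝ) ^ 2 * Q ^ 7 := one_le_mul_of_one_le_of_one_le l2 (one_le_pow₀ hQ)
  have h1 : (2 * (ρ : ℝ) + 1) ^ 3 ≤ 27 * ((L : ℝ) ^ 2 * Q ^ 7) :=
    calc _ ≤ (3 * Q) ^ 3 := pow_le_pow_left₀ (by positivity) (by linarith) 3
      _ = 27 * (1 * Q ^ 3) := by ring
      _ ≤ _ := by gcongr; norm_num
  have h2 : (6 * (ρ : ℝ) + 1) ^ 3 * (C * (1 + er)) ≤ 686 * C2 * ((L : ℝ) ^ 2 * Q ^ 7) :=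
    calc _ ≤ (7 * Q) ^ 3 * (C2 * ((L : ℝ) ^ 2 * Q ^ 4) * 2) :=
          mul_le_mul (pow_le_pow_left₀ (by positivity) (by linarith) 3)
            (mul_le_mul hC (by linarith) (by linarith) (C0.trans hC)) (by positivity) (by positivity)
      _ = _ := by ring
  have h3 : (L : ℝ) ^ 3 * m ^ 2 ≤ M ^ 2 * ((L : ℝ) ^ 2 * Q ^ 7) :=
    hm.trans (le_mul_of_one_le_right (sq_nonneg _) q7)
  have h4 : (k : ℝ) ≤ k * ((L : ℝ) ^ 2 * Q ^ 7) := le_mul_of_one_le_right (Nat.cast_nonneg _) q7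
  have n0 : (0 : ℝ) ≤ n := Nat.cast_nonneg _
  rw [e]
  refine mul_le_mul_of_nonneg_left ?_ (sq_nonneg _)
  nlinarith [mul_le_mul_of_nonneg_left h1 n0, mul_le_mul_of_nonneg_left h2 n0,
    mul_le_mul_of_nonneg_left h3 n0]

lemma q_small {D ε : ℝ} (hD : 0 ≤ D) (hε : 0 < ε) {L Q : ℝ} (hL : D * (D / ε) ^ 7 ≤ ε * L)
    (hQ : 1 ≤ Q) (h : Q ^ 10 ≤ L) : D * Q ^ 7 ≤ ε * L := by
  have Q0 : 0 ≤ Q := zero_le_one.trans hQ
  rcases le_total D (ε * Q ^ 3) with c | c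
  · calc D * Q ^ 7 ≤ ε * Q ^ 3 * Q ^ 7 := by gcongr
      _ = ε * Q ^ 10 := by ring
      _ ≤ _ := by gcongr
  · refine le_trans ?_ hL
    have : Q ≤ D / ε := by
      rw [le_div_iff₀' hε]
      exact le_trans (by gcongr; exact le_self_pow₀ hQ (by norm_num)) c
    gcongr

lemma a_le {V u M : ℝ} (hu : 1 ≤ u) (hM : 0 < M) (hV : 2 * M ≤ V) :
    1 / ((1 - M / V) * (1 - Real.exp (-(u / V)))) ≤ V / u + 2 + 2 * M := by
  have V0 : 0 < V := by linarith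
  have u0 : 0 < u := by linarith
  have t0 : 0 < u / V := by positivity
  have m0 : 0 < M / V := by positivity
  have m1 : M / V ≤ 1 / 2 := by rw [div_le_iff₀ V0]; linarith
  have h1 : Real.exp (-(u / V)) ≤ 1 / (1 + u / V) := by
    rw [Real.exp_neg, one_div]
    exact inv_anti₀ (by positivity) (by linarith [Real.add_one_le_exp (u / V)])
  have h2 : 1 - 1 / (1 + u / V) = 1 / (1 + V / u) := by field_simp; ring
  have h3 : 1 / (1 + 2 * (M / V)) ≤ 1 - M / V := by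
    rw [div_le_iff₀ (by positivity)]; nlinarith
  calc _ ≤ 1 / (1 / (1 + 2 * (M / V)) * (1 / (1 + V / u))) :=
        one_div_le_one_div_of_le (by positivity)
          (mul_le_mul h3 (by linarith) (by positivity) (by linarith))
    _ = V / u + 1 + 2 * (M / V) + 2 * M / u := by field_simp; ring
    _ ≤ _ := by linarith [div_le_self (by positivity : 0 ≤ 2 * M) hu]

/-- the final inequality between numbers. -/
lemma fin_num {L n K0 ρ Nb : ℕ} {u M ε g a X D Q : ℝ} (hL : (1 : ℝ) ≤ L) (hn : (1 : ℝ) ≤ n)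
    (hu : 1 ≤ u) (hM : 0 < M) (hε : 0 < ε) (a0 : 0 ≤ a) (ha : a ≤ (L : ℝ) ^ 3 / u + 2 + 2 * M)
    (h1 : 2 + 2 * M ≤ (L : ℝ) ^ 3) (h2 : 2 + 2 * M ≤ ε / 8 * (L : ℝ) ^ 3) (hg : g ≤ ε / (48 * n))
    (D0 : 0 ≤ D) (hX : X ≤ (M / (L : ℝ) ^ 3) ^ 2 * (D * ((L : ℝ) ^ 2 * Q ^ 7))) (hρ : (ρ : ℝ) ≤ Q)
    (hQ : 1 ≤ Q) (hD : (2 * n * M ^ 2 * D + 432 * n ^ 3 * M ^ 3) * Q ^ 7 ≤ ε / 4 * L)
    (hK : 0 < K0) (hN : 8 * n * (Nb : ℝ) / ε ≤ K0) :
    a + ((6 * g + a * X) + a * (8 * (M / (L : ℝ) ^ 3) ^ 3 * (n * (2 * (ρ : ℝ) + 1) ^ 3)) *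
      (n * (L : ℝ) ^ 3) + (Nb : ℝ) / K0) * (n * (L : ℝ) ^ 3) ≤ (1 / u + 5 * ε / 8) * (L : ℝ) ^ 3 := by
  have L0 : (0 : ℝ) < L := by linarith
  have K0' : (0 : ℝ) < K0 := by exact_mod_cast hK
  set V := (L : ℝ) ^ 3 with hV
  have V0 : 0 < V := by positivity
  have a2 : a ≤ 2 * V := by linarith [div_le_self V0.le hu]
  have b1 : 6 * g * (n * V) ≤ ε / 8 * V := by
    calc _ ≤ 6 * (ε / (48 * n)) * (n * V) := by gcongr
      _ = _ := by field_simp; ring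
  have b2 : a * X * (n * V) ≤ 2 * n * M ^ 2 * D * Q ^ 7 * (L : ℝ) ^ 2 :=
    calc _ ≤ a * ((M / V) ^ 2 * (D * ((L : ℝ) ^ 2 * Q ^ 7))) * (n * V) := by gcongr
      _ ≤ 2 * V * ((M / V) ^ 2 * (D * ((L : ℝ) ^ 2 * Q ^ 7))) * (n * V) := by gcongr
      _ = _ := by field_simp
  have b3 : a * (8 * (M / V) ^ 3 * (n * (2 * (ρ : ℝ) + 1) ^ 3)) * (n * V) * (n * V) ≤
      432 * n ^ 3 * M ^ 3 * Q ^ 7 * (L : ℝ) ^ 2 :=
    calc _ ≤ 2 * V * (8 * (M / V) ^ 3 * (n * (3 * Q) ^ 3)) * (n * V) * (n * V) := by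
          gcongr; linarith
      _ = 432 * n ^ 3 * M ^ 3 * Q ^ 3 * 1 := by field_simp; ring
      _ ≤ _ := by gcongr; exacts [by norm_num, one_le_pow₀ hL]
  have b4 : (Nb : ℝ) / K0 * (n * V) ≤ ε / 8 * V := by
    rw [div_le_iff₀ hε] at hN
    rw [← mul_assoc]
    refine mul_le_mul_of_nonneg_right ?_ V0.le
    rw [div_mul_eq_mul_div, div_le_iff₀ K0']
    linarith
  have b5 := mul_le_mul_of_nonneg_right hD (sq_nonneg (L : ℝ))
  have b6 : ε / 4 * L * (L : ℝ) ^ 2 = ε / 4 * V := by rw [hV]; ring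
  have b7 : V / u = 1 / u * V := by ring
  nlinarith

/-- fixed volume. -/
theorem long_vol (hW : WordStmt) {n L : ℕ} [NeZero n] [NeZero L] {β u ε κ g M ε' CX η D D' : ℝ}
    {d K0 j A l r3 m1 : ℕ} {P : Scales} (hκ : κ = 10 * (n : ℝ) ^ 2) (β1 : 1 ≤ β) (u1 : 1 ≤ u)
    (hε : 0 < ε) (C0 : 0 ≤ CX) (hX : ∀ (T : ℕ) [NeZero T]
    (ex ey : Fin T → Tor 3 L × Fin n) (p p0 c0 : Fin T → ℝ) (b : Fin T × (Tor 3 L × Fin n) → ℝ)
    (O : Finset (Fin T × (Tor 3 L × Fin n))) (E w : ℕ) (q : ℝ) (Bd : Finset ℕ) (P : Scales)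
    (U : ℕ → Finset (Tor 3 L)) (j A l r3 : ℕ),
    Data ex ey p p0 b c0 O ∅ E w (⌊β⌋₊ + 1) q κ Bd P U j A → U P.mt = ∅ →
    Data3 ex ey p0 c0 O E w κ P U j A l r3 → Crs ex ey p0 E w (⌊β⌋₊ + 1) q Bd →
    (∀ s, 0 ≤ p s ∧ p s ≤ 1) → 100 ≤ L → Expo ex ey p O (P.η (P.mt - 1))
      (2 * CX * (L : ℝ) ^ 2 * (P.K (P.mt - 1) * P.η (P.mt - 1)) ^ 4 + 8 * κ) (q ^ 2 * (L : ℝ) ^ 3))
    (g0 : 0 < g) (g1 : g ≤ 1 / 2) (g2 : g ≤ ε / (48 * n)) (M1 : 2 * u ≤ M)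
    (M2 : 3 * 512 * Cg κ / g ≤ M) (e0 : 0 < ε') (e1 : ε' ≤ ε / (16 * n))
    (e2 : 2 * 10 ^ 7 * ε' ≤ g / (3 * Cg κ)) (e3 : ε' ≤ 1 / 8) (k0 : 0 < K0)
    (k1 : 8 * n * ((n * (2 * d + 1) ^ 3 : ℕ) : ℝ) / ε ≤ K0)
    (hD : D = 4 * ((2 * K0 : ℕ) : ℝ) + 108 * n + 10976 * n * (2 * CX + 8 * κ) + 16 * n * M ^ 2)
    (hD' : D' = 2 * n * M ^ 2 * D + 432 * n ^ 3 * M ^ 3) (l1 : 100 ≤ L) (l2 : 2 + 2 * M ≤ L)
    (l3 : 2 + 2 * M ≤ ε / 8 * L) (l4 : D' * (D' / (ε / 4)) ^ 7 ≤ ε / 4 * L)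
    (p1 : 1 ≤ m1) (p2 : m1 ≤ P.mt)
    (p4 : P.K (m1 - 1) * (1 + (Nat.log 2 d : ℝ)) ^ 2 * (P.η (m1 - 1) : ℝ) ^ 2 ≤ ε' * d)
    (p5 : (P.K (P.mt - 1) * P.η (P.mt - 1)) ^ 10 ≤ (L : ℝ))
    {sy : List (Sl L n × Sl L n × ℝ)} (hs : Sym sy) :
    ∀ᶠ w : ℕ in atTop, ∀ U : (Fin (TT β w sy) → Bool) → Finset (Fin (TT β w sy) × Sl L n) →
        ℕ → Finset (Tor 3 L), ∀ b, b = Top.bt (Real.exp (-(u / (L : ℝ) ^ 3))) →
      RR.WR (ex β w sy) (ey β w sy) (pp β w sy) b (fun ξ R => ¬ Good (ex β w sy) (ey β w sy)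
        (pp β w sy) (lay sy).length (w + 1) P j A l r3 ξ R (U ξ R)) ≤
          (ε' + η) * EW β w sy b (fun _ _ => 1) →
      (∀ x, RR.WR (ex β w sy) (ey β w sy) (pp β w sy) b (fun ξ R => ¬ Clean P (U ξ R) x m1 d) ≤
        (ε' + η) * EW β w sy b fun _ _ => 1) →
      EW β w sy b (fun π D => (Top.N0 D : ℝ) - Ns (2 * K0) π D) ≤
        (1 / u + 2 * n * η + ε) * (L : ℝ) ^ 3 * EW β w sy b fun _ _ => 1 := by
  have n1 : (1 : ℝ) ≤ n := by exact_mod_cast NeZero.one_le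
  have κ0 : 0 < κ := by rw [hκ]; positivity
  have c0 : 0 < Cg κ := by unfold Cg; positivity
  have M0 : 0 < M := by linarith
  have D0 : 0 ≤ D := by rw [hD]; positivity
  have L1 : (1 : ℝ) ≤ L := by exact_mod_cast NeZero.one_le
  have LV : (L : ℝ) ≤ (L : ℝ) ^ 3 := le_self_pow₀ L1 (by norm_num)
  set V : ℝ := (L : ℝ) ^ 3 with hV
  have V0 : 0 < V := by positivity
  have m0 : 0 < M / V := by positivity
  have m1' : M / V ≤ 1 / 2 := by rw [div_le_iff₀ V0]; linarith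
  have hq : Tendsto (fun w : ℕ => β / (2 * MM β w)) atTop (nhds 0) :=
    tendsto_const_nhds.div_atTop ((tendsto_natCast_atTop_atTop.comp (tendsto_atTop_mono
      (fun w => (Nat.le_succ w).trans (Nat.le_mul_of_pos_left _ (Nat.succ_pos _)))
      tendsto_id)).const_mul_atTop two_pos)
  have q1 := ((hq.pow 2).mul_const V).eventually
    (ge_mem_nhds (a := 1) (by rw [zero_pow two_ne_zero, zero_mul]; exact one_pos))
  have q2 := (((((hq.pow 2).mul_const ((1 / (1 - (1 - M / V / 2))) ^ 2)).mul_const V).mul_const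
    (n : ℝ)).mul_const ((⌊β⌋₊ + 1 : ℕ) : ℝ)).eventually
      (ge_mem_nhds (a := g / (3 * Cg κ)) (by
        rw [zero_pow two_ne_zero, zero_mul, zero_mul, zero_mul, zero_mul]; positivity))
  filter_upwards [q1, q2, eventually_ge_atTop (2 * (2 + L ^ 3 * j + 1))]
    with w q1 q2 q3 U b hb hU hU'
  subst hb
  obtain ⟨w1, w2, w3, w4⟩ := hW L n (by omega) β β1 sy hs w (1 - M / V / 2) (by linarith)
    (by linarith)
  rw [← hκ] at w1 w2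
  obtain ⟨Q, Q1, Q2, Q3⟩ : ∃ Q : ℝ, 1 ≤ Q ∧ P.K (P.mt - 1) * P.η (P.mt - 1) ≤ Q ∧ Q ^ 10 ≤ L :=
    ⟨max 1 _, le_max_left _ _, le_max_right _ _, by
      rcases le_total 1 (P.K (P.mt - 1) * P.η (P.mt - 1)) with c | c
      · rwa [max_eq_right c]
      · rwa [max_eq_left c, one_pow]⟩
  have K1 := one_le_K P (P.mt - 1)
  have ρQ : (P.η (P.mt - 1) : ℝ) ≤ Q := (le_mul_of_one_le_left (Nat.cast_nonneg _) K1).trans Q2
  have t1 := Nat.pow_log_le_self 2 (show L / 2 ≠ 0 by omega)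
  have t2 := Nat.lt_pow_succ_log_self one_lt_two (L / 2)
  rw [pow_succ] at t2
  set K := Nat.log 2 (L / 2)
  have z1 : Real.exp (-(u / V)) < 1 := Real.exp_lt_one_iff.2 (neg_lt_zero.2 (by positivity))
  have z2 : 1 - M / V / 2 ≤ Real.exp (-(u / V)) := by
    have : u / V ≤ M / V / 2 := by
      rw [div_right_comm]; exact div_le_div_of_nonneg_right (by linarith) V0.le
    linarith [Real.add_one_le_exp (-(u / V))]
  have p3 : 8 * P.η (m1 - 1) ≤ d := by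
    have h1 : (1 : ℝ) * 1 * (P.η (m1 - 1) : ℝ) ≤
        P.K (m1 - 1) * (1 + (Nat.log 2 d : ℝ)) ^ 2 * (P.η (m1 - 1) : ℝ) ^ 2 := by
      have := one_le_K P (m1 - 1)
      gcongr
      · exact one_le_pow₀ (le_add_of_nonneg_right (Nat.cast_nonneg _))
      · exact_mod_cast Nat.le_self_pow two_ne_zero _
    have h2 := mul_le_mul_of_nonneg_right e3 (Nat.cast_nonneg (α := ℝ) d)
    exact_mod_cast (by linarith : 8 * (P.η (m1 - 1) : ℝ) ≤ d)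
  have key := long_fix (y := 1 - M / V) (z := Real.exp (-(u / V))) (g := g) (K := K) (K0 := K0)
    (pp_mem' w (by linarith) hs) w4 w1 w2
    (le_trans (by have := card_le_two (a := 0) (b := MM β w - 1); omega) (Nat.le_succ_of_le q3))
    (fun p b O U D top D3 hp => hX _ _ _ p _ _ b O _ _ _ _ P U j A l r3 D top D3 w3 hp (by omega))
    (by positivity) (by positivity) (by linarith) (by linarith) z2 z1 (by linarith) p1 p2
    (by omega) (fun ok m hm => ?_) p3 ?_ g0.le g1 k0 U hU hU'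
  · have a1 := a_le u1 M0 (show 2 * M ≤ V by linarith)
    have x1 := xb_le (n := n) (k := 2 * K0) (C2 := 2 * CX + 8 * κ) (m := M / V) (M := M)
      (C := 2 * CX * (L : ℝ) ^ 2 * (P.K (P.mt - 1) * P.η (P.mt - 1)) ^ 4 + 8 * κ) L1 ρQ Q1
      (by positivity) (by
        have h1 : 1 ≤ (L : ℝ) ^ 2 * Q ^ 4 :=
          one_le_mul_of_one_le_of_one_le (one_le_pow₀ L1) (one_le_pow₀ Q1)
        have h2 : 2 * CX * (L : ℝ) ^ 2 * (P.K (P.mt - 1) * P.η (P.mt - 1)) ^ 4 ≤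
          2 * CX * (L : ℝ) ^ 2 * Q ^ 4 := by gcongr
        have h3 := mul_le_mul_of_nonneg_left h1 (show 0 ≤ 8 * κ by positivity)
        linarith) (by positivity) q1 (by
        rw [← hV, div_pow, mul_div_assoc', div_le_iff₀ (by positivity), mul_comm]
        gcongr
        exact le_self_pow₀ (L1.trans LV) (by norm_num))
    rw [← hD] at x1
    have x2 := fin_num (a := 1 / ((1 - M / V) * (1 - Real.exp (-(u / V))))) L1 n1 u1 M0 hε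
      (by have := sub_pos.2 z1; have : 0 < 1 - M / V := by linarith
          positivity) a1 (by linarith) (l3.trans (by gcongr)) g2 D0 x1 ρQ Q1
      (hD' ▸ q_small (by rw [hD']; positivity) (by positivity) l4 Q1 Q3) k0 k1
    rw [sub_sub_cancel] at key
    have Z0 := zero_le_one.trans (one_le_EW w (by linarith : 0 ≤ β) hs
      (b := Top.bt (Real.exp (-(u / V)))) (Top.bt_nonneg (Real.exp_pos _).le))
    refine key.trans ((add_le_add_left (mul_le_mul_of_nonneg_right x2 Z0) _).trans ?_)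
    have x3 : n * ε' ≤ ε / 16 := by
      calc n * ε' ≤ n * (ε / (16 * n)) := by gcongr
        _ = _ := by field_simp
    have x4 := mul_le_mul_of_nonneg_right (mul_le_mul_of_nonneg_right x3 V0.le) Z0
    have x5 := mul_nonneg (mul_nonneg hε.le V0.le) Z0
    simp only [EW] at x4 x5 ⊢
    linarith
  · have h1 := eta_mono ok (show m ≤ P.mt - 1 by omega) (by omega)
    have h2 : P.η (P.mt - 1) ^ 2 ≤ L := by
      have := (pow_le_pow_left₀ (Nat.cast_nonneg _) ρQ 2).trans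
        ((pow_le_pow_right₀ Q1 (by norm_num : 2 ≤ 10)).trans Q3)
      exact_mod_cast this
    have h3 : 10 * P.η (P.mt - 1) ≤ L := by nlinarith
    omega
  · have h1 : (L : ℝ) / 4 ≤ 2 * ((2 ^ K - 1 : ℕ) : ℝ) + 1 := by
      have : L ≤ 4 * (2 * (2 ^ K - 1) + 1) := by omega
      have : (L : ℝ) ≤ 4 * (2 * ((2 ^ K - 1 : ℕ) : ℝ) + 1) := by exact_mod_cast this
      linarith
    have h2 : 4 / (1 - (1 - M / V / 2)) / (2 * ((2 ^ K - 1 : ℕ) : ℝ) + 1) ^ 3 ≤ g / (3 * Cg κ) :=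
      calc _ ≤ 4 / (1 - (1 - M / V / 2)) / ((L : ℝ) / 4) ^ 3 := by
            rw [sub_sub_cancel]; gcongr
        _ = 512 / M := by rw [sub_sub_cancel, div_pow, ← hV]; field_simp; ring
        _ ≤ _ := by
            rw [div_le_iff₀ g0] at M2
            rw [div_le_div_iff₀ M0 (by positivity)]
            linarith
    have h3 := (mul_le_mul_of_nonneg_left (div_le_of_le_mul₀ (Nat.cast_nonneg _) e0.le p4)
      (by norm_num : (0 : ℝ) ≤ 2 * 10 ^ 7)).trans e2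
    calc _ ≤ Cg κ * (g / (3 * Cg κ) + g / (3 * Cg κ) + g / (3 * Cg κ)) :=
          mul_le_mul_of_nonneg_left (add_le_add (add_le_add h2 h3) q2) c0.le
      _ = g := by field_simp; ring

theorem long_of (hR : RareStmt) (hW : WordStmt) (hX : ExpoStmt) : LongStmt := by
  intro n _
  obtain ⟨β0, hR⟩ := hR n
  refine ⟨max β0 1, fun β hβ => ?_⟩
  have β1 : 1 ≤ β := (le_max_right _ _).trans hβ
  obtain ⟨CR, u0, hR⟩ := hR β ((le_max_left _ _).trans hβ)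
  obtain ⟨CX, C0, hX⟩ := hX n (⌊β⌋₊ + 1) (10 * (n : ℝ) ^ 2)
  refine ⟨2 * n * CR, max u0 1, fun u hu ε hε => ?_⟩
  have u1 : 1 ≤ u := (le_max_right _ _).trans hu
  have n1 : (1 : ℝ) ≤ n := by exact_mod_cast NeZero.one_le
  set κ : ℝ := 10 * (n : ℝ) ^ 2 with hκ
  have c0 : 0 < Cg κ := by unfold Cg; positivity
  obtain ⟨g, g0, g1, g2⟩ : ∃ g : ℝ, 0 < g ∧ g ≤ 1 / 2 ∧ g ≤ ε / (48 * n) :=
    ⟨min (1 / 2) (ε / (48 * n)), by positivity, min_le_left _ _, min_le_right _ _⟩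
  obtain ⟨M, M1, M2⟩ : ∃ M : ℝ, 2 * u ≤ M ∧ 3 * 512 * Cg κ / g ≤ M :=
    ⟨max _ _, le_max_left _ _, le_max_right _ _⟩
  obtain ⟨ε', e0, e1, e2, e3⟩ : ∃ ε' : ℝ, 0 < ε' ∧ ε' ≤ ε / (16 * n) ∧
      ε' ≤ g / (3 * Cg κ) / (2 * 10 ^ 7) ∧ ε' ≤ 1 / 8 :=
    ⟨min (ε / (16 * n)) (min (g / (3 * Cg κ) / (2 * 10 ^ 7)) (1 / 8)), by positivity,
      min_le_left _ _, (min_le_right _ _).trans (min_le_left _ _),
      (min_le_right _ _).trans (min_le_right _ _)⟩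
  rw [le_div_iff₀' (by norm_num)] at e2
  obtain ⟨d, hR⟩ := hR u ((le_max_left _ _).trans hu) ε' e0
  obtain ⟨K0, k0, k1⟩ : ∃ K0 : ℕ, 0 < K0 ∧ 8 * n * ((n * (2 * d + 1) ^ 3 : ℕ) : ℝ) / ε ≤ K0 :=
    ⟨⌈8 * n * ((n * (2 * d + 1) ^ 3 : ℕ) : ℝ) / ε⌉₊ + 1, Nat.succ_pos _,
      (Nat.le_ceil _).trans (Nat.cast_le.2 (Nat.le_succ _))⟩
  obtain ⟨D, hD⟩ : ∃ D : ℝ, D = 4 * ((2 * K0 : ℕ) : ℝ) + 108 * n + 10976 * n * (2 * CX + 8 * κ) +
    16 * n * M ^ 2 := ⟨_, rfl⟩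
  obtain ⟨D', hD'⟩ : ∃ D' : ℝ, D' = 2 * n * M ^ 2 * D + 432 * n ^ 3 * M ^ 3 := ⟨_, rfl⟩
  have hL : Tendsto (fun L : ℕ => ((L + 1 : ℕ) : ℝ)) atTop atTop :=
    tendsto_natCast_atTop_atTop.comp (tendsto_add_atTop_nat 1)
  refine ⟨2 * K0, ?_⟩
  filter_upwards [hR, eventually_ge_atTop 100, hL.eventually_ge_atTop (2 + 2 * M),
    hL.eventually_ge_atTop ((2 + 2 * M) / (ε / 8)),
    hL.eventually_ge_atTop (D' * (D' / (ε / 4)) ^ 7 / (ε / 4))]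
    with L ⟨P, j, A, l, r3, m1, p1, p2, p3, p4, p5, hR⟩ l1 l2 l3 l4 sy hs
  rw [div_le_iff₀' (by positivity)] at l3 l4
  filter_upwards [hR sy hs, long_vol hW (η := CR * Real.exp (-(β ^ (-(1 / 4 : ℝ)) * u))) (j := j)
    (A := A) (l := l) (r3 := r3) hκ β1 u1 hε C0 (fun T _ => hX (L + 1) T) g0 g1 g2 M1 M2 e0 e1 e2 e3 k0 k1 hD hD'
    (by omega) l2 l3 l4 p1 p2 p4 p5 hs] with w ⟨U, h1, h2⟩ h
  have := h U _ rfl h1 h2
  rwa [← mul_assoc] at this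

/-- `LongStmt` from rarity and the test inequality. -/
theorem long_of' (hR : RareStmt) (hT : TestStmt) : LongStmt := long_of hR word (expo_of hT chain)

/-- **the sharp zero mode.** -/
theorem long : LongStmt := long_of' RR.rare test

end Crest.Agent.N337.ZM
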