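import Crest.Agent.N337.G1.Main
import Crest.Agent.N337.R.Defs

/-!
# Row 337, TOP (B) (helper87): interface statements

`LongStmt ⇐ RareStmt (C) + WordStmt + TestStmt + ChainStmt + G1d`.
-/

set_option autoImplicit false

namespace Crest.Agent.N337.ZM

open Finset Filter Equiv Crest.MathPhysics.SpinModel Geo Free KV G1 Crest.Agent.N337.Top

section defs
variable {L n T : ℕ} [NeZero L] [NeZero T] (ex ey : Fin T → Tor 3 L × Fin n)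

/-- fugacity profile in time. -/
def b0 (y : ℝ) (s : Fin T) : ℝ := if s = 0 then y else 1

/-- the bonds between the layers. -/
def Crs (p0 : Fin T → ℝ) (E w B : ℕ) (q : ℝ) (Bd : Finset ℕ) : Prop :=
  ∀ i < B * w, i ∉ Bd → ∀ (x : Tor 3 L) (c c' : Fin n), ∃ a < E,
    ex (tm T (i * E + a)) = (x, c) ∧ ey (tm T (i * E + a)) = (x + Pi.single 0 1, c') ∧
      p0 (tm T (i * E + a)) = q

/-- functions with step data `γ` (covers both directions of time). -/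
structure Lip (p : Fin T → ℝ) (O : Finset (Fin T × (Tor 3 L × Fin n)))
    (φ : Fin T × (Tor 3 L × Fin n) → ℝ) (γ : Fin T → ℝ) (Γ : ℝ) : Prop where
  bd : ∀ v, 0 ≤ φ v ∧ φ v ≤ Γ
  gam : ∀ s, 0 ≤ γ s ∧ γ s ≤ Γ
  grad : ∀ s, |φ (s, ex s) - φ (s, ey s)| ≤ γ s
  step : ∀ s x, s + 1 ≠ 0 → (s + 1, x) ∉ O →
    |φ (s + 1, x) - φ (s, x)| ≤ (if x = ex s ∨ x = ey s then p s else 0) * γ s

/-- a space-time chain of possible steps outside `O`. -/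
structure Walk (p : Fin T → ℝ) (O : Finset (Fin T × (Tor 3 L × Fin n))) (N : ℕ)
    (e : ℕ → Fin T × (Tor 3 L × Fin n)) : Prop where
  out : ∀ i ≤ N, e i ∉ O
  time : ∀ i < N, (e (i + 1)).1 = (e i).1 + 1
  step : ∀ i < N, (e (i + 1)).2 = (e i).2 ∨
    (p (e i).1 ≠ 0 ∧ (e (i + 1)).2 = swap (ex (e i).1) (ey (e i).1) (e i).2)

/-- test slots at the step `k`. -/
def Tst (O : Finset (Fin T × (Tor 3 L × Fin n))) (P : Scales) (U : ℕ → Finset (Tor 3 L))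
    (A k : ℕ) (z : Tor 3 L × Fin n) : Prop :=
  (tm T k, z) ∉ O ∧ Exp O A k z.1 ∧ Near P U z.1 1 A

/-- the junk sets `U` work for every pinned part `(p, O)` of the loops `R` of `ξ`. -/
def Good (p0 : Fin T → ℝ) (E w : ℕ) (P : Scales) (j A l r3 : ℕ) (ξ : Fin T → Bool)
    (R : Finset (Fin T × (Tor 3 L × Fin n))) (U : ℕ → Finset (Tor 3 L)) : Prop :=
  U P.mt = ∅ ∧ ∀ (p : Fin T → ℝ) (O : Finset (Fin T × (Tor 3 L × Fin n))), O ⊆ R →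
    (∀ s y, Ch ex ey p O s y → s + 1 = 0 ∨
      (ξ s = true ∧ (y = ex s ∨ y = ey s) ∧ ((s, ex s) ∈ R ∨ (s, ey s) ∈ R))) →
    Geom ex ey p O P U (w * E) j A ∧ ∀ (c0 : Fin T → ℝ) (κ : ℝ), Pers ex ey p0 c0 E w κ →
      Data3 ex ey p0 c0 O E w κ P U j A l r3

end defs

/-- **(Word)** the word of the torus has a clock. -/
def WordStmt : Prop :=
  ∀ (L n : ℕ) [NeZero L] [NeZero n], 3 ≤ L → ∀ β : ℝ, 1 ≤ β →
    ∀ sy : List (Sl L n × Sl L n × ℝ), Sym sy → ∀ (w : ℕ) (y : ℝ), 1 / 2 ≤ y → y ≤ 1 →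
      Clock (ex β w sy) (ey β w sy) (pp β w sy) (b0 y) (lay sy).length (w + 1) (⌊β⌋₊ + 1)
        (β / (2 * MM β w)) (10 * (n : ℝ) ^ 2) {0, MM β w - 1} ∧
      Pers (ex β w sy) (ey β w sy) (pp β w sy) (b0 y) (lay sy).length (w + 1) (10 * (n : ℝ) ^ 2) ∧
      Crs (ex β w sy) (ey β w sy) (pp β w sy) (lay sy).length (w + 1) (⌊β⌋₊ + 1)
        (β / (2 * MM β w)) {0, MM β w - 1} ∧
      ∀ s, tdist (ex β w sy s).1 (ey β w sy s).1 ≤ 1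

open Classical in
/-- **(Test)** `L²` Poincaré inequality on the test slots of one sweep per window. -/
def TestStmt : Prop :=
  ∀ (n B : ℕ) (κ : ℝ), ∃ C : ℝ, 0 ≤ C ∧ ∀ (L T : ℕ) [NeZero L] [NeZero T]
    (ex ey : Fin T → Tor 3 L × Fin n) (p p0 c0 : Fin T → ℝ) (b : Fin T × (Tor 3 L × Fin n) → ℝ)
    (O : Finset (Fin T × (Tor 3 L × Fin n))) (E w : ℕ) (q : ℝ) (Bd : Finset ℕ) (P : Scales)
    (U : ℕ → Finset (Tor 3 L)) (j A l r3 : ℕ),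
    Data ex ey p p0 b c0 O ∅ E w B q κ Bd P U j A → U P.mt = ∅ →
    Data3 ex ey p0 c0 O E w κ P U j A l r3 → Crs ex ey p0 E w B q Bd → (∀ s, 0 ≤ p s ∧ p s ≤ 1) →
    100 ≤ L →
    ∀ (φ : Fin T × (Tor 3 L × Fin n) → ℝ) (γ : Fin T → ℝ) (Γ : ℝ), Lip ex ey p O φ γ Γ →
      ∃ (σ : ℕ → ℕ) (c : ℝ), (∀ t < B, σ t ∈ Ico (t * w) ((t + 1) * w)) ∧
        ∑ t ∈ range B, ∑ z ∈ univ.filter (Tst O P U A (σ t * E)), (φ (tm T (σ t * E), z) - c) ^ 2 ≤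
          C * (L : ℝ) ^ 2 * (P.K (P.mt - 1) * P.η (P.mt - 1)) ^ 4 *
            (∑ s, p s * (1 - p s) * γ s ^ 2 + q ^ 2 * Γ ^ 2 * (L : ℝ) ^ 3)

/-- **(Chain)** a long chain is seen by a test slot. -/
def ChainStmt : Prop :=
  ∀ (L n T : ℕ) [NeZero L] [NeZero T]
    (ex ey : Fin T → Tor 3 L × Fin n) (p p0 c0 : Fin T → ℝ) (b : Fin T × (Tor 3 L × Fin n) → ℝ)
    (O : Finset (Fin T × (Tor 3 L × Fin n))) (E w B : ℕ) (q κ : ℝ) (Bd : Finset ℕ) (P : Scales)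
    (U : ℕ → Finset (Tor 3 L)) (j A l r3 : ℕ),
    Data ex ey p p0 b c0 O ∅ E w B q κ Bd P U j A → U P.mt = ∅ →
    Data3 ex ey p0 c0 O E w κ P U j A l r3 → (∀ s, 0 ≤ p s ∧ p s ≤ 1) →
    ∀ (φ : Fin T × (Tor 3 L × Fin n) → ℝ) (γ : Fin T → ℝ) (Γ : ℝ), Lip ex ey p O φ γ Γ →
    ∀ σ : ℕ → ℕ, (∀ t < B, σ t ∈ Ico (t * w) ((t + 1) * w)) →
    ∀ (N : ℕ) (e : ℕ → Fin T × (Tor 3 L × Fin n)), Walk ex ey p O N e →
      P.η (P.mt - 1) ≤ tdist (e 0).2.1 (e N).2.1 →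
      ∃ i ≤ N, ∃ t < B, ∃ z, Tst O P U A (σ t * E) z ∧ tdist (e 0).2.1 z.1 ≤ 2 * P.η (P.mt - 1) ∧
        (φ (e i) - φ (tm T (σ t * E), z)) ^ 2 ≤
          2 * κ * ∑ s, if z = ex s ∨ z = ey s then p s * (1 - p s) * γ s ^ 2 else 0

/-- **(Rare)** = TOP (C), helper4. -/
def RareStmt : Prop :=
  ∀ (n : ℕ) [NeZero n], ∃ β0 : ℝ, ∀ β : ℝ, β0 ≤ β → ∃ C u0 : ℝ, ∀ u : ℝ, u0 ≤ u →
    ∀ ε : ℝ, 0 < ε → ∃ d : ℕ, ∀ᶠ L : ℕ in atTop, ∃ (P : Scales) (j A l r3 m1 : ℕ),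
      1 ≤ m1 ∧ m1 ≤ P.mt ∧ 4 * P.η (m1 - 1) ≤ d ∧
      P.K (m1 - 1) * (1 + (Nat.log 2 d : ℝ)) ^ 2 * (P.η (m1 - 1) : ℝ) ^ 2 ≤ ε * d ∧
      (P.K (P.mt - 1) * P.η (P.mt - 1)) ^ 10 ≤ ((L + 1 : ℕ) : ℝ) ∧
      ∀ sy : List (Sl (L + 1) n × Sl (L + 1) n × ℝ), Sym sy → ∀ᶠ w : ℕ in atTop,
        let b : Fin (TT β w sy) × Sl (L + 1) n → ℝ := bt (Real.exp (-(u / ((L + 1 : ℕ) : ℝ) ^ 3)))
        let δ : ℝ := (ε + C * Real.exp (-(β ^ (-(1 / 4 : ℝ)) * u))) * EW β w sy b fun _ _ => 1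
        ∃ U : (Fin (TT β w sy) → Bool) → Finset (Fin (TT β w sy) × Sl (L + 1) n) →
            ℕ → Finset (Tor 3 (L + 1)),
          RR.WR (ex β w sy) (ey β w sy) (pp β w sy) b (fun ξ R => ¬ Good (ex β w sy) (ey β w sy)
            (pp β w sy) (lay sy).length (w + 1) P j A l r3 ξ R (U ξ R)) ≤ δ ∧
          ∀ x, RR.WR (ex β w sy) (ey β w sy) (pp β w sy) b
            (fun ξ R => ¬ Clean P (U ξ R) x m1 d) ≤ δ

end Crest.Agent.N337.ZM
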