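import Crest.Agent.N337.Top.BAlg
import Crest.Agent.N337.Top.Defs
import Crest.Agent.N337.L4.Ret

/-!
# Row 337, TOP (B), part 2: long down loops through the Green function of (red, arc)
-/

set_option autoImplicit false
set_option linter.unusedSectionVars false

namespace Crest.Agent.N337.ZM

open Finset Equiv Matrix Function Crest.Agent.N337.Rep Crest.Agent.N337.LY0 Crest.Agent.N337.Arc
  Crest.Agent.N337.Top

section perm
variable {S : Type} [Fintype S] [DecidableEq S]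

/-- the red points. -/
def rd (ω : S → Option Bool) : Finset S := univ.filter fun v => ω v ≠ none

lemma mem_rd {ω : S → Option Bool} {v : S} : v ∈ rd ω ↔ ω v ≠ none := by simp [rd]

/-- one loop down, the others green. -/
noncomputable def Yv (π : Perm S) (b : S → ℝ) (v : S) : ℝ :=
  ∏ g, if g = o π v then pr π b g else 1 - pr π b g

lemma pr_upd (π : Perm S) (b : S → ℝ) (v : S) (g : Orb π) :
    pr π (update b v 0) g = if g = o π v then 0 else pr π b g := by
  split_ifs with h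
  · exact pr_zero h.symm (update_self _ _ _)
  · exact pr_congr fun w hw => update_of_ne (fun e => h (by rw [← hw, e])) _ _

lemma Y_eq (π : Perm S) (b : S → ℝ) (v : S) :
    Yv π b v = ∏ g, (1 - pr π (update b v 0) g) - ∏ g, (1 - pr π b g) := by
  have e1 : ∏ g ∈ univ.erase (o π v), (if g = o π v then pr π b g else 1 - pr π b g) =
      ∏ g ∈ univ.erase (o π v), (1 - pr π b g) :=
    prod_congr rfl fun g hg => if_neg (ne_of_mem_erase hg)
  have e2 : ∏ g ∈ univ.erase (o π v), (1 - pr π (update b v 0) g) =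
      ∏ g ∈ univ.erase (o π v), (1 - pr π b g) :=
    prod_congr rfl fun g hg => by rw [pr_upd, if_neg (ne_of_mem_erase hg)]
  rw [Yv, ← mul_prod_erase _ _ (mem_univ (o π v)), ← mul_prod_erase _ _ (mem_univ (o π v)),
    ← mul_prod_erase univ (fun g => 1 - pr π b g) (mem_univ (o π v)), e1, e2, pr_upd, if_pos rfl,
    if_pos rfl]
  ring

lemma sumY (π : Perm S) (b : S → ℝ) (v : S) :
    ∑ ω : S → Option Bool, (if ∀ v, ω (π v) = ω v then zr b ω * Yv π (zg b ω) v else 0) =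
      ∏ g, if g = o π v then pr π b g else 1 + pr π b g := by
  rw [sum_inv_prod π _ fun g k => (if k = none then 1 else pr π b g) *
    (if g = o π v then (if k = none then pr π b g else 0) else
      1 - if k = none then pr π b g else 0)]
  · refine prod_congr rfl fun g _ => ?_
    by_cases h : g = o π v
    · simp only [h, Fintype.sum_option, Fintype.sum_bool]; simp
    · simp only [h, Fintype.sum_option, Fintype.sum_bool]; simp
  · intro c
    rw [prod_mul_distrib, zr_comp, Yv]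
    simp only [pr_zg]

lemma sumC {b : S → ℝ} (hb : ∀ v, 0 ≤ b v) (π : Perm S) (w : S) :
    ∑ ω : S → Option Bool, (if ∀ v, ω (π v) = ω v then zr b ω *
      (if ω w = none then ∏ g, (1 - pr π (update (zg b ω) w 0) g) else 0) else 0) ≤
      ∏ g, (1 + pr π b g) := by
  rw [sum_inv_prod π _ fun g k => (if k = none then 1 else pr π b g) *
    (if g = o π w then (if k = none then 1 else 0) else 1 - if k = none then pr π b g else 0)]
  · refine prod_le_prod (fun g _ => ?_) fun g _ => ?_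
    all_goals
      have := pr_nonneg (π := π) hb g
      by_cases h : g = o π w
      · simp only [h, Fintype.sum_option, Fintype.sum_bool] at this ⊢; simp [this]
      · simp only [h, Fintype.sum_option, Fintype.sum_bool]; simp; try linarith
  · intro c
    rw [prod_mul_distrib, zr_comp]
    congr 1
    simp only [pr_upd, pr_zg, Function.comp_apply]
    split_ifs with h
    · exact prod_congr rfl fun g _ => by split_ifs <;> simp_all
    · exact (prod_eq_zero (mem_univ (o π w)) (by simp [h])).symm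

lemma recol {b : S → ℝ} (h0 : ∀ v, 0 ≤ b v) (h1 : ∀ v, b v ≤ 1) (π : Perm S) (u : S)
    {f F : (S → Option Bool) → ℝ} (hF : ∀ ω, 0 ≤ F ω)
    (h : ∀ ω ω' : S → Option Bool, (∀ v, ω (π v) = ω v) → (∀ v, ω' (π v) = ω' v) →
      (∀ v, ω v ≠ none ∨ o π v = o π u → ω' v ≠ none) → f ω ≤ F ω') :
    ∑ ω : S → Option Bool, (if ∀ v, ω (π v) = ω v then zr b ω * Yv π (zg b ω) u * f ω else 0) ≤
      ∑ ω : S → Option Bool,
        (if ∀ v, ω (π v) = ω v then zr b ω * (gm π b ω).det * F ω else 0) := by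
  rw [sum_inv, sum_inv]
  have nn : ∀ c : Orb π → Option Bool, 0 ≤ zr b (c ∘ o π) * (gm π b (c ∘ o π)).det :=
    fun c => mul_nonneg (zr_nonneg h0 _) (det_gm_nonneg h0 h1 _ _)
  have key : ∀ c : Orb π → Option Bool, zr b (c ∘ o π) * Yv π (zg b (c ∘ o π)) u =
      if c (o π u) = none then zr b (update c (o π u) (some true) ∘ o π) *
        (gm π b (update c (o π u) (some true) ∘ o π)).det else 0 := by
    intro c
    simp only [zr_comp, Yv, det_gm, pr_zg, ← prod_mul_distrib]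
    split_ifs with hc
    · refine prod_congr rfl fun g _ => ?_
      by_cases hg : g = o π u
      · subst hg; simp [hc]
      · simp [hg]
    · exact prod_eq_zero (mem_univ (o π u)) (by simp [hc])
  have inv : ∀ (c : Orb π → Option Bool) v, (c ∘ o π) (π v) = (c ∘ o π) v := fun c v => by
    simp [o_apply]
  calc _ ≤ ∑ c ∈ univ.filter (fun c : Orb π → Option Bool => c (o π u) = none),
        zr b (update c (o π u) (some true) ∘ o π) *
          (gm π b (update c (o π u) (some true) ∘ o π)).det *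
            F (update c (o π u) (some true) ∘ o π) := by
        rw [sum_filter]
        refine sum_le_sum fun c _ => ?_
        rw [key]
        split_ifs with hc
        · refine mul_le_mul_of_nonneg_left (h _ _ (inv c) (inv _) fun v hv => ?_) (nn _)
          by_cases e : o π v = o π u
          · simp [e]
          · simpa [e] using hv
        · simp
    _ = ∑ c ∈ (univ.filter (fun c : Orb π → Option Bool => c (o π u) = none)).image
          (fun c => update c (o π u) (some true)),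
          zr b (c ∘ o π) * (gm π b (c ∘ o π)).det * F (c ∘ o π) := by
        rw [sum_image]
        intro c hc c' hc' e
        have := congrArg (fun d => update d (o π u) none) e
        simp only [update_idem] at this
        rwa [← (mem_filter.1 hc).2, update_eq_self, (mem_filter.1 hc).2,
          ← (mem_filter.1 hc').2, update_eq_self] at this
    _ ≤ _ := sum_le_sum_of_subset_of_nonneg (subset_univ _) fun c _ _ => mul_nonneg (nn c) (hF _)

/-- the principal cofactor. -/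
lemma cof (K : Matrix S S ℝ) (b : S → ℝ) (hN : (1 - K * diagonal b).det ≠ 0) (u : S) :
    (1 - K * diagonal (update b u 0)).det = (1 - K * diagonal b).det * Gr (K * diagonal b) u u := by
  have e : diagonal (update b u 0) =
      diagonal b + vecMulVec (b u • Pi.single u 1) (-Pi.single u 1) := by
    ext i j
    simp only [diagonal_apply, Matrix.add_apply, vecMulVec_apply, Pi.smul_apply, Pi.neg_apply,
      Pi.single_apply, update_apply, smul_eq_mul]
    by_cases hi : i = u <;> by_cases hj : j = u <;> by_cases hij : i = j <;> simp_all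
  have g := congrFun (green_step K b hN u) u
  rw [col_eq, Pi.add_apply, Pi.single_eq_same] at g
  rw [e, Matrix.mul_add, mul_vecMulVec, ← sub_sub, det_rank_one hN, neg_dotProduct,
    single_dotProduct, one_mul, sub_neg_eq_add, ← g]
  rfl

end perm

variable {Λ : Type} [Fintype Λ] [DecidableEq Λ] {T : ℕ} [NeZero T] (ex ey : Fin T → Λ)

/-- the first `k` windings from the root `r`. -/
def al (r : Λ) (k : ℕ) (ξ : Fin T → Bool) : Finset (Fin T × Λ) :=
  (range (k * T)).image (arc ex ey (0, r) ξ)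
/-- the loop of `r` does not close in `k` windings. -/
def Lg (r : Λ) (k : ℕ) (ξ : Fin T → Bool) : Prop :=
  ∀ i, 0 < i → i ≤ k * T → arc ex ey (0, r) ξ i ≠ (0, r)
/-- the tip. -/
def tip (r : Λ) (k : ℕ) (ξ : Fin T → Bool) : Λ := (arc ex ey (0, r) ξ (k * T)).2
/-- the obstacle: red points and the arc. -/
def obs (ω : Fin T × Λ → Option Bool) (r : Λ) (k : ℕ) (ξ : Fin T → Bool) : Finset (Fin T × Λ) :=
  rd ω ∪ al ex ey r k ξ
/-- joint weight of coins and red loops. -/
noncomputable def nuw (p : Fin T → ℝ) (b : Fin T × Λ → ℝ) (ξ : Fin T → Bool)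
    (ω : Fin T × Λ → Option Bool) : ℝ :=
  Pw p ξ * if ∀ v, ω (Sg ex ey ξ v) = ω v then zr b ω * (gm (Sg ex ey ξ) b ω).det else 0
/-- green slots at time `0`. -/
def gs (ω : Fin T × Λ → Option Bool) : Finset Λ := univ.filter fun x => ω (0, x) = none

lemma mem_al {r : Λ} {k : ℕ} {ξ : Fin T → Bool} {v : Fin T × Λ} :
    v ∈ al ex ey r k ξ ↔ ∃ i < k * T, arc ex ey (0, r) ξ i = v := by simp [al]

lemma arc_tip (r : Λ) (k : ℕ) (ξ : Fin T → Bool) :
    arc ex ey (0, r) ξ (k * T) = (0, tip ex ey r k ξ) :=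
  Prod.ext (Fin.ext (by rw [arc_time]; simp)) rfl

lemma arc_agree {r : Λ} {k : ℕ} {ξ ξ' : Fin T → Bool}
    (h : ∀ s ∈ tch ex ey (al ex ey r k ξ), ξ' s = ξ s) {i : ℕ} (hi : i ≤ k * T) :
    arc ex ey (0, r) ξ' i = arc ex ey (0, r) ξ i := by
  induction i with
  | zero => rfl
  | succ i ih =>
    rw [arc_succ, arc_succ, ih (by omega),
      Sg_congr ex ey h ((mem_al ex ey).2 ⟨i, by omega, rfl⟩)]

lemma inv_agree {ω : Fin T × Λ → Option Bool} {ξ ξ' : Fin T → Bool}
    (h : ∀ s ∈ tch ex ey (rd ω), ξ' s = ξ s) (hi : ∀ v, ω (Sg ex ey ξ v) = ω v) (v : Fin T × Λ) :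
    ω (Sg ex ey ξ' v) = ω v := by
  by_cases hv : ω v = none
  · have := inv_of_fwd (π := Sg ex ey ξ') (D := fun v => (ω v).isSome) (fun v hv => by
      rw [Sg_congr ex ey h (mem_rd.2 (by simpa [Option.isSome_iff_ne_none] using hv)), hi]
      exact hv) v
    simp only [hv, Option.isSome_none] at this
    rw [hv]; simpa using this
  · rw [Sg_congr ex ey h (mem_rd.2 hv), hi]

lemma Lg.mono {r : Λ} {k k' : ℕ} {ξ : Fin T → Bool} (h : Lg ex ey r k ξ) (hk : k' ≤ k) :
    Lg ex ey r k' ξ := fun i h0 hi => h i h0 (hi.trans (Nat.mul_le_mul_right _ hk))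

lemma lg_of_wnd {r : Λ} {k : ℕ} {ξ : Fin T → Bool} (h : k < wnd (Sg ex ey ξ) (0, r)) :
    Lg ex ey r k ξ := by
  intro i h0 hi e
  have hp : per (Sg ex ey ξ) (0, r) ≤ k * T :=
    (Function.IsPeriodicPt.minimalPeriod_le h0 e).trans hi
  refine absurd h (not_lt.2 ?_)
  rw [wnd, ← card_range k]
  refine (card_le_card fun x hx => ?_).trans (card_image_le (f := fun m => tip ex ey r m ξ))
  have h1 : (0, x) ∈ ob (Sg ex ey ξ) (o _ (0, r)) := mem_filter.2 ⟨mem_univ _, (mem_filter.1 hx).2⟩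
  rw [ob_eq] at h1
  obtain ⟨j, hj, e⟩ := mem_image.1 h1
  have ht := arc_time ex ey (0, r) ξ j
  rw [show arc ex ey (0, r) ξ j = (0, x) from e] at ht
  obtain ⟨m, rfl⟩ : T ∣ j := Nat.dvd_of_mod_eq_zero (by simpa using ht.symm)
  refine mem_image.2 ⟨m, mem_range.2 ?_, ?_⟩
  · have := (mem_range.1 hj).trans_le hp
    rw [mul_comm] at this
    exact Nat.lt_of_mul_lt_mul_right this
  · rw [tip, mul_comm, show arc ex ey (0, r) ξ (T * m) = (0, x) from e]

lemma Lg.inj {r : Λ} {k : ℕ} {ξ : Fin T → Bool} (h : Lg ex ey r k ξ) {i j : ℕ} (hi : i ≤ k * T)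
    (hj : j ≤ k * T) (e : arc ex ey (0, r) ξ i = arc ex ey (0, r) ξ j) : i = j := by
  have key : ∀ i j, i < j → j ≤ k * T → arc ex ey (0, r) ξ i ≠ arc ex ey (0, r) ξ j := by
    intro i j hij hj e
    obtain ⟨m, rfl⟩ := Nat.exists_eq_add_of_lt hij
    refine h (m + 1) m.succ_pos (by omega) ((Sg ex ey ξ).injective.iterate i ?_)
    rw [arc, ← Function.iterate_add_apply, ← add_assoc]; exact e.symm
  rcases lt_trichotomy i j with c | c | c
  exacts [absurd e (key i j c hj), c, absurd e.symm (key j i c hi)]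

variable {p : Fin T → ℝ} {b : Fin T × Λ → ℝ}

lemma nuw_nonneg (hp : ∀ s, 0 ≤ p s ∧ p s ≤ 1) (hb : Fld b) (ξ : Fin T → Bool)
    (ω : Fin T × Λ → Option Bool) : 0 ≤ nuw ex ey p b ξ ω := by
  refine mul_nonneg (Pw_nonneg hp ξ) ?_
  split_ifs
  · exact mul_nonneg (zr_nonneg (fun v => (hb.mem v).1) _)
      (det_gm_nonneg (fun v => (hb.mem v).1) (fun v => (hb.mem v).2) _ _)
  · exact le_rfl

lemma EE_one (p : Fin T → ℝ) (b : Fin T × Λ → ℝ) :
    EE ex ey p b (fun _ _ => 1) = ∑ ξ, Pw p ξ * ∏ g, (1 + pr (Sg ex ey ξ) b g) := by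
  simp only [EE, mul_one, sumD_eq]

lemma sum_nuw (p : Fin T → ℝ) (b : Fin T × Λ → ℝ) :
    ∑ ξ, ∑ ω, nuw ex ey p b ξ ω = EE ex ey p b fun _ _ => 1 := by
  simp only [EE, mul_one, nuw, ← mul_sum, sum0_eq]

lemma fld_zg (hb : Fld b) (ω : Fin T × Λ → Option Bool) : Fld (zg b ω) :=
  ⟨fun v => by unfold zg; split_ifs; exacts [hb.mem v, ⟨le_rfl, zero_le_one⟩],
    fun x => by unfold zg; split_ifs; exacts [hb.lt x, zero_lt_one]⟩

set_option maxHeartbeats 800000 in
open Classical in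
/-- one root, one cut. -/
theorem arc_one (hp : ∀ s, 0 ≤ p s ∧ p s ≤ 1) (hb : Fld b) (r : Λ) (k : ℕ) (near : Λ → Prop)
    (Gd : Finset (Fin T × Λ) → (Fin T → ℝ) → Prop)
    (Bad : (Fin T → Bool) → (Fin T × Λ → Option Bool) → Prop)
    {a : (Fin T × Λ → Option Bool) → ℝ} {e : ℝ} (ha : ∀ ω, 0 ≤ a ω) (he : 0 ≤ e)
    (hG : ∀ ξ ω, (∀ v, ω (Sg ex ey ξ v) = ω v) → ω (0, r) = none → Lg ex ey r k ξ →
      ¬ near (tip ex ey r k ξ) →
      Gd (obs ex ey ω r k ξ) (pin p (tch ex ey (obs ex ey ω r k ξ)) ξ) →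
      Gr (Kb ex ey (pin p (tch ex ey (obs ex ey ω r k ξ)) ξ) * diagonal (zg b ω)) (0, r) (0, r) - 1 ≤
        a ω + e * ∑ w ∈ gs ω,
          Gr (Kb ex ey (pin p (tch ex ey (obs ex ey ω r k ξ)) ξ) * diagonal (zg b ω)) (0, w) (0, w))
    (hB : ∀ ξ ω ω', (∀ v, ω (Sg ex ey ξ v) = ω v) → (∀ v, ω' (Sg ex ey ξ v) = ω' v) →
      Lg ex ey r k ξ → obs ex ey ω r k ξ ⊆ rd ω' → ¬ Bad ξ ω' →
      Gd (obs ex ey ω r k ξ) (pin p (tch ex ey (obs ex ey ω r k ξ)) ξ)) :
    ∑ ξ, Pw p ξ * (if Lg ex ey r k ξ ∧ ¬ near (tip ex ey r k ξ) then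
      ∏ g, (if g = o (Sg ex ey ξ) (0, r) then pr (Sg ex ey ξ) b g else 1 + pr (Sg ex ey ξ) b g)
      else 0) ≤
      ∑ ξ, ∑ ω, nuw ex ey p b ξ ω * (if ω (0, r) = none then a ω else 0) +
        e * Fintype.card Λ * EE ex ey p b (fun _ _ => 1) +
        ∑ ξ, ∑ ω, nuw ex ey p b ξ ω * (if Bad ξ ω then 1 else 0) := by
  have b0 := fun v => (hb.mem v).1
  set X := fun (ω : Fin T × Λ → Option Bool) ξ => tch ex ey (obs ex ey ω r k ξ) with hX
  set g : (Fin T × Λ → Option Bool) → (Fin T → Bool) → ℝ := fun ω ξ =>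
    if (∀ v, ω (Sg ex ey ξ v) = ω v) ∧ ω (0, r) = none ∧ Lg ex ey r k ξ ∧
      ¬ near (tip ex ey r k ξ) ∧ Gd (obs ex ey ω r k ξ) (pin p (X ω ξ) ξ) then zr b ω else 0
    with hg
  have g0 : ∀ ω ξ, 0 ≤ g ω ξ := fun ω ξ => by
    simp only [hg]; split_ifs; exacts [zr_nonneg b0 ω, le_rfl]
  have ag : ∀ ω ξ ξ', (∀ s ∈ X ω ξ, ξ' s = ξ s) →
      (∀ i ≤ k * T, arc ex ey (0, r) ξ' i = arc ex ey (0, r) ξ i) ∧
        obs ex ey ω r k ξ' = obs ex ey ω r k ξ := fun ω ξ ξ' h => by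
    have h1 : ∀ i ≤ k * T, arc ex ey (0, r) ξ' i = arc ex ey (0, r) ξ i := fun i hi =>
      arc_agree ex ey (fun s hs => h s (tch_mono ex ey subset_union_right hs)) hi
    refine ⟨h1, ?_⟩
    rw [obs, obs, al, al, image_congr fun i hi => h1 i (by simpa using (mem_range.1 hi).le)]
  have st : ∀ ω, PH.Stop (E := fun _ : Fin T => Bool) (X ω) := fun ω ξ ξ' h => by
    simp only [hX, (ag ω ξ ξ' h).2]
  have gm' : ∀ ω, PH.Meas (E := fun _ : Fin T => Bool) (X ω) (g ω) := by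
    intro ω ξ ξ' h
    obtain ⟨h1, h2⟩ := ag ω ξ ξ' h
    have h3 : ∀ s ∈ tch ex ey (rd ω), ξ' s = ξ s :=
      fun s hs => h s (tch_mono ex ey subset_union_left hs)
    have h4 : Lg ex ey r k ξ' ↔ Lg ex ey r k ξ :=
      forall_congr' fun i => forall_congr' fun _ => forall_congr' fun hi => by rw [h1 i hi]
    have h5 : tip ex ey r k ξ' = tip ex ey r k ξ := by rw [tip, tip, h1 _ le_rfl]
    simp only [hg, st ω ξ ξ' h, h2, pin_congr p h, h4, h5]
    exact if_congr (and_congr_left'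
      ⟨inv_agree ex ey fun s hs => (h3 s hs).symm, inv_agree ex ey h3⟩) rfl rfl
  have tow : ∀ ω (F : (Fin T → Bool) → ℝ), ∑ ξ, Pw p ξ * (g ω ξ * F ξ) =
      ∑ ξ, Pw p ξ * (g ω ξ * ∑ ξ', Pw (pin p (X ω ξ) ξ) ξ' * F ξ') := by
    intro ω F
    have := (st ω).ex_mul_P (pr_pb hp) (gm' ω) F
    simp only [P_pin] at this
    exact this.symm
  -- split into good and bad
  have s1 : ∀ ξ, (if Lg ex ey r k ξ ∧ ¬ near (tip ex ey r k ξ) then
      ∏ g, (if g = o (Sg ex ey ξ) (0, r) then pr (Sg ex ey ξ) b g else 1 + pr (Sg ex ey ξ) b g)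
      else 0) ≤ ∑ ω, g ω ξ * Yv (Sg ex ey ξ) (zg b ω) (0, r) +
        ∑ ω, (if ∀ v, ω (Sg ex ey ξ v) = ω v then
          zr b ω * (gm (Sg ex ey ξ) b ω).det * (if Bad ξ ω then 1 else 0) else 0) := by
    intro ξ
    have Y0 : ∀ ω, 0 ≤ Yv (Sg ex ey ξ) (zg b ω) (0, r) := fun ω => prod_nonneg fun g _ => by
      split_ifs
      exacts [pr_nonneg (fun v => ((fld_zg hb ω).mem v).1) g,
        (sub_pos.2 ((fld_zg hb ω).pr_lt ex ey ξ g)).le]
    have rc := recol b0 (fun v => (hb.mem v).2) (Sg ex ey ξ) (0, r)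
      (f := fun ω => if Lg ex ey r k ξ ∧ ¬ Gd (obs ex ey ω r k ξ) (pin p (X ω ξ) ξ) then 1 else 0)
      (F := fun ω => if Bad ξ ω then 1 else 0) (fun ω => by split_ifs <;> simp)
      fun ω ω' i1 i2 hs => by
        split_ifs with c1 c2 c2 <;> try simp
        exfalso
        refine c1.2 (hB ξ ω ω' i1 i2 c1.1 (fun v hv => mem_rd.2 (hs v ?_)) c2)
        rcases mem_union.1 hv with hv | hv
        · exact Or.inl (mem_rd.1 hv)
        · obtain ⟨i, -, rfl⟩ := (mem_al ex ey).1 hv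
          exact Or.inr (o_it _ _ _)
    refine le_trans ?_ (add_le_add_right rc _)
    rw [← sum_add_distrib]
    split_ifs with c
    swap
    · refine sum_nonneg fun ω _ => add_nonneg (mul_nonneg (g0 ω ξ) (Y0 ω)) ?_
      split_ifs <;> simp [mul_nonneg (zr_nonneg b0 ω) (Y0 ω)]
    rw [← sumY]
    refine sum_le_sum fun ω _ => ?_
    by_cases hi : ∀ v, ω (Sg ex ey ξ v) = ω v
    swap
    · simp only [hi, if_false, add_zero]; exact mul_nonneg (g0 ω ξ) (Y0 ω)
    by_cases hr : ω (0, r) = none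
    swap
    · have : Yv (Sg ex ey ξ) (zg b ω) (0, r) = 0 := prod_eq_zero (mem_univ (o _ (0, r))) (by
        rw [if_pos rfl]; exact pr_zero rfl (if_neg hr))
      simp [this]
    by_cases hd : Gd (obs ex ey ω r k ξ) (pin p (X ω ξ) ξ) <;> simp [hg, hi, hr, c.1, c.2, hd]
  -- the good part
  have s2 : ∀ ω, ∑ ξ, Pw p ξ * (g ω ξ * Yv (Sg ex ey ξ) (zg b ω) (0, r)) ≤
      ∑ ξ, Pw p ξ * (g ω ξ * (a ω * ∏ c, (1 - pr (Sg ex ey ξ) (zg b ω) c) +
        e * ∑ w ∈ gs ω, ∏ c, (1 - pr (Sg ex ey ξ) (update (zg b ω) (0, w) 0) c))) := by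
    intro ω
    rw [tow, tow ω fun ξ => a ω * _ + _]
    refine sum_le_sum fun ξ _ => mul_le_mul_of_nonneg_left ?_ (Pw_nonneg hp ξ)
    have hd := (fld_zg hb ω).detA_pos ex ey (pin_mem hp (X ω ξ) ξ)
    have q : ∑ ξ', Pw (pin p (X ω ξ) ξ) ξ' *
        ∑ w ∈ gs ω, ∏ c, (1 - pr (Sg ex ey ξ') (update (zg b ω) (0, w) 0) c) =
        (1 - Kb ex ey (pin p (X ω ξ) ξ) * diagonal (zg b ω)).det * ∑ w ∈ gs ω,
          Gr (Kb ex ey (pin p (X ω ξ) ξ) * diagonal (zg b ω)) (0, w) (0, w) := by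
      simp only [mul_sum]
      rw [sum_comm]
      simp only [avg_green, cof _ _ hd.ne']
    simp only [Y_eq, mul_sub, sum_sub_distrib, mul_add, sum_add_distrib, mul_left_comm _ (a ω),
      mul_left_comm _ e, ← mul_sum univ, q]
    simp only [avg_green, cof _ _ hd.ne']
    by_cases c : (∀ v, ω (Sg ex ey ξ v) = ω v) ∧ ω (0, r) = none ∧ Lg ex ey r k ξ ∧
      ¬ near (tip ex ey r k ξ) ∧ Gd (obs ex ey ω r k ξ) (pin p (X ω ξ) ξ)
    · have := mul_le_mul_of_nonneg_left (hG ξ ω c.1 c.2.1 c.2.2.1 c.2.2.2.1 c.2.2.2.2)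
        (mul_nonneg (g0 ω ξ) hd.le)
      simp only [hX] at this ⊢
      linarith
    · have : g ω ξ = 0 := if_neg c
      simp [this]
  refine (sum_le_sum fun ξ _ => mul_le_mul_of_nonneg_left (s1 ξ) (Pw_nonneg hp ξ)).trans ?_
  simp only [mul_add, sum_add_distrib]
  refine add_le_add ?_ (le_of_eq (sum_congr rfl fun ξ _ => ?_))
  swap
  · rw [mul_sum]; exact sum_congr rfl fun ω _ => by unfold nuw; split_ifs <;> simp [mul_assoc]
  simp only [mul_sum univ]
  rw [sum_comm]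
  refine (sum_le_sum fun ω _ => s2 ω).trans ?_
  rw [sum_comm, EE_one, mul_sum, ← sum_add_distrib]
  refine sum_le_sum fun ξ _ => ?_
  have h1 : ∑ _w : Λ, ∏ g, (1 + pr (Sg ex ey ξ) b g) =
      Fintype.card Λ * ∏ g, (1 + pr (Sg ex ey ξ) b g) := by simp
  have h2 := sum_le_sum fun w (_ : w ∈ univ) => sumC b0 (Sg ex ey ξ) (0, w)
  rw [h1, sum_comm] at h2
  have h3 := mul_le_mul_of_nonneg_left h2 (mul_nonneg he (Pw_nonneg hp ξ))
  refine le_trans ?_ (add_le_add_right (h3.trans (le_of_eq (by ring))) _)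
  rw [mul_sum, ← sum_add_distrib]
  refine sum_le_sum fun ω _ => ?_
  have d0 : 0 ≤ ∏ c, (1 - pr (Sg ex ey ξ) (zg b ω) c) :=
    prod_nonneg fun c _ => (sub_pos.2 ((fld_zg hb ω).pr_lt ex ey ξ c)).le
  have d1 : ∀ w, 0 ≤ ∏ c, (1 - pr (Sg ex ey ξ) (update (zg b ω) (0, w) 0) c) := fun w =>
    prod_nonneg fun c _ => by
      rw [pr_upd]; split_ifs
      exacts [by simp, (sub_pos.2 ((fld_zg hb ω).pr_lt ex ey ξ c)).le]
  have P0 := Pw_nonneg hp ξ
  have z0 := zr_nonneg b0 ω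
  have h4 : 0 ≤ ∑ w, (if ∀ v, ω (Sg ex ey ξ v) = ω v then zr b ω * if ω (0, w) = none then
      ∏ c, (1 - pr (Sg ex ey ξ) (update (zg b ω) (0, w) 0) c) else 0 else 0) :=
    sum_nonneg fun w _ => by split_ifs; exacts [mul_nonneg z0 (d1 w), by simp, le_rfl]
  by_cases c : (∀ v, ω (Sg ex ey ξ v) = ω v) ∧ ω (0, r) = none ∧ Lg ex ey r k ξ ∧
      ¬ near (tip ex ey r k ξ) ∧ Gd (obs ex ey ω r k ξ) (pin p (X ω ξ) ξ)
  · have : g ω ξ = zr b ω := if_pos c
    simp only [this, nuw, det_gm, if_pos c.1, if_pos c.2.1, ← mul_sum, gs, sum_filter]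
    exact le_of_eq (by ring)
  · have : g ω ξ = 0 := if_neg c
    rw [this, zero_mul, mul_zero]
    exact add_nonneg (mul_nonneg (nuw_nonneg ex ey hp hb ξ ω) (by split_ifs; exacts [ha ω, le_rfl]))
      (mul_nonneg (mul_nonneg he P0) h4)

lemma EE_long (p : Fin T → ℝ) (b : Fin T × Λ → ℝ) (K : ℕ) :
    EE ex ey p b (fun π D => (Top.N0 D : ℝ) - Ns K π D) = ∑ r, ∑ ξ, Pw p ξ *
      if K < wnd (Sg ex ey ξ) (0, r) then ∏ g, (if g = o (Sg ex ey ξ) (0, r) then
        pr (Sg ex ey ξ) b g else 1 + pr (Sg ex ey ξ) b g) else 0 := by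
  rw [EE, sum_comm]
  refine sum_congr rfl fun ξ _ => ?_
  have e : ∀ D : Fin T × Λ → Bool, (Top.N0 D : ℝ) - Ns K (Sg ex ey ξ) D = ∑ r,
      if K < wnd (Sg ex ey ξ) (0, r) then (if ∀ v ∈ ({(0, r)} : Finset (Fin T × Λ)), D v = true
        then 1 else 0) else 0 := fun D => by
    simp only [Top.N0, Ns, Slot.cnt, card_filter, Nat.cast_sum, ← sum_sub_distrib]
    refine sum_congr rfl fun r _ => ?_
    by_cases h : K < wnd (Sg ex ey ξ) (0, r) <;> by_cases h' : D (0, r) = true <;>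
      simp [h, h', not_lt.1, not_le.2]
  simp only [e, ← mul_sum]
  congr 1
  have : ∀ D : Fin T × Λ → Bool, ∀ F : Λ → ℝ, (if ∀ v, D (Sg ex ey ξ v) = D v then
      zd b D * ∑ r, F r else 0) = ∑ r, if ∀ v, D (Sg ex ey ξ v) = D v then zd b D * F r else 0 :=
    fun D F => by split_ifs <;> simp [mul_sum]
  simp only [this]
  rw [sum_comm]
  refine sum_congr rfl fun r _ => ?_
  split_ifs with h
  · rw [sumD0]; simp
  · simp

open Classical in
/-- **reduction**: long down loops are paid by the diagonal Green function of (red, arc). -/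
theorem arc_red (hp : ∀ s, 0 ≤ p s ∧ p s ≤ 1) (hb : Fld b) {K0 Nb : ℕ} (hK : 0 < K0)
    (near : Λ → Λ → Prop) (hN : ∀ r, (univ.filter (near r)).card ≤ Nb)
    (Gd : Λ → Finset (Fin T × Λ) → (Fin T → ℝ) → Prop)
    (Bad : Λ → (Fin T → Bool) → (Fin T × Λ → Option Bool) → Prop)
    {a e1 e : ℝ} (ha : 0 ≤ a) (he1 : 0 ≤ e1) (he : 0 ≤ e)
    (hG : ∀ r k, k < 2 * K0 → ∀ ξ ω, (∀ v, ω (Sg ex ey ξ v) = ω v) → ω (0, r) = none →
      Lg ex ey r k ξ → ¬ near r (tip ex ey r k ξ) →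
      Gd r (obs ex ey ω r k ξ) (pin p (tch ex ey (obs ex ey ω r k ξ)) ξ) →
      Gr (Kb ex ey (pin p (tch ex ey (obs ex ey ω r k ξ)) ξ) * diagonal (zg b ω)) (0, r) (0, r) - 1 ≤
        a / (gs ω).card + e1 + e * ∑ w ∈ gs ω,
          Gr (Kb ex ey (pin p (tch ex ey (obs ex ey ω r k ξ)) ξ) * diagonal (zg b ω)) (0, w) (0, w))
    (hB : ∀ r k ξ ω ω', (∀ v, ω (Sg ex ey ξ v) = ω v) → (∀ v, ω' (Sg ex ey ξ v) = ω' v) →
      Lg ex ey r k ξ → obs ex ey ω r k ξ ⊆ rd ω' → ¬ Bad r ξ ω' →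
      Gd r (obs ex ey ω r k ξ) (pin p (tch ex ey (obs ex ey ω r k ξ)) ξ)) :
    EE ex ey p b (fun π D => (Top.N0 D : ℝ) - Ns (2 * K0) π D) ≤
      (a + (e1 + e * Fintype.card Λ + Nb / K0) * Fintype.card Λ) * EE ex ey p b (fun _ _ => 1) +
        ∑ r, ∑ ξ, ∑ ω, nuw ex ey p b ξ ω * (if Bad r ξ ω then 1 else 0) := by
  have K0' : (0 : ℝ) < K0 := by exact_mod_cast hK
  set Z := EE ex ey p b (fun _ _ => 1) with hZ
  have one : ∀ r, ∑ ξ, Pw p ξ * (if 2 * K0 < wnd (Sg ex ey ξ) (0, r) then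
      ∏ g, (if g = o (Sg ex ey ξ) (0, r) then pr (Sg ex ey ξ) b g else 1 + pr (Sg ex ey ξ) b g)
      else 0) ≤ (∑ ξ, ∑ ω, nuw ex ey p b ξ ω *
        (if ω (0, r) = none then a / (gs ω).card + e1 else 0) + e * Fintype.card Λ * Z +
        ∑ ξ, ∑ ω, nuw ex ey p b ξ ω * (if Bad r ξ ω then 1 else 0)) + Nb / K0 * Z := by
    intro r
    have h1 := sum_le_sum fun k (hk : k ∈ Ico K0 (2 * K0)) => arc_one ex ey hp hb r k (near r)
      (Gd r) (Bad r) (a := fun ω => a / (gs ω).card + e1) (fun ω => by positivity) he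
      (hG r k (mem_Ico.1 hk).2) (hB r k)
    rw [sum_const, Nat.card_Ico, show 2 * K0 - K0 = K0 by omega, nsmul_eq_mul, sum_comm] at h1
    refine le_of_mul_le_mul_left ?_ K0'
    rw [mul_add (K0 : ℝ), ← mul_assoc, mul_div_cancel₀ _ K0'.ne']
    refine le_trans ?_ (add_le_add_left h1 _)
    rw [hZ, EE_one, mul_sum, mul_sum, ← sum_add_distrib]
    refine sum_le_sum fun ξ _ => ?_
    rw [← mul_sum, mul_left_comm, mul_left_comm (Nb : ℝ), ← mul_add]
    refine mul_le_mul_of_nonneg_left ?_ (Pw_nonneg hp ξ)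
    have pn := pr_nonneg (π := Sg ex ey ξ) fun v => (hb.mem v).1
    set Y := ∏ g, (if g = o (Sg ex ey ξ) (0, r) then pr (Sg ex ey ξ) b g
      else 1 + pr (Sg ex ey ξ) b g)
    have Y0 : 0 ≤ Y := prod_nonneg fun g _ => by have := pn g; split_ifs <;> linarith
    have Y1 : Y ≤ ∏ g, (1 + pr (Sg ex ey ξ) b g) :=
      prod_le_prod (fun g _ => by have := pn g; split_ifs <;> linarith)
        fun g _ => by have := pn g; split_ifs <;> linarith
    split_ifs with h
    swap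
    · rw [mul_zero]
      exact add_nonneg (sum_nonneg fun k _ => by split_ifs; exacts [Y0, le_rfl])
        (mul_nonneg (Nat.cast_nonneg _) (Y0.trans Y1))
    have hl := lg_of_wnd ex ey h
    have h2 : ((Ico K0 (2 * K0)).filter fun k => near r (tip ex ey r k ξ)).card ≤ Nb := by
      refine le_trans (card_le_card_of_injOn (fun k => tip ex ey r k ξ) (fun k hk => ?_)
        fun k hk k' hk' e => ?_) (hN r)
      · simpa using (mem_filter.1 hk).2
      · have := hl.inj ex ey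
          (Nat.mul_le_mul_right T (mem_Ico.1 (mem_filter.1 hk).1).2.le)
          (Nat.mul_le_mul_right T (mem_Ico.1 (mem_filter.1 hk').1).2.le)
          (by rw [arc_tip, arc_tip]; exact congrArg _ e)
        exact Nat.eq_of_mul_eq_mul_right (NeZero.pos T) this
    have h3 : (K0 : ℝ) * Y = ∑ k ∈ Ico K0 (2 * K0),
        ((if Lg ex ey r k ξ ∧ ¬ near r (tip ex ey r k ξ) then Y else 0) +
          if near r (tip ex ey r k ξ) then Y else 0) := by
      rw [sum_congr rfl (g := fun _ => Y) fun k hk => by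
        have := hl.mono ex ey (mem_Ico.1 hk).2.le
        by_cases c : near r (tip ex ey r k ξ) <;> simp [c, this],
        sum_const, Nat.card_Ico, show 2 * K0 - K0 = K0 by omega, nsmul_eq_mul]
    rw [h3, sum_add_distrib, ← sum_filter (fun k => near r (tip ex ey r k ξ)), sum_const,
      nsmul_eq_mul]
    exact add_le_add_right (mul_le_mul (by exact_mod_cast h2) Y1 Y0 (Nat.cast_nonneg _)) _
  rw [EE_long]
  refine (sum_le_sum fun r _ => one r).trans ?_
  have h4 : ∑ r : Λ, ∑ ξ, ∑ ω, nuw ex ey p b ξ ω *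
      (if ω (0, r) = none then a / (gs ω).card + e1 else 0) ≤ (a + e1 * Fintype.card Λ) * Z := by
    rw [hZ, ← sum_nuw, sum_comm, mul_sum]
    refine sum_le_sum fun ξ _ => ?_
    rw [sum_comm, mul_sum]
    refine sum_le_sum fun ω _ => ?_
    rw [← mul_sum, mul_comm, ← sum_filter, sum_const, nsmul_eq_mul]
    refine mul_le_mul_of_nonneg_right ?_ (nuw_nonneg ex ey hp hb ξ ω)
    have c1 : ((gs ω).card : ℝ) ≤ Fintype.card Λ := by exact_mod_cast card_le_univ _
    have c2 : ((gs ω).card : ℝ) * (a / (gs ω).card) ≤ a := by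
      rw [mul_div_assoc', mul_div_right_comm]
      exact mul_le_of_le_one_left ha (div_self_le_one _)
    change ((gs ω).card : ℝ) * _ ≤ _
    nlinarith [mul_le_mul_of_nonneg_left c1 he1]
  simp only [sum_add_distrib, sum_const, card_univ, nsmul_eq_mul]
  linarith

end Crest.Agent.N337.ZM
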