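import Crest.Agent.N337.Top.BMax
import Crest.Agent.N337.Top.BArc

/-!
# Row 337, TOP (B), part 4: the pinned word, energy, rank one step
-/

set_option autoImplicit false
set_option linter.unusedSectionVars false

namespace Crest.Agent.N337.ZM

open Finset Equiv Matrix Crest.Agent.N337.Rep Crest.Agent.N337.LY0 Crest.Agent.N337.Arc

variable {Λ : Type} [Fintype Λ] [DecidableEq Λ] {T : ℕ} [NeZero T] (ex ey : Fin T → Λ)
  {p : Fin T → ℝ}

lemma Kb_mv (p : Fin T → ℝ) (f : Fin T × Λ → ℝ) (s : Fin T) (y : Λ) :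
    (Kb ex ey p *ᵥ f) (s + 1, y) = (1 - p s) * f (s, y) + p s * f (s, swap (ex s) (ey s) y) := by
  have e : ∀ x, y = swap (ex s) (ey s) x ↔ swap (ex s) (ey s) y = x := fun x => by
    rw [eq_comm, swap_apply_eq_iff, eq_comm]
  rw [mulVec, dotProduct, Fintype.sum_prod_type, sum_eq_single s]
  · simp [Kb_apply, add_mul, sum_add_distrib, e]
  · intro r _ hr
    simp [Kb_apply, hr.symm]
  · simp

lemma Kb_vm (p : Fin T → ℝ) (f : Fin T × Λ → ℝ) (s : Fin T) (x : Λ) :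
    ((Kb ex ey p)ᵀ *ᵥ f) (s, x) =
      (1 - p s) * f (s + 1, x) + p s * f (s + 1, swap (ex s) (ey s) x) := by
  rw [mulVec, dotProduct, Fintype.sum_prod_type, sum_eq_single (s + 1)]
  · simp [Kb_apply, add_mul, sum_add_distrib]
  · intro r _ hr
    simp [Kb_apply, hr]
  · simp

lemma Kb_row (p : Fin T → ℝ) (a : Fin T × Λ) : ∑ c, Kb ex ey p a c = 1 := by
  have := Kb_mv ex ey p (fun _ => 1) (a.1 - 1) a.2
  simpa [mulVec, dotProduct] using this

lemma Kb_col (p : Fin T → ℝ) (c : Fin T × Λ) : ∑ a, Kb ex ey p a c = 1 := by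
  have := Kb_vm ex ey p (fun _ => 1) c.1 c.2
  simpa [mulVec, dotProduct] using this

lemma Kb_pos {a c : Fin T × Λ} (h : 0 < Kb ex ey p a c) : a.1 = c.1 + 1 ∧
    ((p c.1 ≠ 1 ∧ a.2 = c.2) ∨ (p c.1 ≠ 0 ∧ a.2 = swap (ex c.1) (ey c.1) c.2)) := by
  obtain ⟨r, y⟩ := a
  obtain ⟨s, x⟩ := c
  rw [Kb_apply] at h
  by_cases hr : r = s + 1
  swap
  · simp [hr] at h
  refine ⟨hr, ?_⟩
  by_contra! hn
  rw [if_pos hr] at h
  have h1 : (1 - p s) * (if y = x then 1 else 0) = 0 := by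
    split_ifs with e
    · rw [of_not_not (mt hn.1 (not_not.2 e)), sub_self, zero_mul]
    · exact mul_zero _
  have h2 : p s * (if y = swap (ex s) (ey s) x then 1 else 0) = 0 := by
    split_ifs with e
    · rw [of_not_not (mt hn.2 (not_not.2 e)), zero_mul]
    · exact mul_zero _
  linarith

lemma step_sq {q : ℝ} (hq : 0 ≤ q ∧ q ≤ 1) (a c : Λ) (f : Λ → ℝ) :
    ∑ y, ((1 - q) * f y + q * f (swap a c y)) ^ 2 + q * (1 - q) * (f a - f c) ^ 2 ≤
      ∑ y, f y ^ 2 := by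
  have h1 := Equiv.sum_comp (swap a c) fun y => f y ^ 2
  have h2 := single_le_sum (f := fun y => (f y - f (swap a c y)) ^ 2) (fun y _ => sq_nonneg _)
    (mem_univ a)
  simp only [swap_apply_left] at h2
  have h3 : ∑ y, ((1 - q) * f y + q * f (swap a c y)) ^ 2 = (1 - q) * ∑ y, f y ^ 2 +
      q * ∑ y, f (swap a c y) ^ 2 - q * (1 - q) * ∑ y, (f y - f (swap a c y)) ^ 2 := by
    simp only [mul_sum, ← sum_add_distrib, ← sum_sub_distrib]
    exact sum_congr rfl fun y _ => by ring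
  have := mul_le_mul_of_nonneg_left h2 (mul_nonneg hq.1 (sub_nonneg.2 hq.2))
  rw [h3, h1]; linarith

lemma en_mv (hp : ∀ s, 0 ≤ p s ∧ p s ≤ 1) (f : Fin T × Λ → ℝ) :
    ∑ v, (Kb ex ey p *ᵥ f) v ^ 2 + ∑ s, p s * (1 - p s) * |f (s, ex s) - f (s, ey s)| ^ 2 ≤
      ∑ v, f v ^ 2 := by
  simp only [Fintype.sum_prod_type, sq_abs]
  rw [← Equiv.sum_comp (Equiv.addRight (1 : Fin T)), ← sum_add_distrib]
  refine sum_le_sum fun s _ => ?_
  simp only [Equiv.coe_addRight, Kb_mv]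
  exact step_sq (hp s) _ _ fun y => f (s, y)

lemma en_vm (hp : ∀ s, 0 ≤ p s ∧ p s ≤ 1) (f : Fin T × Λ → ℝ) :
    ∑ v, ((Kb ex ey p)ᵀ *ᵥ f) v ^ 2 +
      ∑ s, p s * (1 - p s) * |f (s + 1, ex s) - f (s + 1, ey s)| ^ 2 ≤ ∑ v, f v ^ 2 := by
  simp only [Fintype.sum_prod_type, sq_abs]
  rw [← Equiv.sum_comp (Equiv.addRight (1 : Fin T)) fun s => ∑ y, f (s, y) ^ 2, ← sum_add_distrib]
  refine sum_le_sum fun s _ => ?_
  simp only [Equiv.coe_addRight, Kb_vm]
  exact step_sq (hp s) _ _ fun y => f (s + 1, y)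

lemma sq_src {V : Type} [Fintype V] [DecidableEq V] (u : V) (m : ℝ) (k : V → ℝ) {g : V → ℝ}
    (h : ∀ v, g v = (if v = u then m else 0) + k v) :
    ∑ v, g v ^ 2 ≤ ∑ v, k v ^ 2 + 2 * m * g u := by
  have : ∀ v, g v ^ 2 ≤ k v ^ 2 + if v = u then 2 * m * g u else 0 := fun v => by
    have := h v
    split_ifs at this ⊢ with e
    · subst e; rw [this]; nlinarith [sq_nonneg m]
    · rw [this]; simp
  simpa [sum_add_distrib] using sum_le_sum fun v (_ : v ∈ univ) => this v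

lemma tr_Kb (hp : ∀ s, 0 ≤ p s ∧ p s ≤ 1) {b : Fin T × Λ → ℝ} (hb : ∀ v, 0 ≤ b v ∧ b v ≤ 1)
    {Y : ℝ} (hY : 0 ≤ Y ∧ Y < 1) (hk : ∀ x, b (0, x) ≤ Y) : Tr (Kb ex ey p * diagonal b) := by
  refine ⟨fun i j => by rw [mul_diagonal]; exact mul_nonneg (Kb_nonneg ex ey hp i j) (hb j).1,
    fun h h0 hh v => le_antisymm (G1.sub_nonpos' (ex := ex) (ey := ey) hp hb hY ⟨0, hk⟩
      (fun s y => ?_) v) (h0 v)⟩
  have := hh (s + 1, y)
  rwa [← mulVec_mulVec, Kb_mv, mulVec_diagonal, mulVec_diagonal] at this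

lemma row_Kb (hp : ∀ s, 0 ≤ p s ∧ p s ≤ 1) {b : Fin T × Λ → ℝ} (hb : ∀ v, 0 ≤ b v ∧ b v ≤ 1)
    (a : Fin T × Λ) : ∑ c, (Kb ex ey p * diagonal b) a c ≤ 1 := by
  rw [← Kb_row ex ey p a]
  exact sum_le_sum fun c _ => by
    rw [mul_diagonal]; exact mul_le_of_le_one_right (Kb_nonneg ex ey hp a c) (hb c).2

lemma col_Kb (hp : ∀ s, 0 ≤ p s ∧ p s ≤ 1) {b : Fin T × Λ → ℝ} (hb : ∀ v, 0 ≤ b v ∧ b v ≤ 1)
    (c : Fin T × Λ) : ∑ a, (Kb ex ey p * diagonal b) a c ≤ 1 := by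
  rw [← Kb_col ex ey p c]
  exact sum_le_sum fun a _ => by
    rw [mul_diagonal]; exact mul_le_of_le_one_right (Kb_nonneg ex ey hp a c) (hb c).2

/-- on `O` the pinned word is deterministic. -/
lemma pin_fwd {O : Finset (Fin T × Λ)} {ξ : Fin T → Bool} {a c : Fin T × Λ}
    (h : 0 < Kb ex ey (pin p (tch ex ey O) ξ) a c) (hc : c ∈ O ∨ c.1 ∈ tch ex ey O) :
    a = Sg ex ey ξ c := by
  obtain ⟨h1, h2⟩ := Kb_pos ex ey h
  obtain ⟨s, x⟩ := c
  refine Prod.ext h1 ?_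
  rw [Sg_apply]
  by_cases hs : s ∈ tch ex ey O
  · simp only [pin, if_pos hs] at h2
    cases e : ξ s <;> simpa [e, sg] using h2
  · have hx : swap (ex s) (ey s) x = x := swap_apply_of_ne_of_ne
      (fun e => hs ((mem_tch ex ey).2 (Or.inl (e ▸ hc.resolve_right hs))))
      fun e => hs ((mem_tch ex ey).2 (Or.inr (e ▸ hc.resolve_right hs)))
    have : a.2 = x := h2.elim (·.2) fun h => h.2.trans hx
    cases e : ξ s <;> simp [sg, hx, this]

lemma pin_bwd {O : Finset (Fin T × Λ)} {ξ : Fin T → Bool} {c c' : Fin T × Λ}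
    (h : 0 < Kb ex ey (pin p (tch ex ey O) ξ) (Sg ex ey ξ c') c) (hc : c' ∈ O) : c = c' := by
  obtain ⟨h1, h2⟩ := Kb_pos ex ey h
  obtain ⟨s, x⟩ := c
  obtain ⟨s', x'⟩ := c'
  obtain rfl : s' = s := add_right_cancel (b := 1) h1
  by_cases hs : s' ∈ tch ex ey O
  · exact ((Sg ex ey ξ).injective (pin_fwd ex ey h (Or.inr hs))).symm
  · have hx : swap (ex s') (ey s') x' = x' := swap_apply_of_ne_of_ne
      (fun e => hs ((mem_tch ex ey).2 (Or.inl (e ▸ hc))))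
      fun e => hs ((mem_tch ex ey).2 (Or.inr (e ▸ hc)))
    have h3 : (Sg ex ey ξ (s', x')).2 = x' := by
      rw [Sg_apply]; cases e : ξ s' <;> simp [sg, hx]
    rw [h3] at h2
    rcases h2 with h2 | h2
    · rw [show x' = x from h2.2]
    · rw [show x' = x from (Equiv.swap (ex s') (ey s')).injective (hx.trans h2.2)]

/-- red loops `R`, an arc `α` of at most `k` windings from `(0, r)` to `(0, x)`. -/
structure Cut (p : Fin T → ℝ) (R α : Finset (Fin T × Λ)) (r x : Λ) (k : ℕ) : Prop where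
  hp : ∀ s, 0 ≤ p s ∧ p s ≤ 1
  red : ∀ a c, 0 < Kb ex ey p a c → (a ∈ R ↔ c ∈ R)
  fwd : ∀ a c, 0 < Kb ex ey p a c → c ∈ α → (a ∈ α ∨ a = (0, x)) ∧ a ≠ (0, r)
  bwd : ∀ a c, 0 < Kb ex ey p a c → a ∈ α → c ∈ α ∨ a = (0, r)
  hu : (0, r) ∈ α
  hR : (0, r) ∉ R
  few : (univ.filter fun z => ((0 : Fin T), z) ∈ α).card ≤ k

lemma cut_arc (hp : ∀ s, 0 ≤ p s ∧ p s ≤ 1) {ω : Fin T × Λ → Option Bool} {ξ : Fin T → Bool}
    (hi : ∀ v, ω (Sg ex ey ξ v) = ω v) {r : Λ} (hr : ω (0, r) = none) {k : ℕ} (hk : 0 < k)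
    (hl : Lg ex ey r k ξ) : Cut ex ey (pin p (tch ex ey (obs ex ey ω r k ξ)) ξ) (rd ω)
      (al ex ey r k ξ) r (tip ex ey r k ξ) k where
  hp := pin_mem hp _ _
  red a c h := by
    refine ⟨fun ha => ?_, fun hc => ?_⟩
    · obtain ⟨c', rfl⟩ := (Sg ex ey ξ).surjective a
      rw [mem_rd, hi, ← mem_rd] at ha
      rwa [pin_bwd ex ey h (mem_union_left _ ha)]
    · rwa [pin_fwd ex ey h (Or.inl (mem_union_left _ hc)), mem_rd, hi, ← mem_rd]
  fwd a c h hc := by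
    rw [pin_fwd ex ey h (Or.inl (mem_union_right _ hc))]
    obtain ⟨i, hi, rfl⟩ := (mem_al ex ey).1 hc
    rw [← arc_succ]
    refine ⟨?_, hl _ i.succ_pos hi⟩
    rcases (Nat.succ_le_of_lt hi).eq_or_lt with e | e
    · exact Or.inr (by rw [← arc_tip, ← e])
    · exact Or.inl ((mem_al ex ey).2 ⟨_, e, rfl⟩)
  bwd a c h ha := by
    obtain ⟨i, hi, rfl⟩ := (mem_al ex ey).1 ha
    cases i with
    | zero => exact Or.inr rfl
    | succ i =>
      have : arc ex ey (0, r) ξ i ∈ al ex ey r k ξ :=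
        (mem_al ex ey).2 ⟨i, (Nat.lt_succ_self i).trans hi, rfl⟩
      rw [arc_succ] at h
      exact Or.inl (pin_bwd ex ey h (mem_union_right _ this) ▸ this)
  hu := (mem_al ex ey).2 ⟨0, Nat.mul_pos hk (NeZero.pos T), rfl⟩
  hR := fun h => mem_rd.1 h hr
  few := by
    refine (card_le_card fun x hx => ?_).trans
      ((card_image_le (f := fun m => tip ex ey r m ξ)).trans (card_range k).le)
    obtain ⟨j, hj, e⟩ := (mem_al ex ey).1 (mem_filter.1 hx).2
    have ht := arc_time ex ey (0, r) ξ j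
    rw [e] at ht
    obtain ⟨m, rfl⟩ : T ∣ j := Nat.dvd_of_mod_eq_zero (by simpa using ht.symm)
    refine mem_image.2 ⟨m, mem_range.2 ?_, by rw [tip, mul_comm, e]⟩
    rw [mul_comm] at hj
    exact Nat.lt_of_mul_lt_mul_right hj

/-- the activity of the obstacle. -/
lemma obs_step {ω : Fin T × Λ → Option Bool} {ξ : Fin T → Bool}
    (hi : ∀ v, ω (Sg ex ey ξ v) = ω v) (r : Λ) (k : ℕ) {v : Fin T × Λ} (hv : v.1 + 1 ≠ 0) :
    Sg ex ey ξ v ∈ obs ex ey ω r k ξ ↔ v ∈ obs ex ey ω r k ξ := by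
  rw [obs, mem_union, mem_union, mem_rd, hi, mem_rd]
  refine or_congr_right ⟨fun h => ?_, fun h => ?_⟩
  · obtain ⟨i, h1, e⟩ := (mem_al ex ey).1 h
    cases i with
    | zero => exact absurd (congrArg Prod.fst e).symm hv
    | succ i =>
      rw [arc_succ] at e
      exact (mem_al ex ey).2 ⟨i, by omega, (Sg ex ey ξ).injective e⟩
  · obtain ⟨i, h1, rfl⟩ := (mem_al ex ey).1 h
    refine (mem_al ex ey).2 ⟨i + 1, lt_of_le_of_ne h1 fun e => hv ?_, arc_succ _ _ _ _ _⟩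
    have := arc_tip ex ey r k ξ
    rw [← e, arc_succ] at this
    exact congrArg Prod.fst this

variable {ex ey} {R α : Finset (Fin T × Λ)} {r x : Λ} {k : ℕ}

lemma Cut.ds (h : Cut ex ey p R α r x k) :
    DS (Kb ex ey p) Rᶜ (Rᶜ.filter fun v => v.1 = 0) where
  nonneg := Kb_nonneg ex ey h.hp
  sub := filter_subset _ _
  row := funext fun a => by
    rw [← mul_one (ind Rᶜ a), ← Kb_row ex ey p a, mul_sum]
    refine sum_congr rfl fun c _ => ?_
    rcases (Kb_nonneg ex ey h.hp a c).eq_or_lt with e | e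
    · simp [← e]
    · simp [ind, h.red a c e]
  col := funext fun c => by
    rw [← mul_one (ind Rᶜ c), ← Kb_col ex ey p c, mul_sum]
    refine sum_congr rfl fun a _ => ?_
    rcases (Kb_nonneg ex ey h.hp a c).eq_or_lt with e | e
    · simp [← e]
    · simp [ind, h.red a c e]

lemma bt_kill (R : Finset (Fin T × Λ)) (t : ℝ) :
    bt Rᶜ (Rᶜ.filter fun v => v.1 = 0) t = kill (Top.bt t) R := by
  funext v
  by_cases h : v ∈ R <;> by_cases h' : v.1 = 0 <;> simp [bt, kill, Top.bt, h, h']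

lemma zg_kill (b : Fin T × Λ → ℝ) (ω : Fin T × Λ → Option Bool) : zg b ω = kill b (rd ω) := by
  funext v
  by_cases h : ω v = none <;> simp [zg, kill, mem_rd, h]

lemma kb_mem {t : ℝ} (ht : 0 ≤ t ∧ t < 1) (O : Finset (Fin T × Λ)) (v : Fin T × Λ) :
    0 ≤ kill (Top.bt t) O v ∧ kill (Top.bt t) O v ≤ 1 := by
  unfold kill Top.bt; split_ifs <;> constructor <;> linarith [ht.1, ht.2]

lemma kb_tr (hp : ∀ s, 0 ≤ p s ∧ p s ≤ 1) {t : ℝ} (ht : 0 ≤ t ∧ t < 1) (O : Finset (Fin T × Λ)) :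
    Tr (Kb ex ey p * diagonal (kill (Top.bt t) O)) :=
  tr_Kb ex ey hp (kb_mem ht O) ht fun x => by unfold kill Top.bt; split_ifs <;> simp_all

lemma kb_mono {t t' : ℝ} (ht : 0 ≤ t') (h : t ≤ t') {O O' : Finset (Fin T × Λ)} (hO : O' ⊆ O)
    (v : Fin T × Λ) : kill (Top.bt t) O v ≤ kill (Top.bt t') O' v := by
  have := @hO v
  unfold kill Top.bt; split_ifs <;> simp_all

lemma kb_Gr (hp : ∀ s, 0 ≤ p s ∧ p s ≤ 1) {t t' : ℝ} (ht : 0 ≤ t) (h : t ≤ t') (h1 : t' < 1)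
    {O O' : Finset (Fin T × Λ)} (hO : O' ⊆ O) (a c : Fin T × Λ) :
    Gr (Kb ex ey p * diagonal (kill (Top.bt t) O)) a c ≤
      Gr (Kb ex ey p * diagonal (kill (Top.bt t') O')) a c :=
  (kb_tr hp ⟨ht.trans h, h1⟩ O').Gr_mono (kb_tr hp ⟨ht, h.trans_lt h1⟩ O).1
    (fun i j => by
      rw [mul_diagonal, mul_diagonal]
      exact mul_le_mul_of_nonneg_left (kb_mono (ht.trans h) h hO j) (Kb_nonneg ex ey hp i j)) a c

/-- the rank one step. -/
lemma Cut.rank (h : Cut ex ey p R α r x k) {t : ℝ} (ht : 0 ≤ t ∧ t < 1) :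
    Gr (Kb ex ey p * diagonal (kill (Top.bt t) R)) (0, r) (0, r) - 1 ≤
      Gr (Kb ex ey p * diagonal (kill (Top.bt t) (R ∪ α))) (0, r) (0, x) *
        Gr (Kb ex ey p * diagonal (kill (Top.bt t) R)) (0, r) (0, r) := by
  have hP := kb_tr (ex := ex) (ey := ey) h.hp ht R
  have hQ := kb_tr (ex := ex) (ey := ey) h.hp ht (R ∪ α)
  set G := Gr (Kb ex ey p * diagonal (kill (Top.bt t) R))
  set Q := Gr (Kb ex ey p * diagonal (kill (Top.bt t) (R ∪ α)))
  have K0 := Kb_nonneg ex ey h.hp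
  have g0 := hP.nonneg (0, r) (0, r)
  have hα : ∀ a ∈ α, Q (0, r) a = if a = (0, r) then 1 else 0 := fun a ha => by
    have := congrFun (congrFun hQ.right (0, r)) a
    rw [← Matrix.mul_assoc, Matrix.add_apply, mul_diagonal, kill, if_pos (mem_union_right _ ha),
      mul_zero, add_zero, one_apply] at this
    rw [show Q (0, r) a = _ from this]
    exact if_congr eq_comm rfl rfl
  have := hQ.cmp (h := fun v => G v (0, r)) (s := fun v => (if v = (0, r) then 1 else 0) +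
    if v ≠ (0, r) ∧ (v ∈ α ∨ v = (0, x)) then G (0, r) (0, r) else 0) (fun v => ?_) (0, r)
  · have e : ∀ v, Q (0, r) v * ((if v = (0, r) then 1 else 0) +
        if v ≠ (0, r) ∧ (v ∈ α ∨ v = (0, x)) then G (0, r) (0, r) else 0) ≤
        (if v = (0, r) then 1 else 0) + if v = (0, x) then Q (0, r) (0, x) * G (0, r) (0, r)
          else 0 := fun v => by
      have q0 := mul_nonneg (hQ.nonneg (0, r) (0, x)) g0
      by_cases h1 : v = (0, r)
      · rw [h1, hα _ h.hu]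
        simp only [if_true, ne_eq, not_true, false_and, if_false, add_zero, mul_one,
          le_add_iff_nonneg_right]
        split_ifs; exacts [q0, le_rfl]
      by_cases h2 : v ∈ α
      · rw [hα v h2, if_neg h1, zero_mul, zero_add]
        split_ifs; exacts [q0, le_rfl]
      · by_cases h3 : v = (0, x)
        · rw [if_neg h1, if_pos ⟨h1, Or.inr h3⟩, if_pos h3, zero_add, zero_add, ← h3]
        · simp [h1, h2, h3]
    have e' := sum_le_sum fun v (_ : v ∈ univ) => e v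
    simp only [sum_add_distrib, sum_ite_eq', mem_univ, if_true] at e'
    exact sub_le_iff_le_add'.2 (this.trans e')
  rw [add_assoc]
  refine (hP.col v (0, r)).le.trans (add_le_add_right ?_ _)
  have e : ∀ c, (Kb ex ey p * diagonal (kill (Top.bt t) R)) v c * G c (0, r) ≤
      Kb ex ey p v c * (if v ≠ (0, r) ∧ (v ∈ α ∨ v = (0, x)) then G (0, r) (0, r) else 0) +
        (Kb ex ey p * diagonal (kill (Top.bt t) (R ∪ α))) v c * G c (0, r) := fun c => by
    rw [mul_diagonal, mul_diagonal]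
    rcases (K0 v c).eq_or_lt with e | e
    · simp [← e]
    by_cases hc : c ∈ α
    · rw [if_pos ⟨(h.fwd v c e hc).2, (h.fwd v c e hc).1⟩, kill, kill,
        if_pos (mem_union_right _ hc), mul_zero, zero_mul, add_zero, mul_assoc]
      exact mul_le_mul_of_nonneg_left ((mul_le_of_le_one_left (hP.nonneg _ _)
        (kb_mem ht R c).2).trans (hP.col_le (row_Kb ex ey h.hp (kb_mem ht R)) c _)) e.le
    · rw [show kill (Top.bt t) (R ∪ α) c = kill (Top.bt t) R c by simp [kill, hc]]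
      exact le_add_of_nonneg_left (mul_nonneg e.le (by split_ifs; exacts [g0, le_rfl]))
  have e' := sum_le_sum fun c (_ : c ∈ univ) => e c
  rwa [sum_add_distrib, ← sum_mul, Kb_row, one_mul] at e'

end Crest.Agent.N337.ZM
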