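import Crest.Agent.N337.Top.BCut

/-!
# Row 337, TOP (B), part 5: the deterministic bound on the diagonal Green function
-/

set_option autoImplicit false
set_option linter.unusedSectionVars false

namespace Crest.Agent.N337.ZM

open Finset Equiv Matrix Crest.MathPhysics.SpinModel Free Crest.Agent.N337.LY0 Crest.Agent.N337.Arc

variable {L n T : ℕ} [NeZero L] [NeZero T] (ex ey : Fin T → Tor 3 L × Fin n)

/-- long chains are exposed. -/
def Expo (p : Fin T → ℝ) (O : Finset (Fin T × (Tor 3 L × Fin n))) (ρ : ℕ) (C er : ℝ) : Prop :=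
  ∀ φ γ Γ, Lip ex ey p O φ γ Γ → ∃ (c : ℝ) (loc : Tor 3 L → ℝ), (0 ≤ c ∧ c ≤ Γ) ∧
    (∀ x, 0 ≤ loc x) ∧ ∑ x, loc x ≤ C * (∑ s, p s * (1 - p s) * γ s ^ 2 + er * Γ ^ 2) ∧
    ∀ N e, Walk ex ey p O N e → ρ ≤ tdist (e 0).2.1 (e N).2.1 →
      ∃ i ≤ N, ∃ x, tdist (e 0).2.1 x ≤ 2 * ρ ∧ (φ (e i) - c) ^ 2 ≤ loc x

variable {ex ey} {p : Fin T → ℝ} {R α : Finset (Fin T × (Tor 3 L × Fin n))}
  {r x : Tor 3 L × Fin n} {k ρ : ℕ} {C er y Γ : ℝ}

lemma swap_abs {Λ : Type} [DecidableEq Λ] (a c x : Λ) (f : Λ → ℝ) {q : ℝ} (hq : 0 ≤ q) :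
    |(1 - q) * f x + q * f (Equiv.swap a c x) - f x| ≤
      (if x = a ∨ x = c then q else 0) * |f a - f c| := by
  rw [show (1 - q) * f x + q * f (Equiv.swap a c x) - f x = q * (f (Equiv.swap a c x) - f x) by
    ring, abs_mul, abs_of_nonneg hq]
  by_cases h1 : x = a
  · simp [h1, abs_sub_comm]
  by_cases h2 : x = c
  · simp [h2]
  · simp [h1, h2, swap_apply_of_ne_of_ne h1 h2]

lemma Kb_nn (hnn : ∀ s, tdist (ex s).1 (ey s).1 ≤ 1) {a c : Fin T × (Tor 3 L × Fin n)}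
    (h : 0 < Kb ex ey p a c) : tdist c.2.1 a.2.1 ≤ 1 := by
  rcases (Kb_pos ex ey h).2 with h | h
  · rw [h.2, tdist_self]; omega
  · have := hnn c.1
    rw [h.2, swap_apply_def]
    split_ifs with h1 h2
    · rwa [h1]
    · rwa [h2, tdist_comm]
    · rw [tdist_self]; omega

lemma abs_le_of {a b Γ : ℝ} (ha : 0 ≤ a ∧ a ≤ Γ) (hb : 0 ≤ b ∧ b ≤ Γ) :
    0 ≤ |a - b| ∧ |a - b| ≤ Γ :=
  ⟨abs_nonneg _, abs_le.2 ⟨by linarith [ha.1, hb.2], by linarith [ha.2, hb.1]⟩⟩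

lemma sq_split {F φ c l d : ℝ} (h : (φ - c) ^ 2 ≤ l) (h1 : |F - φ| ≤ d) :
    (F - c) ^ 2 ≤ 2 * l + 2 * d ^ 2 := by
  have := pow_le_pow_left₀ (abs_nonneg _) h1 2
  rw [sq_abs] at this
  nlinarith [sq_nonneg (F - φ - (φ - c))]

lemma kb_pos {t : ℝ} {O : Finset (Fin T × (Tor 3 L × Fin n))} {a c : Fin T × (Tor 3 L × Fin n)}
    (hp : ∀ s, 0 ≤ p s ∧ p s ≤ 1) (h : 0 < (Kb ex ey p * diagonal (kill (Top.bt t) O)) a c) :
    0 < Kb ex ey p a c ∧ c ∉ O := by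
  rw [mul_diagonal] at h
  refine ⟨(Kb_nonneg ex ey hp a c).lt_of_ne fun e => ?_, fun hc => ?_⟩
  · simp [← e] at h
  · simp [kill, hc] at h

lemma kb_gap (hy : 0 ≤ y ∧ y < 1) {O : Finset (Fin T × (Tor 3 L × Fin n))}
    {v : Fin T × (Tor 3 L × Fin n)} (hv : v ∉ O) {a : ℝ} (ha : 0 ≤ a ∧ a ≤ Γ) :
    |a - kill (Top.bt y) O v * a| ≤ (1 - y) * Γ := by
  have := mul_le_mul_of_nonneg_left ha.2 (sub_pos.2 hy.2).le
  have := mul_nonneg (sub_pos.2 hy.2).le ha.1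
  rw [kill, if_neg hv, Top.bt]
  split_ifs <;> rw [abs_le] <;> constructor <;> linarith

lemma Cut.few' (h : Cut ex ey p R α r x k) : ((univ.filter fun z => ((0 : Fin T), z) ∉ R).filter
    fun z => ((0 : Fin T), z) ∈ R ∪ α).card ≤ k :=
  (card_le_card fun _ hz => mem_filter.2 ⟨mem_univ _, (mem_union.1 (mem_filter.1 hz).2).resolve_left
    (mem_filter.1 (mem_filter.1 hz).1).2⟩).trans h.few

/-- the bound of one side. -/
noncomputable def Xb (L n k ρ : ℕ) (C er m Γ : ℝ) : ℝ :=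
  (k + n * (2 * (ρ : ℝ) + 1) ^ 3) * Γ ^ 2 +
    2 * n * (6 * (ρ : ℝ) + 1) ^ 3 * (2 * (C * (2 * m * Γ + er * Γ ^ 2))) +
    2 * (n * (L : ℝ) ^ 3) * (2 * (m * Γ) ^ 2)

theorem Cut.col (h : Cut ex ey p R α r x k) (hnn : ∀ s, tdist (ex s).1 (ey s).1 ≤ 1)
    (hE : Expo ex ey p (R ∪ α) ρ C er) (C0 : 0 ≤ C) (hy : 0 ≤ y ∧ y < 1)
    (hΓ : (1 - y) * Gr (Kb ex ey p * diagonal (kill (Top.bt y) R)) (0, r) (0, r) ≤ Γ) :
    ∃ c, ∑ z ∈ univ.filter (fun z => ((0 : Fin T), z) ∉ R),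
      ((1 - y) * Gr (Kb ex ey p * diagonal (kill (Top.bt y) R)) (0, z) (0, r) - c) ^ 2 ≤
      Xb L n k ρ C er (1 - y) Γ + 2 * Γ ^ 2 * ((1 - y) * (n * (2 * (ρ : ℝ) + 1) ^ 3)) *
        ∑ z ∈ univ.filter (fun z => ((0 : Fin T), z) ∉ R),
          Gr (Kb ex ey p * diagonal (kill (Top.bt y) (R ∪ α))) (0, z) (0, z) := by
  have hP := kb_tr (ex := ex) (ey := ey) h.hp hy R
  have m0 := (sub_pos.2 hy.2).le
  have K0 := Kb_nonneg ex ey h.hp
  have b0 := kb_mem hy R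
  set b := kill (Top.bt y) R with hb
  obtain ⟨F, hF⟩ : ∃ F : Fin T × (Tor 3 L × Fin n) → ℝ,
    ∀ v, F v = (1 - y) * Gr (Kb ex ey p * diagonal b) v (0, r) := ⟨_, fun _ => rfl⟩
  have F0 : ∀ v, 0 ≤ F v ∧ F v ≤ Γ := fun v => by
    rw [hF]
    exact ⟨mul_nonneg m0 (hP.nonneg _ _), (mul_le_mul_of_nonneg_left
      (hP.col_le (row_Kb ex ey h.hp b0) v _) m0).trans hΓ⟩
  have φ0 : ∀ v, 0 ≤ b v * F v ∧ b v * F v ≤ Γ := fun v => ⟨mul_nonneg (b0 v).1 (F0 v).1,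
    (mul_le_of_le_one_left (F0 v).1 (b0 v).2).trans (F0 v).2⟩
  have eq : ∀ v, F v = (if v = (0, r) then 1 - y else 0) + (Kb ex ey p *ᵥ fun c => b c * F c) v :=
    fun v => by
      rw [hF, hP.col v, mul_add, mul_ite, mul_one, mul_zero]
      simp only [hF, mulVec, dotProduct, mul_diagonal, mul_sum]
      exact congrArg _ (sum_congr rfl fun c _ => by ring)
  have nu : ∀ v ∉ R ∪ α, v ≠ (0, r) := fun v hv e => hv (e ▸ mem_union_right _ h.hu)
  obtain ⟨c, loc, c0, l0, l1, l2⟩ := hE (fun v => b v * F v)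
    (fun s => |b (s, ex s) * F (s, ex s) - b (s, ey s) * F (s, ey s)|) Γ
    ⟨φ0, fun s => abs_le_of (φ0 _) (φ0 _), fun s => le_rfl, fun s z hs hz => by
      have : b (s + 1, z) = 1 := by simp [hb, kill, Top.bt, hs, notMem_mono subset_union_left hz]
      rw [this, one_mul, eq, if_neg (nu _ hz), zero_add, Kb_mv]
      exact swap_abs _ _ z (fun c => b (s, c) * F (s, c)) (h.hp s).1⟩
  have en : ∑ s, p s * (1 - p s) * |b (s, ex s) * F (s, ex s) - b (s, ey s) * F (s, ey s)| ^ 2 ≤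
      2 * (1 - y) * Γ := by
    have h1 := en_mv ex ey h.hp fun c => b c * F c
    have h2 := sq_src (0, r) (1 - y) _ eq
    have h3 : ∑ v, (b v * F v) ^ 2 ≤ ∑ v, F v ^ 2 := sum_le_sum fun v _ =>
      pow_le_pow_left₀ (φ0 v).1 (mul_le_of_le_one_left (F0 v).1 (b0 v).2) 2
    have h4 := mul_le_mul_of_nonneg_left (F0 (0, r)).2 m0
    linarith
  have out : ∀ v ∉ R ∪ α, v ≠ (0, x) → ∀ c, 0 < Kb ex ey p v c → c ∉ R ∪ α := fun v hv hx c hc => by
    rw [mem_union, not_or] at hv ⊢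
    exact ⟨mt (h.red v c hc).2 hv.1, fun h' => (h.fwd v c hc h').1.elim hv.2 hx⟩
  have := side (kb_tr h.hp hy (R ∪ α)) (row_Kb ex ey h.hp (kb_mem hy _))
    (col_Kb ex ey h.hp (kb_mem hy _)) (R ∪ α) F0 c0 m0 (δ := 2 * ((1 - y) * Γ) ^ 2) (by positivity)
    (0, x) (0 + 1) (fun v => ?_) (fun v hv hx => ?_) (fun a c h' _ => Or.inl (kb_pos h.hp h').2)
    (fun v hv hx => ?_) (loc := fun x => 2 * loc x) (fun x => mul_nonneg zero_le_two (l0 x)) ρ
    (fun N e e0 e1 e2 => ?_) _ h.few'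
  · refine ⟨c, le_trans (by simp only [hF]; exact le_rfl) (this.trans ?_)⟩
    rw [Xb, ← mul_sum]
    gcongr
    exact l1.trans (by gcongr)
  · rw [eq v]
    refine le_add_of_nonneg_of_le (by split_ifs; exacts [m0, le_rfl]) (sum_le_sum fun c _ => ?_)
    beta_reduce
    rw [mul_diagonal, mul_assoc]
    exact mul_le_mul_of_nonneg_left (mul_le_mul_of_nonneg_right
      (kb_mono hy.1 le_rfl subset_union_left c) (F0 c).1) (K0 v c)
  · rw [eq v, if_neg (nu v hv), zero_add]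
    refine sum_le_sum fun c _ => ?_
    beta_reduce
    rw [mul_diagonal, mul_assoc]
    rcases (K0 v c).eq_or_lt with e | e
    · simp [← e]
    · have := out v hv hx c e
      rw [hb, kill, kill, if_neg this, if_neg (notMem_mono subset_union_left this)]
  · have e1 : 1 - ∑ j, (Kb ex ey p * diagonal (kill (Top.bt y) (R ∪ α))) v j =
        ∑ j, (Kb ex ey p v j - (Kb ex ey p * diagonal (kill (Top.bt y) (R ∪ α))) v j) := by
      rw [sum_sub_distrib, Kb_row]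
    rw [e1, ← one_mul (ite _ _ _), ← Kb_row ex ey p v, sum_mul, Kb_row]
    refine sum_le_sum fun c _ => ?_
    rw [mul_diagonal, ← mul_one_sub]
    rcases (K0 v c).eq_or_lt with e | e
    · simp [← e]
    refine mul_le_mul_of_nonneg_left ?_ e.le
    rw [kill, if_neg (out v hv hx c e), Top.bt, (Kb_pos ex ey e).1]
    by_cases hc : c.1 = 0 <;> simp [hc]
  · obtain ⟨j, -, j1, j2⟩ := G1.Cr.rad (c := fun i => (e i).2.1) (Nat.zero_le N)
      (fun i _ hi => by rw [tdist_comm]; exact Kb_nn hnn (kb_pos h.hp (e1 i hi)).1) e2.le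
    have o : ∀ i ≤ N, e i ∉ R ∪ α := fun i hi => by
      cases i with
      | zero => exact e0
      | succ i => exact (kb_pos h.hp (e1 i hi)).2
    have st : ∀ i < j, 0 < Kb ex ey p (e (j - (i + 1))) (e (j - i)) := fun i hi => by
      have := (kb_pos h.hp (e1 (j - (i + 1)) (by omega))).1
      rwa [show j - (i + 1) + 1 = j - i by omega] at this
    obtain ⟨i, hi, z, z1, z2⟩ := l2 j (fun i => e (j - i)) ⟨fun i _ => o _ (by omega),
      fun i hi => (Kb_pos ex ey (st i hi)).1, fun i hi => (Kb_pos ex ey (st i hi)).2.imp_left (·.2)⟩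
      (by simp only [Nat.sub_zero, Nat.sub_self]; rw [tdist_comm]; exact j2.ge)
    refine ⟨j - i, by omega, z, ?_, sq_split z2 (kb_gap hy
      (notMem_mono subset_union_left (o _ (by omega))) (F0 _))⟩
    have := tdist_triangle (e 0).2.1 (e j).2.1 z
    simp only [Nat.sub_zero] at z1 j2
    omega

theorem Cut.row (h : Cut ex ey p R α r x k) (hnn : ∀ s, tdist (ex s).1 (ey s).1 ≤ 1)
    (hE : Expo ex ey p (R ∪ α) ρ C er) (C0 : 0 ≤ C) (hy : 0 ≤ y ∧ y < 1)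
    (hΓ : (1 - y) * Gr (Kb ex ey p * diagonal (kill (Top.bt y) R)) (0, r) (0, r) ≤ Γ) :
    ∃ c, ∑ z ∈ univ.filter (fun z => ((0 : Fin T), z) ∉ R),
      ((1 - y) * Gr (Kb ex ey p * diagonal (kill (Top.bt y) R)) (0, r) (0, z) - c) ^ 2 ≤
      Xb L n k ρ C er (1 - y) Γ + 2 * Γ ^ 2 * ((1 - y) * (n * (2 * (ρ : ℝ) + 1) ^ 3)) *
        ∑ z ∈ univ.filter (fun z => ((0 : Fin T), z) ∉ R),
          Gr (Kb ex ey p * diagonal (kill (Top.bt y) (R ∪ α))) (0, z) (0, z) := by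
  have hP := kb_tr (ex := ex) (ey := ey) h.hp hy R
  have m0 := (sub_pos.2 hy.2).le
  have K0 := Kb_nonneg ex ey h.hp
  have b0 := kb_mem hy R
  set b := kill (Top.bt y) R with hb
  obtain ⟨F, hF⟩ : ∃ F : Fin T × (Tor 3 L × Fin n) → ℝ,
    ∀ v, F v = (1 - y) * Gr (Kb ex ey p * diagonal b) (0, r) v := ⟨_, fun _ => rfl⟩
  have F0 : ∀ v, 0 ≤ F v ∧ F v ≤ Γ := fun v => by
    rw [hF]
    exact ⟨mul_nonneg m0 (hP.nonneg _ _), (mul_le_mul_of_nonneg_left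
      (hP.row_le (col_Kb ex ey h.hp b0) _ v) m0).trans hΓ⟩
  set ψ := (Kb ex ey p)ᵀ *ᵥ F with hψ
  have ψ0 : ∀ v, 0 ≤ ψ v ∧ ψ v ≤ Γ := fun v => by
    obtain ⟨s, z⟩ := v
    have h1 := F0 (s + 1, z)
    have h2 := F0 (s + 1, Equiv.swap (ex s) (ey s) z)
    have h3 := h.hp s
    rw [hψ, Kb_vm]
    constructor <;> nlinarith [h1.1, h1.2, h2.1, h2.2, h3.1, h3.2]
  have mv : ∀ (d : Fin T × (Tor 3 L × Fin n) → ℝ) v,
      ((Kb ex ey p * diagonal d)ᵀ *ᵥ F) v = d v * ψ v := fun d v => by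
    rw [transpose_mul, diagonal_transpose, ← mulVec_mulVec, mulVec_diagonal]
  have eq : ∀ v, F v = (if v = (0, r) then 1 - y else 0) + b v * ψ v := fun v => by
    have := hP.T.col v (0, r)
    rw [Gr_T, transpose_apply] at this
    rw [← mv, hF, this, mul_add, mul_ite, mul_one, mul_zero]
    simp only [hF, mulVec, dotProduct, mul_sum, transpose_apply]
    exact congrArg _ (sum_congr rfl fun c _ => by ring)
  have nu : ∀ v ∉ R ∪ α, v ≠ (0, r) := fun v hv e => hv (e ▸ mem_union_right _ h.hu)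
  obtain ⟨c, loc, c0, l0, l1, l2⟩ := hE ψ (fun s => |F (s + 1, ex s) - F (s + 1, ey s)|) Γ
    ⟨ψ0, fun s => abs_le_of (F0 _) (F0 _), fun s => by
      rw [hψ, Kb_vm, Kb_vm, swap_apply_left, swap_apply_right,
        show ∀ a c : ℝ, (1 - p s) * a + p s * c - ((1 - p s) * c + p s * a) =
          (1 - 2 * p s) * (a - c) from fun a c => by ring, abs_mul]
      exact mul_le_of_le_one_left (abs_nonneg _)
        (abs_le.2 ⟨by linarith [(h.hp s).2], by linarith [(h.hp s).1]⟩),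
    fun s z hs hz => by
      have : b (s + 1, z) = 1 := by simp [hb, kill, Top.bt, hs, notMem_mono subset_union_left hz]
      have e := eq (s + 1, z)
      rw [this, one_mul, if_neg (nu _ hz), zero_add] at e
      rw [← e, abs_sub_comm, hψ, Kb_vm]
      exact swap_abs _ _ z (fun c => F (s + 1, c)) (h.hp s).1⟩
  have en : ∑ s, p s * (1 - p s) * |F (s + 1, ex s) - F (s + 1, ey s)| ^ 2 ≤ 2 * (1 - y) * Γ := by
    have h1 := en_vm ex ey h.hp F
    have h2 := sq_src (0, r) (1 - y) _ eq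
    have h3 : ∑ v, (b v * ψ v) ^ 2 ≤ ∑ v, ψ v ^ 2 := sum_le_sum fun v _ =>
      pow_le_pow_left₀ (mul_nonneg (b0 v).1 (ψ0 v).1) (mul_le_of_le_one_left (ψ0 v).1 (b0 v).2) 2
    have h4 := mul_le_mul_of_nonneg_left (F0 (0, r)).2 m0
    linarith
  have := side (kb_tr h.hp hy (R ∪ α)).T (col_Kb ex ey h.hp (kb_mem hy _))
    (row_Kb ex ey h.hp (kb_mem hy _)) (R ∪ α) F0 c0 m0 (δ := 2 * ((1 - y) * Γ) ^ 2) (by positivity)
    (0, r) 0 (fun v => ?_) (fun v hv _ => ?_) (fun a c h' ha => ?_)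
    (fun v hv _ => ?_) (loc := fun x => 2 * loc x) (fun x => mul_nonneg zero_le_two (l0 x)) ρ
    (fun N e e0 e1 e2 => ?_) _ h.few'
  · refine ⟨c, le_trans (by simp only [hF]; exact le_rfl) (this.trans ?_)⟩
    simp only [Gr_T, transpose_apply]
    rw [Xb, ← mul_sum]
    gcongr
    exact l1.trans (by gcongr)
  · rw [eq v, mv]
    exact le_add_of_nonneg_of_le (by split_ifs; exacts [m0, le_rfl])
      (mul_le_mul_of_nonneg_right (kb_mono hy.1 le_rfl subset_union_left v) (ψ0 v).1)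
  · rw [eq v, if_neg (nu v hv), zero_add, mv, hb, kill, kill, if_neg hv,
      if_neg (notMem_mono subset_union_left hv)]
  · have e := (kb_pos h.hp h').1
    rw [mem_union, not_or] at ha
    by_cases hc : c ∈ α
    · exact Or.inr ((h.bwd c a e hc).resolve_left ha.2)
    · exact Or.inl fun h'' => (mem_union.1 h'').elim (mt (h.red c a e).1 ha.1) hc
  · simp only [transpose_apply, mul_diagonal, ← sum_mul, Kb_col, one_mul]
    rw [kill, if_neg hv, Top.bt]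
    split_ifs <;> simp
  · obtain ⟨j, -, j1, j2⟩ := G1.Cr.rad (c := fun i => (e i).2.1) (Nat.zero_le N)
      (fun i _ hi => Kb_nn hnn (kb_pos h.hp (e1 i hi)).1) e2.le
    have jN : j < N := j1.lt_of_ne fun e' => by rw [e'] at j2; exact e2.ne' j2
    have o : ∀ i ≤ j, e i ∉ R ∪ α := fun i hi => (kb_pos h.hp (e1 i (by omega))).2
    have st : ∀ i < j, 0 < Kb ex ey p (e (i + 1)) (e i) := fun i hi =>
      (kb_pos h.hp (e1 i (by omega))).1
    obtain ⟨i, hi, z, z1, z2⟩ := l2 j e ⟨o, fun i hi => (Kb_pos ex ey (st i hi)).1,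
      fun i hi => (Kb_pos ex ey (st i hi)).2.imp_left (·.2)⟩ j2.ge
    refine ⟨i, by omega, z, by omega, sq_split z2 ?_⟩
    rw [eq, if_neg (nu _ (o i hi)), zero_add, abs_sub_comm]
    exact kb_gap hy (notMem_mono subset_union_left (o i hi)) (ψ0 _)

lemma sum_slice (R : Finset (Fin T × (Tor 3 L × Fin n))) (f : Fin T × (Tor 3 L × Fin n) → ℝ) :
    ∑ v ∈ Rᶜ.filter (fun v => v.1 = 0), f v =
      ∑ z ∈ univ.filter (fun z => ((0 : Fin T), z) ∉ R), f (0, z) := by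
  refine sum_nbij' (fun v => v.2) (fun z => (0, z)) ?_ ?_ ?_ ?_ ?_
  · rintro ⟨s, z⟩ hv
    obtain ⟨h1, rfl⟩ := mem_filter.1 hv
    simpa using h1
  · intro z hz; simpa using hz
  · rintro ⟨s, z⟩ hv
    obtain ⟨-, rfl⟩ := mem_filter.1 hv
    rfl
  · intro z _; rfl
  · rintro ⟨s, z⟩ hv
    obtain ⟨-, rfl⟩ := mem_filter.1 hv
    rfl

/-- **the deterministic bound.** -/
theorem Cut.det (h : Cut ex ey p R α r x k) (hnn : ∀ s, tdist (ex s).1 (ey s).1 ≤ 1)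
    (hE : Expo ex ey p (R ∪ α) ρ C er) (C0 : 0 ≤ C) {y' z g : ℝ} (hy : 0 < y) (hyy : y < y')
    (hyz : y' ≤ z) (hz : z < 1) (h2 : z - y ≤ 2 * (y' - y))
    (hg : Gr (Kb ex ey p * diagonal (kill (Top.bt y') (R ∪ α))) (0, r) (0, x) ≤ g)
    (hg2 : g ≤ 1 / 2) :
    Gr (Kb ex ey p * diagonal (kill (Top.bt z) R)) (0, r) (0, r) - 1 ≤
      1 / (y * (1 - z)) / (univ.filter fun w => ((0 : Fin T), w) ∉ R).card +
      (6 * g + 1 / (y * (1 - z)) * Xb L n k ρ C er (1 - y) (2 * (1 - y))) +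
      1 / (y * (1 - z)) * (8 * (1 - y) ^ 3 * (n * (2 * (ρ : ℝ) + 1) ^ 3)) *
        ∑ w ∈ univ.filter (fun w => ((0 : Fin T), w) ∉ R),
          Gr (Kb ex ey p * diagonal (kill (Top.bt z) R)) (0, w) (0, w) := by
  have y1 : y' < 1 := hyz.trans_lt hz
  have y0 : 0 ≤ y' := (hy.trans hyy).le
  have hr := h.rank ⟨y0, y1⟩
  have g1 := (kb_tr (ex := ex) (ey := ey) h.hp ⟨y0, y1⟩ R).one_le (0, r)
  have g0 := ((kb_tr (ex := ex) (ey := ey) h.hp ⟨y0, y1⟩ (R ∪ α)).nonneg (0, r) (0, x)).trans hg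
  have g2 := mul_le_mul_of_nonneg_right hg (zero_le_one.trans g1)
  have g3 : Gr (Kb ex ey p * diagonal (kill (Top.bt y') R)) (0, r) (0, r) ≤ 2 := by nlinarith
  have g4 : Gr (Kb ex ey p * diagonal (kill (Top.bt y') R)) (0, r) (0, r) - 1 ≤ 2 * g := by
    nlinarith
  have m0 : 0 < 1 - y := sub_pos.2 (hyy.trans y1)
  have hΓ : (1 - y) * Gr (Kb ex ey p * diagonal (kill (Top.bt y) R)) (0, r) (0, r) ≤ 2 * (1 - y) := by
    rw [mul_comm 2]
    exact mul_le_mul_of_nonneg_left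
      ((kb_Gr h.hp hy.le hyy.le y1 (Subset.refl R) _ _).trans g3) m0.le
  obtain ⟨c, hc⟩ := h.row hnn hE C0 ⟨hy.le, hyy.trans y1⟩ hΓ
  obtain ⟨c', hc'⟩ := h.col hnn hE C0 ⟨hy.le, hyy.trans y1⟩ hΓ
  have := h.ds.sharp hy hyy hyz hz h2 (by rw [bt_kill]; exact kb_tr h.hp ⟨y0.trans hyz, hz⟩ R)
    (u := (0, r)) (mem_filter.2 ⟨mem_compl.2 h.hR, rfl⟩) c c'
  have cd := sum_slice R fun _ => 1
  simp only [sum_const, nsmul_eq_mul, mul_one] at cd
  simp only [bt_kill, sum_slice, cd] at this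
  have hs : ∑ w ∈ univ.filter (fun w => ((0 : Fin T), w) ∉ R),
      Gr (Kb ex ey p * diagonal (kill (Top.bt y) (R ∪ α))) (0, w) (0, w) ≤
      ∑ w ∈ univ.filter (fun w => ((0 : Fin T), w) ∉ R),
        Gr (Kb ex ey p * diagonal (kill (Top.bt z) R)) (0, w) (0, w) :=
    sum_le_sum fun w _ => kb_Gr h.hp hy.le (hyy.le.trans hyz) hz subset_union_left _ _
  have hs' := mul_le_mul_of_nonneg_left hs (show 0 ≤ 2 * (2 * (1 - y)) ^ 2 *
    ((1 - y) * (n * (2 * (ρ : ℝ) + 1) ^ 3)) by positivity)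
  have a0 : 0 ≤ 1 / (y * (1 - z)) := by have := sub_pos.2 hz; positivity
  refine this.trans ((add_le_add (mul_le_mul_of_nonneg_left g4 (by norm_num))
    (mul_le_mul_of_nonneg_left (add_le_add_right (div_le_div_of_nonneg_right
      (add_le_add (hc.trans (add_le_add_right hs' _)) (hc'.trans (add_le_add_right hs' _)))
      zero_le_two) _) a0)).trans (le_of_eq ?_))
  ring

end Crest.Agent.N337.ZM
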