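import Crest.Agent.N337.Top.BDet
import Crest.Agent.N337.Top.Bas

/-!
# Row 337, TOP (B), part 6: the long loops at fixed volume and fixed word
-/

set_option autoImplicit false
set_option linter.unusedSectionVars false

namespace Crest.Agent.N337.ZM

open Finset Equiv Matrix Crest.MathPhysics.SpinModel Free KV G1 Crest.Agent.N337.Rep
  Crest.Agent.N337.LY0 Crest.Agent.N337.Arc Crest.Agent.N337.Top

/-- exposure from `Test` and `Chain`. -/
def ExpoStmt : Prop :=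
  ∀ (n B : ℕ) (κ : ℝ), ∃ C : ℝ, 0 ≤ C ∧ ∀ (L T : ℕ) [NeZero L] [NeZero T]
    (ex ey : Fin T → Tor 3 L × Fin n) (p p0 c0 : Fin T → ℝ) (b : Fin T × (Tor 3 L × Fin n) → ℝ)
    (O : Finset (Fin T × (Tor 3 L × Fin n))) (E w : ℕ) (q : ℝ) (Bd : Finset ℕ) (P : Scales)
    (U : ℕ → Finset (Tor 3 L)) (j A l r3 : ℕ),
    Data ex ey p p0 b c0 O ∅ E w B q κ Bd P U j A → U P.mt = ∅ →
    Data3 ex ey p0 c0 O E w κ P U j A l r3 → Crs ex ey p0 E w B q Bd → (∀ s, 0 ≤ p s ∧ p s ≤ 1) →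
    100 ≤ L → Expo ex ey p O (P.η (P.mt - 1))
      (2 * C * (L : ℝ) ^ 2 * (P.K (P.mt - 1) * P.η (P.mt - 1)) ^ 4 + 8 * κ) (q ^ 2 * (L : ℝ) ^ 3)

lemma clamp_sq {a c Γ : ℝ} (ha : 0 ≤ a ∧ a ≤ Γ) : (a - max 0 (min c Γ)) ^ 2 ≤ (a - c) ^ 2 := by
  rcases le_total c Γ with h | h
  · rw [min_eq_left h]
    rcases le_total 0 c with h' | h'
    · rw [max_eq_right h']
    · rw [max_eq_left h']; nlinarith [ha.1]
  · rw [min_eq_right h, max_eq_right (ha.1.trans ha.2)]; nlinarith [ha.2]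

theorem expo_of (hT : TestStmt) (hC : ChainStmt) : ExpoStmt := by
  classical
  intro n B κ
  obtain ⟨C, C0, hT⟩ := hT n B κ
  refine ⟨C, C0, fun L T _ _ ex ey p p0 c0 b O E w q Bd P U j A l r3 D top D3 cr hp hL φ γ Γ hφ => ?_⟩
  obtain ⟨σ, c, hσ, h1⟩ := hT L T ex ey p p0 c0 b O E w q Bd P U j A l r3 D top D3 cr hp hL φ γ Γ hφ
  have hC := hC L n T ex ey p p0 c0 b O E w B q κ Bd P U j A l r3 D top D3 hp φ γ Γ hφ σ hσ
  have κ0 : 0 ≤ κ := zero_le_one.trans D.clock.hκ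
  have Γ0 : 0 ≤ Γ := (hφ.gam 0).1.trans (hφ.gam 0).2
  have F0 : ∀ s, 0 ≤ p s * (1 - p s) * γ s ^ 2 := fun s =>
    mul_nonneg (mul_nonneg (hp s).1 (sub_nonneg.2 (hp s).2)) (sq_nonneg _)
  set f : Tor 3 L × Fin n → ℝ := fun z =>
    2 * ∑ t ∈ range B, (if Tst O P U A (σ t * E) z then (φ (tm T (σ t * E), z) - c) ^ 2 else 0) +
      4 * κ * ∑ s, if z = ex s ∨ z = ey s then p s * (1 - p s) * γ s ^ 2 else 0 with hf
  have t0 : ∀ z t, 0 ≤ if Tst O P U A (σ t * E) z then (φ (tm T (σ t * E), z) - c) ^ 2 else 0 :=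
    fun z t => by split_ifs; exacts [sq_nonneg _, le_rfl]
  have f0 : ∀ z, 0 ≤ f z := fun z => add_nonneg
    (mul_nonneg zero_le_two (sum_nonneg fun t _ => t0 z t)) (mul_nonneg (by positivity)
      (sum_nonneg fun s _ => by split_ifs; exacts [F0 s, le_rfl]))
  refine ⟨max 0 (min c Γ), fun x => ∑ a, f (x, a), ⟨le_max_left _ _, max_le Γ0 (min_le_right _ _)⟩,
    fun x => sum_nonneg fun a _ => f0 _, ?_, fun N e he hd => ?_⟩
  · rw [← Fintype.sum_prod_type]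
    simp only [hf, sum_add_distrib, ← mul_sum]
    rw [sum_comm, sum_comm (s := univ) (t := univ)]
    simp only [← sum_filter]
    have h2 : ∑ s, ∑ _z ∈ univ.filter (fun z => z = ex s ∨ z = ey s), p s * (1 - p s) * γ s ^ 2 ≤
        2 * ∑ s, p s * (1 - p s) * γ s ^ 2 := by
      rw [mul_sum]
      refine sum_le_sum fun s _ => ?_
      rw [sum_const, nsmul_eq_mul]
      refine mul_le_mul_of_nonneg_right ?_ (F0 s)
      exact_mod_cast (card_le_card fun z hz => by simpa using hz).trans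
        (card_le_two (a := ex s) (b := ey s))
    have h3 := mul_le_mul_of_nonneg_left h2 (show 0 ≤ 4 * κ by positivity)
    have h4 : 0 ≤ κ * (q ^ 2 * (L : ℝ) ^ 3 * Γ ^ 2) := by positivity
    linarith
  · obtain ⟨i, hi, t, ht, z, h2, h3, h4⟩ := hC N e he hd
    refine ⟨i, hi, z.1, h3, (clamp_sq (hφ.bd _)).trans (le_trans ?_
      (single_le_sum (f := fun a => f (z.1, a)) (fun a _ => f0 _) (mem_univ z.2)))⟩
    have h5 := single_le_sum (fun t _ => t0 z t) (mem_range.2 ht)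
    rw [if_pos h2] at h5
    simp only [hf]
    nlinarith [sq_nonneg (φ (e i) - φ (tm T (σ t * E), z) - (φ (tm T (σ t * E), z) - c))]

variable {L n T : ℕ} [NeZero L] [NeZero T] {ex ey : Fin T → Tor 3 L × Fin n} {p0 : Fin T → ℝ}

lemma env_pin (hnn : ∀ s, tdist (ex s).1 (ey s).1 ≤ 1) (y : ℝ)
    (O : Finset (Fin T × (Tor 3 L × Fin n))) (ξ : Fin T → Bool) :
    G1.Env ex ey (pin p0 (Arc.tch ex ey O) ξ) p0 (kill (Top.bt y) O) (b0 y) O ∅ where
  nn s _ := hnn s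
  bR _ hv := if_pos hv
  bZ _ hv := absurd hv (notMem_empty _)
  bf _ hv _ := if_neg hv
  free _ h1 h2 := Or.inl (if_neg fun k => ((mem_tch ex ey).1 k).elim h1 h2)

lemma ch_obs {ω : Fin T × (Tor 3 L × Fin n) → Option Bool} {ξ : Fin T → Bool}
    (hi : ∀ v, ω (Sg ex ey ξ v) = ω v) (r : Tor 3 L × Fin n) (k : ℕ) (s : Fin T)
    (y : Tor 3 L × Fin n)
    (h : Ch ex ey (pin p0 (Arc.tch ex ey (obs ex ey ω r k ξ)) ξ) (obs ex ey ω r k ξ) s y) :
    s + 1 = 0 ∨ (ξ s = true ∧ (y = ex s ∨ y = ey s) ∧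
      ((s, ex s) ∈ obs ex ey ω r k ξ ∨ (s, ey s) ∈ obs ex ey ω r k ξ)) := by
  refine or_iff_not_imp_left.2 fun hs => ?_
  have st := fun z => obs_step ex ey hi r k (v := (s, z)) hs
  simp only [Sg_apply] at st
  rcases h with h | ⟨h1, h2, h3, -⟩
  · have hξ : ξ s = true := by
      by_contra hn
      exact h (by simpa [sg, hn] using (st y).symm)
    simp only [sg, hξ, if_true] at st
    have hy : y = ex s ∨ y = ey s := by
      by_contra! hn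
      exact h (by simpa [swap_apply_of_ne_of_ne hn.1 hn.2] using (st y).symm)
    refine ⟨hξ, hy, ?_⟩
    have a1 := st (ex s)
    have a2 := st (ey s)
    rw [swap_apply_left] at a1
    rw [swap_apply_right] at a2
    rcases hy with rfl | rfl <;> tauto
  · have ht : (s, ex s) ∈ obs ex ey ω r k ξ ∨ (s, ey s) ∈ obs ex ey ω r k ξ :=
      h1.elim (fun e => Or.inl (e ▸ h2)) fun e => Or.inr (e ▸ h2)
    refine ⟨?_, h1, ht⟩
    by_contra hn
    exact h3 (by simp [pin, (mem_tch ex ey).2 ht, hn])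

lemma kb_zero {y : ℝ} (hy : 0 ≤ y) (O : Finset (Fin T × (Tor 3 L × Fin n)))
    (x : Tor 3 L × Fin n) : kill (Top.bt y) O (0, x) ≤ y := by
  unfold kill Top.bt; split_ifs <;> simp_all

lemma eta_mono {P : Scales} {L : ℕ} (h : P.Ok L) {m m' : ℕ} (h1 : m ≤ m') (h2 : m' < P.mt) :
    P.η m ≤ P.η m' := by
  induction m', h1 using Nat.le_induction with
  | base => exact le_rfl
  | succ k _ ih =>
    have := h.grow k h2
    have := Nat.le_mul_of_pos_left (2 * (P.σ (k + 1) + P.ρ (k + 1)) + 2 * P.η k + 1)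
      (show 0 < P.a (k + 1) + 1 from Nat.succ_pos _)
    have := ih (by omega)
    omega

lemma cc_le {P : Scales} {A m1 d : ℕ} (h1 : 1 ≤ P.η (m1 - 1)) (hA : A ≤ P.η (m1 - 1))
    (hd : 8 * P.η (m1 - 1) ≤ d) : Cc P A m1 (d / 2) * P.η (m1 - 1) / ((d / 2 : ℕ) : ℝ) ≤
      2 * 10 ^ 7 * (P.K (m1 - 1) * (1 + (Nat.log 2 d : ℝ)) ^ 2 * (P.η (m1 - 1) : ℝ) ^ 2 / d) := by
  have K1 := one_le_K P (m1 - 1)
  have e1 : (1 : ℝ) ≤ P.η (m1 - 1) := by exact_mod_cast h1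
  have e2 : (A : ℝ) ≤ P.η (m1 - 1) := by exact_mod_cast hA
  have e3 : (d : ℝ) ≤ 3 * ((d / 2 : ℕ) : ℝ) := by exact_mod_cast (by omega : d ≤ 3 * (d / 2))
  have d0 : (0 : ℝ) < d := by exact_mod_cast (by omega : 0 < d)
  have e4 : (Nat.log 2 (d / 2) : ℝ) ≤ Nat.log 2 d :=
    Nat.cast_le.2 (Nat.log_mono_right (Nat.div_le_self _ _))
  set X := P.K (m1 - 1) * (1 + (Nat.log 2 d : ℝ)) ^ 2 with hX
  have X1 : 1 ≤ X := one_le_mul_of_one_le_of_one_le K1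
    (one_le_pow₀ (le_add_of_nonneg_right (Nat.cast_nonneg _)))
  have e5 : P.K (m1 - 1) * (1 + (Nat.log 2 (d / 2) : ℝ)) ^ 2 ≤ X := by rw [hX]; gcongr
  have e6 : Cc P A m1 (d / 2) ≤ (6 * 10 ^ 6 + 16) * (X * P.η (m1 - 1)) := by
    unfold Cc; nlinarith
  calc _ ≤ (6 * 10 ^ 6 + 16) * (X * P.η (m1 - 1)) * P.η (m1 - 1) / (d / 3) := by
        gcongr; linarith
    _ = 3 * (6 * 10 ^ 6 + 16) * (X * (P.η (m1 - 1) : ℝ) ^ 2 / d) := by field_simp
    _ ≤ _ := mul_le_mul_of_nonneg_right (by norm_num) (by positivity)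

lemma sum_WR (b : Fin T × (Tor 3 L × Fin n) → ℝ)
    (E : (Fin T → Bool) → Finset (Fin T × (Tor 3 L × Fin n)) → Prop)
    [∀ ξ R, Decidable (E ξ R)] :
    ∑ ξ, ∑ ω, nuw ex ey p0 b ξ ω * (if E ξ (rd ω) then 1 else 0) = RR.WR ex ey p0 b E := by
  refine sum_congr rfl fun ξ _ => ?_
  rw [mul_sum]
  refine sum_congr rfl fun ω _ => ?_
  have e : RR.red ω = rd ω := rfl
  by_cases h1 : ∀ v, ω (Sg ex ey ξ v) = ω v
  · by_cases h2 : E ξ (rd ω)
    · rw [nuw, if_pos h1, if_pos h2, if_pos (And.intro h1 (e ▸ h2)), mul_one]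
    · rw [if_neg h2, if_neg (mt And.right (e ▸ h2)), mul_zero, mul_zero]
  · rw [nuw, if_neg h1, if_neg (mt And.left h1), mul_zero, zero_mul]

/-- **long loops at fixed volume.** -/
theorem long_fix {E w B : ℕ} {q κ y y' z g δ C er : ℝ} {Bd : Finset ℕ} {P : Scales}
    {j A l r3 m1 d K K0 : ℕ} (hp : ∀ s, 0 ≤ p0 s ∧ p0 s ≤ 1)
    (hnn : ∀ s, tdist (ex s).1 (ey s).1 ≤ 1) (hC : Clock ex ey p0 (b0 y') E w B q κ Bd)
    (hP : Pers ex ey p0 (b0 y') E w κ) (fine : 2 * (Bd.card + L ^ 3 * j + 1) ≤ w)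
    (hX : ∀ p b O U, Data ex ey p p0 b (b0 y') O ∅ E w B q κ Bd P U j A → U P.mt = ∅ →
      Data3 ex ey p0 (b0 y') O E w κ P U j A l r3 → (∀ s, 0 ≤ p s ∧ p s ≤ 1) →
      Expo ex ey p O (P.η (P.mt - 1)) C er) (C0 : 0 ≤ C) (er0 : 0 ≤ er)
    (hy : 0 < y) (hyy : y < y') (hyz : y' ≤ z) (hz : z < 1) (h2 : z - y ≤ 2 * (y' - y))
    (hm1 : 1 ≤ m1) (hm1' : m1 ≤ P.mt) (hK : 2 * (2 ^ K - 1) < L)
    (hKη : P.Ok L → ∀ m < m1, P.η m ≤ 2 ^ K - 1) (hdη : 8 * P.η (m1 - 1) ≤ d)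
    (hg : Cg κ * (4 / (1 - y') / (2 * ((2 ^ K - 1 : ℕ) : ℝ) + 1) ^ 3 +
      2 * 10 ^ 7 * (P.K (m1 - 1) * (1 + (Nat.log 2 d : ℝ)) ^ 2 * (P.η (m1 - 1) : ℝ) ^ 2 / d) +
        err q y' L n B) ≤ g)
    (g0 : 0 ≤ g) (hg2 : g ≤ 1 / 2) (hK0 : 0 < K0)
    (U : (Fin T → Bool) → Finset (Fin T × (Tor 3 L × Fin n)) → ℕ → Finset (Tor 3 L))
    (hW : RR.WR ex ey p0 (Top.bt z) (fun ξ R => ¬ Good ex ey p0 E w P j A l r3 ξ R (U ξ R)) ≤ δ)
    (hW' : ∀ x, RR.WR ex ey p0 (Top.bt z) (fun ξ R => ¬ Clean P (U ξ R) x m1 d) ≤ δ) :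
    EE ex ey p0 (Top.bt z) (fun π D => (Top.N0 D : ℝ) - Ns (2 * K0) π D) ≤
      (1 / (y * (1 - z)) + ((6 * g + 1 / (y * (1 - z)) *
        Xb L n (2 * K0) (P.η (P.mt - 1)) C er (1 - y) (2 * (1 - y))) +
        1 / (y * (1 - z)) * (8 * (1 - y) ^ 3 * (n * (2 * (P.η (P.mt - 1) : ℝ) + 1) ^ 3)) *
          (n * (L : ℝ) ^ 3) + (n * (2 * d + 1) ^ 3 : ℕ) / K0) * (n * (L : ℝ) ^ 3)) *
        EE ex ey p0 (Top.bt z) (fun _ _ => 1) + n * (L : ℝ) ^ 3 * (2 * δ) := by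
  classical
  have z0 : 0 ≤ z := ((hy.trans hyy).trans_le hyz).le
  have y1 : y' < 1 := hyz.trans_lt hz
  have m0 : 0 < 1 - y := sub_pos.2 (hyy.trans y1)
  have a0 : 0 ≤ 1 / (y * (1 - z)) := by have := sub_pos.2 hz; positivity
  have hb : Fld (Top.bt z : Fin T × (Tor 3 L × Fin n) → ℝ) :=
    ⟨fun v => ⟨Top.bt_nonneg z0 v, bt_le_one hz.le v⟩, fun x => by simpa [Top.bt] using hz⟩
  have cd : (Fintype.card (Tor 3 L × Fin n) : ℝ) = n * (L : ℝ) ^ 3 := by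
    rw [Fintype.card_prod, card_Tor, Fintype.card_fin]; push_cast; ring
  have := arc_red ex ey hp hb hK0 (Nb := n * (2 * d + 1) ^ 3) (fun r x => tdist x.1 r.1 < d)
    (fun r => ?_) (fun r O p => ∃ V, V P.mt = ∅ ∧ Geom ex ey p O P V (w * E) j A ∧
      Data3 ex ey p0 (b0 y') O E w κ P V j A l r3 ∧ Clean P V r.1 m1 d)
    (fun r ξ ω => ¬ Good ex ey p0 E w P j A l r3 ξ (rd ω) (U ξ (rd ω)) ∨
      ¬ Clean P (U ξ (rd ω)) r.1 m1 d) a0
    (e1 := 6 * g + 1 / (y * (1 - z)) * Xb L n (2 * K0) (P.η (P.mt - 1)) C er (1 - y) (2 * (1 - y)))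
    (e := 1 / (y * (1 - z)) * (8 * (1 - y) ^ 3 * (n * (2 * (P.η (P.mt - 1) : ℝ) + 1) ^ 3)))
    (by unfold Xb; positivity) (by positivity)
    (fun r k hk ξ ω hi hr hl hn ⟨V, top, hG, D3, hcl⟩ => ?_)
    fun r k ξ ω ω' hi hi' hl hs hB => ?_
  · rw [cd] at this
    refine this.trans (add_le_add_right ?_ _)
    rw [← cd, ← nsmul_eq_mul, ← card_univ, ← sum_const]
    refine sum_le_sum fun r _ => ?_
    rw [two_mul]
    refine le_trans ?_ (add_le_add hW (hW' r.1))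
    rw [← sum_WR, ← sum_WR, ← sum_add_distrib]
    refine sum_le_sum fun ξ _ => ?_
    rw [← sum_add_distrib]
    refine sum_le_sum fun ω _ => ?_
    rw [← mul_add]
    refine mul_le_mul_of_nonneg_left ?_ (nuw_nonneg ex ey hp hb ξ ω)
    split_ifs <;> first | tauto | norm_num
  · have := card_near (n := n) r.1 d
    refine le_trans (card_le_card fun x hx => ?_) (Nat.cast_le (α := ℝ).1 (this.trans_eq ?_))
    · simp only [mem_filter, mem_univ, true_and] at hx ⊢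
      rw [tdist_comm]; exact hx.le
    · push_cast; rfl
  · have η1 : 1 ≤ P.η (m1 - 1) := by
      have h1 := hG.ok.ρη (m1 - 1) (by omega)
      have h2 := one_le_tS
      unfold Scales.ρ at h1
      omega
    have hA := hG.hA.2.trans (eta_mono hG.ok (Nat.zero_le (m1 - 1)) (by omega))
    have hd : 0 < d := by omega
    have k0 : 0 < k := Nat.pos_of_ne_zero fun e => hn (by
      subst e; simpa [tip, arc_zero, tdist_self] using hd)
    have hc := cut_arc ex ey hp hi hr k0 hl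
    have hc' := Cut.mk hc.hp hc.red hc.fwd hc.bwd hc.hu hc.hR (hc.few.trans hk.le)
    have D := Data.mk (env_pin hnn y' (obs ex ey ω r k ξ) ξ) hC hG fine
    have y0 := (hy.trans hyy).le
    have G := (grn_inv (ex := ex) (ey := ey) hc.hp (kb_mem ⟨y0, y1⟩ (obs ex ey ω r k ξ))
      ⟨y0, y1⟩ ⟨0, kb_zero y0 _⟩ (0, tip ex ey r k ξ)).2
    have h3 := G1d_clean (v := (0, r)) (d := d / 2) G D D3 top hm1 hm1' (hcl.mono (by omega)) hK
      (hKη hG.ok) (by have := sub_pos.2 y1; positivity) (top_mass G (Nat.one_le_pow _ _ (by omega)))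
      (Or.inr rfl) ((Nat.div_le_self _ _).trans (not_lt.1 hn)) (by omega)
    rw [if_neg fun e => hn (by rw [← (Prod.mk.inj e).2, tdist_self]; exact hd),
      sub_zero] at h3
    have c0 : 0 ≤ Cg κ := by have := hC.hκ; unfold Cg; positivity
    have h4 := hc'.det hnn (hX _ _ _ V D top D3 hc.hp) C0 hy hyy hyz hz h2 ((h3.trans
      (mul_le_mul_of_nonneg_left (add_le_add_left (add_le_add (by push_cast; exact le_rfl)
        (cc_le η1 hA hdη)) _) c0)).trans hg) hg2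
    have e : gs ω = univ.filter fun w => ((0 : Fin T), w) ∉ rd ω :=
      filter_congr fun w _ => by simp [mem_rd]
    rw [zg_kill, e]
    exact h4
  · rw [not_or, not_not, not_not] at hB
    obtain ⟨h1, h2⟩ := hB.1.2 _ _ hs fun s y h => (ch_obs hi r k s y h).imp_right
      fun h => ⟨h.1, h.2.1, h.2.2.imp (@hs _) (@hs _)⟩
    exact ⟨_, hB.1.1, h1, h2 _ _ hP, hB.2⟩

end Crest.Agent.N337.ZM
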