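import Crest.Agent.N337.Top.BAlg
import Crest.Agent.N337.Top.BDefs

/-!
# Row 337, TOP (B), part 3: from exposures of chains to an `L²` bound on a time slice
-/

set_option autoImplicit false
set_option linter.unusedSectionVars false

namespace Crest.Agent.N337.ZM

open Finset Matrix Crest.MathPhysics.SpinModel Geo Free

section abs
variable {V : Type} [Fintype V] [DecidableEq V] {P : Matrix V V ℝ}

lemma Rch.seq {W : V → Prop} {w v : V} (h : Rch P W w v) (hw : W w) :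
    ∃ (N : ℕ) (e : ℕ → V), e 0 = w ∧ e N = v ∧ (∀ i ≤ N, W (e i)) ∧
      ∀ i < N, 0 < P (e i) (e (i + 1)) := by
  induction h with
  | refl => exact ⟨0, fun _ => w, rfl, rfl, fun _ _ => hw, fun _ h => absurd h (by omega)⟩
  | @tail a c _ hc ih =>
    obtain ⟨N, e, h0, h1, h2, h3⟩ := ih
    refine ⟨N + 1, fun i => if i ≤ N then e i else c, by simp [h0], by simp, fun i _ => ?_,
      fun i hi => ?_⟩
    · dsimp only; split_ifs with h; exacts [h2 i h, hc.2]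
    · dsimp only
      rw [if_pos (by omega)]
      split_ifs with h
      · exact h3 i h
      · rw [show i = N by omega, h1]; exact hc.1

/-- the two sided principle at one point. -/
lemma Tr.point (hP : Tr P) (hr : ∀ i, ∑ j, P i j ≤ 1) (hc : ∀ j, ∑ i, P i j ≤ 1) {F : V → ℝ}
    (F0 : ∀ v, 0 ≤ F v) (hsup : ∀ v, (P *ᵥ F) v ≤ F v) (Ok Nr : V → Prop) (B : Finset V)
    (hsub : ∀ v, Ok v → Nr v → F v ≤ (P *ᵥ F) v) (hB : ∀ v, Ok v → Nr v → v ∈ B)
    (hout : ∀ a c, 0 < P a c → Ok a → Nr c → Ok c) {w : V} (hw : Ok w) {c D : ℝ} (c0 : 0 ≤ c)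
    (D0 : 0 ≤ D) (exp : ∀ (N : ℕ) (e : ℕ → V), e 0 = w → (∀ i < N, 0 < P (e i) (e (i + 1))) →
      ¬ Nr (e N) → ∃ i ≤ N, |F (e i) - c| ≤ D) :
    (F w - c) ^ 2 ≤ 2 * D ^ 2 + 2 * c ^ 2 * (Gr P w w * ∑ v ∈ B, (1 - ∑ j, P v j)) := by
  have key : ∀ W : V → Prop, W w → (∀ v, W v → D < |F v - c|) → ∀ v, Rch P W w v →
      Ok v ∧ Nr v := fun W hW h => by
    have h1 : ∀ v, Rch P W w v → Nr v := fun v hv => by
      by_contra hn
      obtain ⟨N, e, h0, h1, h2, h3⟩ := hv.seq hW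
      obtain ⟨i, hi, h4⟩ := exp N e h0 h3 (h1 ▸ hn)
      exact absurd (h _ (h2 i hi)) (not_lt.2 h4)
    intro v hv
    refine ⟨?_, h1 v hv⟩
    induction hv with
    | refl => exact hw
    | tail ha hc ih => exact hout _ _ hc.1 ih (h1 _ (ha.tail hc))
  set t := Gr P w w * ∑ v ∈ B, (1 - ∑ j, P v j) with ht
  have t0 : 0 ≤ t := mul_nonneg (hP.nonneg w w) (sum_nonneg fun v _ => sub_nonneg.2 (hr v))
  have up : F w ≤ c + D := by
    by_contra! hn
    refine absurd (hP.upper hr (add_nonneg c0 D0) fun v hv => ?_) (not_le.2 hn)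
    have := key _ hn (fun v hv => lt_abs.2 (Or.inl (by linarith))) v hv
    exact hsub v this.1 this.2
  have lo : c - D - F w ≤ c * min 1 t := by
    have m0 : 0 ≤ c * min 1 t := mul_nonneg c0 (le_min zero_le_one t0)
    by_cases hn : F w < c - D
    swap
    · linarith [not_lt.1 hn]
    have h1 := hP.lower hr hc (by linarith [F0 w] : 0 ≤ c - D) hsup B fun v hv => by
      have := key _ hn (fun v hv => lt_abs.2 (Or.inr (by linarith))) v hv
      exact hB v this.1 this.2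
    rw [mul_assoc, ← ht] at h1
    rw [mul_min_of_nonneg _ _ c0]
    exact le_min (by linarith [F0 w]) (by nlinarith)
  have m1 : min 1 t ^ 2 ≤ t := by
    have := min_le_left 1 t
    have := min_le_right 1 t
    have := le_min zero_le_one t0
    nlinarith
  have m0 : 0 ≤ c * min 1 t := mul_nonneg c0 (le_min zero_le_one t0)
  calc (F w - c) ^ 2 ≤ (D + c * min 1 t) ^ 2 := sq_le_sq' (by linarith) (by linarith)
    _ ≤ 2 * D ^ 2 + 2 * c ^ 2 * min 1 t ^ 2 := by nlinarith [sq_nonneg (D - c * min 1 t)]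
    _ ≤ _ := by gcongr

end abs

variable {L n T : ℕ} [NeZero L] [NeZero T]

lemma card_near (x : Tor 3 L) (r : ℕ) :
    ((univ.filter fun z : Tor 3 L × Fin n => tdist x z.1 ≤ r).card : ℝ) ≤
      n * (2 * (r : ℝ) + 1) ^ 3 := by
  have : (univ.filter fun z : Tor 3 L × Fin n => tdist x z.1 ≤ r) = bl x r ×ˢ univ := by
    ext z; simp [mem_bl]
  have h := card_bl x r
  rw [this, card_product, card_univ, Fintype.card_fin]
  push_cast at h ⊢
  rw [mul_comm]
  exact mul_le_mul_of_nonneg_left h (Nat.cast_nonneg _)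

/-- the `L²` bound on the slice `0`. -/
theorem side {P : Matrix (Fin T × (Tor 3 L × Fin n)) (Fin T × (Tor 3 L × Fin n)) ℝ} (hP : Tr P)
    (hr : ∀ i, ∑ j, P i j ≤ 1) (hc : ∀ j, ∑ i, P i j ≤ 1)
    (O : Finset (Fin T × (Tor 3 L × Fin n))) {F : Fin T × (Tor 3 L × Fin n) → ℝ} {Γ c θ δ : ℝ}
    (F0 : ∀ v, 0 ≤ F v ∧ F v ≤ Γ) (c0 : 0 ≤ c ∧ c ≤ Γ) (θ0 : 0 ≤ θ) (δ0 : 0 ≤ δ)
    (st : Fin T × (Tor 3 L × Fin n)) (s0 : Fin T) (hsup : ∀ v, (P *ᵥ F) v ≤ F v)
    (hsub : ∀ v ∉ O, v ≠ st → F v ≤ (P *ᵥ F) v)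
    (hout : ∀ a c, 0 < P a c → a ∉ O → c ∉ O ∨ c = st)
    (hloss : ∀ v ∉ O, v ≠ st → 1 - ∑ j, P v j ≤ if v.1 = s0 then θ else 0)
    {loc : Tor 3 L → ℝ} (l0 : ∀ x, 0 ≤ loc x) (R : ℕ)
    (exp : ∀ (N : ℕ) (e : ℕ → Fin T × (Tor 3 L × Fin n)), e 0 ∉ O →
      (∀ i < N, 0 < P (e i) (e (i + 1))) → R < tdist (e 0).2.1 (e N).2.1 →
      ∃ i ≤ N, ∃ x, tdist (e 0).2.1 x ≤ 3 * R ∧ (F (e i) - c) ^ 2 ≤ loc x + δ)
    (S : Finset (Tor 3 L × Fin n)) {k : ℕ} (hk : (S.filter fun x => ((0 : Fin T), x) ∈ O).card ≤ k) :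
    ∑ x ∈ S, (F (0, x) - c) ^ 2 ≤ (k + n * (2 * (R : ℝ) + 1) ^ 3) * Γ ^ 2 +
      2 * n * (6 * (R : ℝ) + 1) ^ 3 * ∑ x, loc x + 2 * (n * (L : ℝ) ^ 3) * δ +
      2 * Γ ^ 2 * (θ * (n * (2 * (R : ℝ) + 1) ^ 3)) * ∑ x ∈ S, Gr P (0, x) (0, x) := by
  classical
  have Γ0 : 0 ≤ Γ := c0.1.trans c0.2
  have pt : ∀ x, (F (0, x) - c) ^ 2 ≤
      ((if ((0 : Fin T), x) ∈ O then Γ ^ 2 else 0) + if tdist st.2.1 x.1 ≤ R then Γ ^ 2 else 0) +
      (2 * ∑ y, (if tdist x.1 y ≤ 3 * R then loc y else 0) + 2 * δ +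
        2 * Γ ^ 2 * (θ * (n * (2 * (R : ℝ) + 1) ^ 3)) * Gr P (0, x) (0, x)) := by
    intro x
    have s0' : 0 ≤ ∑ y, (if tdist x.1 y ≤ 3 * R then loc y else 0) :=
      sum_nonneg fun y _ => by split_ifs; exacts [l0 y, le_rfl]
    have g0 := hP.nonneg (0, x) (0, x)
    have cr : (F (0, x) - c) ^ 2 ≤ Γ ^ 2 :=
      sq_le_sq' (by linarith [(F0 (0, x)).1, c0.2]) (by linarith [(F0 (0, x)).2, c0.1])
    have r0 : 0 ≤ 2 * ∑ y, (if tdist x.1 y ≤ 3 * R then loc y else 0) + 2 * δ +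
        2 * Γ ^ 2 * (θ * (n * (2 * (R : ℝ) + 1) ^ 3)) * Gr P (0, x) (0, x) := by positivity
    by_cases h1 : ((0 : Fin T), x) ∈ O
    · rw [if_pos h1]
      refine cr.trans (le_add_of_le_of_nonneg (le_add_of_nonneg_right ?_) r0)
      split_ifs; exacts [sq_nonneg _, le_rfl]
    by_cases h2 : tdist st.2.1 x.1 ≤ R
    · rw [if_neg h1, if_pos h2, zero_add]
      exact cr.trans (le_add_of_nonneg_right r0)
    have ne : ∀ v : Fin T × (Tor 3 L × Fin n), tdist x.1 v.2.1 ≤ R → v ≠ st := fun v hv e =>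
      h2 (by rw [← e, tdist_comm]; exact hv)
    have := hP.point hr hc (fun v => (F0 v).1) hsup (· ∉ O) (fun v => tdist x.1 v.2.1 ≤ R)
      (univ.filter fun v => v ∉ O ∧ tdist x.1 v.2.1 ≤ R) (fun v h h' => hsub v h (ne v h'))
      (fun v h h' => mem_filter.2 ⟨mem_univ _, h, h'⟩)
      (fun a c h h' h'' => (hout a c h h').resolve_right (ne c h'')) (w := (0, x)) h1 c0.1
      (Real.sqrt_nonneg (∑ y, (if tdist x.1 y ≤ 3 * R then loc y else 0) + δ))
      fun N e e0 e1 e2 => by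
        obtain ⟨i, hi, y, hy, h⟩ := exp N e (e0 ▸ h1) e1 (by rw [e0]; exact not_le.1 e2)
        refine ⟨i, hi, Real.abs_le_sqrt (h.trans (add_le_add_left ?_ _))⟩
        rw [e0] at hy
        refine le_trans (le_of_eq (if_pos hy).symm) (single_le_sum
          (f := fun y => if tdist x.1 y ≤ 3 * R then loc y else 0) (fun y _ => ?_) (mem_univ y))
        split_ifs; exacts [l0 y, le_rfl]
    rw [Real.sq_sqrt (add_nonneg s0' δ0)] at this
    rw [if_neg h1, if_neg h2, zero_add, zero_add]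
    have h3 : ∑ v ∈ univ.filter (fun v => v ∉ O ∧ tdist x.1 v.2.1 ≤ R), (1 - ∑ j, P v j) ≤
        θ * (n * (2 * (R : ℝ) + 1) ^ 3) := by
      refine (sum_le_sum (g := fun v => if v.1 = s0 then θ else 0) fun v hv =>
        hloss v (mem_filter.1 hv).2.1 (ne v (mem_filter.1 hv).2.2)).trans ?_
      rw [← sum_filter, sum_const, nsmul_eq_mul, mul_comm]
      refine mul_le_mul_of_nonneg_left (le_trans ?_ (card_near x.1 R)) θ0
      exact Nat.cast_le.2 (card_le_card_of_injOn (fun v => v.2)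
        (fun v hv => by simpa using (mem_filter.1 (mem_filter.1 hv).1).2.2)
        fun v hv v' hv' e => Prod.ext ((mem_filter.1 hv).2.trans (mem_filter.1 hv').2.symm) e)
    have h4 := mul_le_mul (pow_le_pow_left₀ c0.1 c0.2 2) (mul_le_mul_of_nonneg_left h3 g0)
      (mul_nonneg g0 (sum_nonneg fun v _ => sub_nonneg.2 (hr v))) (sq_nonneg _)
    linarith
  refine (sum_le_sum fun x _ => pt x).trans ?_
  simp only [sum_add_distrib, ← mul_sum, ← sum_filter, sum_const, nsmul_eq_mul]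
  have a1 : ((S.filter fun x => ((0 : Fin T), x) ∈ O).card : ℝ) ≤ k := Nat.cast_le.2 hk
  have a2 : ((S.filter fun x => tdist st.2.1 x.1 ≤ R).card : ℝ) ≤ n * (2 * (R : ℝ) + 1) ^ 3 :=
    le_trans (Nat.cast_le.2 (card_le_card (filter_subset_filter _ (subset_univ _))))
      (card_near _ R)
  have a3 : (S.card : ℝ) ≤ n * (L : ℝ) ^ 3 := by
    have := card_le_univ S
    rw [Fintype.card_prod, card_Tor, Fintype.card_fin, mul_comm] at this
    exact_mod_cast this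
  have a4 : ∑ x ∈ S, ∑ y ∈ univ.filter (fun y => tdist x.1 y ≤ 3 * R), loc y ≤
      n * (6 * (R : ℝ) + 1) ^ 3 * ∑ x, loc x := by
    simp only [sum_filter]
    rw [sum_comm, mul_sum]
    refine sum_le_sum fun y _ => ?_
    rw [← sum_filter, sum_const, nsmul_eq_mul]
    refine mul_le_mul_of_nonneg_right ?_ (l0 y)
    have := card_near (n := n) y (3 * R)
    push_cast at this
    refine le_trans (Nat.cast_le.2 (card_le_card fun x hx => ?_)) (this.trans_eq (by ring))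
    exact mem_filter.2 ⟨mem_univ _, by rw [tdist_comm]; exact (mem_filter.1 hx).2⟩
  have b1 := mul_le_mul_of_nonneg_right a1 (sq_nonneg Γ)
  have b2 := mul_le_mul_of_nonneg_right a2 (sq_nonneg Γ)
  have b3 := mul_le_mul_of_nonneg_right a3 δ0
  linarith

end Crest.Agent.N337.ZM
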