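import Crest.Agent.N337.Top.BDefs

/-!
# Row 337, TOP (B), test slots (helper5), part 0: torus Poincaré, constants, static slots
-/

set_option autoImplicit false

namespace Crest.Agent.N337.ZM.BT

open Finset Crest.MathPhysics.SpinModel Geo Free KV G1

theorem tele (f : ℕ → ℝ) (k : ℕ) :
    (f k - f 0) ^ 2 ≤ k * ∑ i ∈ range k, (f (i + 1) - f i) ^ 2 := by
  rw [← sum_range_sub]
  simpa using sq_sum_le_card_mul_sum_sq (s := range k) (f := fun i => f (i + 1) - f i)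

theorem mult {G : Type} [AddCommGroup G] [Fintype G] (f : G → ℝ) (e : G) (k : ℕ) :
    ∑ x, (f (x + k • e) - f x) ^ 2 ≤ (k : ℝ) ^ 2 * ∑ x, (f (x + e) - f x) ^ 2 := by
  have h1 : ∑ x, (f (x + k • e) - f x) ^ 2 ≤
      ∑ x : G, (k : ℝ) * ∑ i ∈ range k, (f (x + i • e + e) - f (x + i • e)) ^ 2 :=
    sum_le_sum fun x _ => by
      simpa only [succ_nsmul, ← add_assoc, zero_smul, add_zero] using tele (fun i => f (x + i • e)) k
  have h2 : ∀ i ∈ range k, ∑ x, (f (x + i • e + e) - f (x + i • e)) ^ 2 =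
      ∑ x, (f (x + e) - f x) ^ 2 := fun i _ =>
    Equiv.sum_comp (Equiv.addRight (i • e)) fun x => (f (x + e) - f x) ^ 2
  rwa [← mul_sum, sum_comm, sum_congr rfl h2, sum_const, card_range, nsmul_eq_mul, ← mul_assoc,
    ← sq] at h1

section tor
variable {L : ℕ} [NeZero L]

theorem shift (F : Tor 3 L → ℝ) (v : Tor 3 L) : ∑ x, F (x + v) = ∑ x, F x :=
  Equiv.sum_comp (Equiv.addRight v) F

theorem axis (f : Tor 3 L → ℝ) (a : Fin 3) :
    ∑ x, (f (x + Pi.single a 1) - f x) ^ 2 ≤ ∑ x, ∑ y, Jn L x y * (f x - f y) ^ 2 := by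
  refine sum_le_sum fun x _ => le_trans ?_ (single_le_sum
    (f := fun y => Jn L x y * (f x - f y) ^ 2)
    (fun y _ => mul_nonneg (Cu.Jn_nonneg x y) (sq_nonneg _)) (mem_univ (x + Pi.single a 1)))
  have h := Cu.one_le_J x (u := Pi.single a 1) (by
    fin_cases a <;> simp [Fin.sum_univ_three])
  have e : tcast L (Pi.single a 1 : Fin 3 → ℤ) = Pi.single a 1 := by
    funext i; by_cases hi : i = a <;> simp [tcast, hi]
  rw [e] at h
  rw [sub_sq_comm]
  exact le_mul_of_one_le_left (sq_nonneg _) h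

theorem line (f : Tor 3 L → ℝ) (a : Fin 3) (t : ZMod L) :
    ∑ x, (f (x + Pi.single a t) - f x) ^ 2 ≤
      (L : ℝ) ^ 2 * ∑ x, ∑ y, Jn L x y * (f x - f y) ^ 2 := by
  have e : (Pi.single a t : Tor 3 L) = t.val • Pi.single a 1 := by
    rw [← Pi.single_smul]; simp
  have : (t.val : ℝ) ≤ L := by exact_mod_cast t.val_lt.le
  rw [e]
  exact (mult f _ _).trans (mul_le_mul (pow_le_pow_left₀ (Nat.cast_nonneg _) this 2) (axis f a)
    (sum_nonneg fun _ _ => sq_nonneg _) (sq_nonneg _))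

theorem poincare (f : Tor 3 L → ℝ) :
    ∃ m, ∑ x, (f x - m) ^ 2 ≤ 9 * (L : ℝ) ^ 2 * ∑ x, ∑ y, Jn L x y * (f x - f y) ^ 2 := by
  generalize hE : (L : ℝ) ^ 2 * ∑ x, ∑ y, Jn L x y * (f x - f y) ^ 2 = E
  have h1 : ∀ v : Tor 3 L, ∑ x, (f (x + v) - f x) ^ 2 ≤ 9 * E := fun v => by
    have e : ∀ x : Tor 3 L, x + v =
        x + Pi.single 0 (v 0) + Pi.single 1 (v 1) + Pi.single 2 (v 2) := fun x => by
      funext i; fin_cases i <;> simp
    have l0 := line f 0 (v 0)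
    have l1 := line f 1 (v 1)
    have l2 := line f 2 (v 2)
    rw [← shift _ (Pi.single 0 (v 0))] at l1
    rw [← shift _ (Pi.single 1 (v 1)), ← shift _ (Pi.single 0 (v 0))] at l2
    rw [hE] at l0 l1 l2
    refine le_trans ?_ ((mul_le_mul_of_nonneg_left (add_le_add (add_le_add l0 l1) l2)
      zero_le_three).trans_eq (by ring))
    rw [← sum_add_distrib, ← sum_add_distrib, mul_sum]
    refine sum_le_sum fun x _ => ?_
    rw [e x]
    generalize f (x + Pi.single 0 (v 0) + Pi.single 1 (v 1) + Pi.single 2 (v 2)) = d,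
      f (x + Pi.single 0 (v 0) + Pi.single 1 (v 1)) = c, f (x + Pi.single 0 (v 0)) = b, f x = a
    nlinarith [sq_nonneg (d - 2 * c + b), sq_nonneg (c - 2 * b + a), sq_nonneg (d - c - b + a)]
  have h2 : ∑ y, ∑ x, (f x - f y) ^ 2 ≤ ∑ _y : Tor 3 L, 9 * E := by
    refine le_trans (le_of_eq ?_) (sum_le_sum fun v _ => h1 v)
    rw [sum_comm (f := fun v x => (f (x + v) - f x) ^ 2)]
    exact sum_congr rfl fun y _ => by
      rw [← Equiv.sum_comp (Equiv.addLeft y) fun x => (f x - f y) ^ 2]; rfl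
  obtain ⟨y, -, hy⟩ := Finset.exists_le_of_sum_le univ_nonempty h2
  exact ⟨f y, by rwa [mul_assoc, hE]⟩

omit [NeZero L] in
/-- comparing two constants on a set of positive density. -/
theorem cmp {S G G' : Finset (Tor 3 L)} {f f' : Tor 3 L → ℝ} {m m' a a' δ : ℝ} (v : Tor 3 L)
    (hS : (L : ℝ) ^ 3 ≤ 3 * S.card) (h : S ⊆ G) (h' : ∀ x ∈ S, x + v ∈ G')
    (e : ∑ x ∈ G, (f x - m) ^ 2 ≤ a) (e' : ∑ x ∈ G', (f' x - m') ^ 2 ≤ a')
    (d : ∑ x ∈ S, (f x - f' (x + v)) ^ 2 ≤ δ) : (L : ℝ) ^ 3 * (m - m') ^ 2 ≤ 9 * (a + a' + δ) := by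
  have e1 := (sum_le_sum_of_subset_of_nonneg h fun _ _ _ => sq_nonneg _).trans e
  have e2 : ∑ x ∈ S, (f' (x + v) - m') ^ 2 ≤ a' := by
    rw [← sum_image (s := S) (g := (· + v)) (f := fun x => (f' x - m') ^ 2)
      fun x _ y _ h => add_right_cancel h]
    exact (sum_le_sum_of_subset_of_nonneg (image_subset_iff.2 h') fun _ _ _ => sq_nonneg _).trans e'
  have e3 : ∑ _x ∈ S, (m - m') ^ 2 ≤
      ∑ x ∈ S, 3 * ((f x - m) ^ 2 + (f' (x + v) - m') ^ 2 + (f x - f' (x + v)) ^ 2) :=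
    sum_le_sum fun x _ => by
      generalize f x = s, f' (x + v) = t
      nlinarith [sq_nonneg (s - m + (t - m')), sq_nonneg (s - m + (s - t)),
        sq_nonneg (t - m' - (s - t))]
  rw [sum_const, nsmul_eq_mul, ← mul_sum, sum_add_distrib, sum_add_distrib] at e3
  nlinarith [sq_nonneg (m - m')]

/-- sets with few points in every ball are small. -/
theorem sparse {X : Finset (Tor 3 L)} {r N : ℕ} (hr : 2 * r < L)
    (h : ∀ x0 ∈ X, (X.filter fun x => tdist x0 x ≤ 2 * r).card ≤ N) :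
    X.card * (2 * r + 1) ^ 3 ≤ L ^ 3 * N := by
  rw [← card_Tor (d := 3) (L := L), ← card_univ]
  refine card_mul_le_card_mul (fun x y => tdist x y ≤ r) (fun x _ => ?_) fun y _ => ?_
  · rw [← card_bl_eq x hr]
    exact card_le_card fun y hy => by rw [mem_bipartiteAbove]; exact ⟨mem_univ _, mem_bl.1 hy⟩
  · rcases (bipartiteBelow (fun x y => tdist x y ≤ r) X y).eq_empty_or_nonempty with e | ⟨x0, h0⟩
    · simp [e]
    rw [mem_bipartiteBelow] at h0
    refine le_trans (card_le_card fun x hx => ?_) (h x0 h0.1)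
    rw [mem_bipartiteBelow] at hx
    have := tdist_triangle x0 y x
    have := tdist_comm x y
    exact mem_filter.2 ⟨hx.1, by omega⟩

end tor

theorem chainc {m : ℕ → ℝ} {V δ : ℝ} (hV : 0 ≤ V) {t B : ℕ} (ht : t < B)
    (h : ∀ i, i + 1 < B → V * (m i - m (i + 1)) ^ 2 ≤ δ) (hδ : 0 ≤ δ) :
    V * (m t - m 0) ^ 2 ≤ B ^ 2 * δ := by
  refine (mul_le_mul_of_nonneg_left (tele m t) hV).trans ?_
  rw [mul_left_comm, mul_sum]
  have h1 : ∑ i ∈ range t, V * (m (i + 1) - m i) ^ 2 ≤ ∑ _i ∈ range t, δ :=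
    sum_le_sum fun i hi => by rw [sub_sq_comm]; exact h i (by have := mem_range.1 hi; omega)
  rw [sum_const, card_range, nsmul_eq_mul] at h1
  have : (t : ℝ) ≤ B := by exact_mod_cast ht.le
  calc _ ≤ t * (t * δ) := by gcongr
    _ ≤ B * (B * δ) := by gcongr
    _ = _ := by ring

section dyn
variable {L : ℕ} [NeZero L] {n T : ℕ} [NeZero T] {ex ey : Fin T → Tor 3 L × Fin n}
  {p p0 c0 : Fin T → ℝ} {b φ : Fin T × (Tor 3 L × Fin n) → ℝ} {γ : Fin T → ℝ} {Γ κ : ℝ}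
  {O : Finset (Fin T × (Tor 3 L × Fin n))}

omit [NeZero L] in
theorem _root_.Crest.Agent.N337.ZM.Lip.tel (H : Lip ex ey p O φ γ Γ) (z : Tor 3 L × Fin n)
    {k1 k2 : ℕ} (h : k1 ≤ k2) (h0 : ∀ k ∈ Ico k1 k2, tm T (k + 1) ≠ 0 ∧ (tm T (k + 1), z) ∉ O) :
    |φ (tm T k2, z) - φ (tm T k1, z)| ≤
      ∑ k ∈ Ico k1 k2, (if z = ex (tm T k) ∨ z = ey (tm T k) then p (tm T k) else 0) * γ (tm T k) := by
  induction h with
  | refl => simp
  | @step k2 h ih =>
    have h1 := h0 k2 (mem_Ico.2 ⟨h, Nat.lt_succ_self _⟩)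
    rw [tm_succ] at h1
    rw [Nat.succ_eq_add_one, sum_Ico_succ_top h, tm_succ]
    exact (abs_sub_le _ _ _).trans ((add_comm _ _).trans_le (add_le_add
      (ih fun k hk => h0 k (Ico_subset_Ico_right (Nat.le_succ _) hk)) (H.step _ z h1.1 h1.2)))

/-- a slot far from `O` during `[k1, k2]` hardly moves. -/
theorem static (hE : Env ex ey p p0 b c0 O ∅) (hp0 : ∀ s, 0 ≤ p0 s ∧ p0 s ≤ 1 / 2)
    (hp : ∀ s, 0 ≤ p s ∧ p s ≤ 1) (H : Lip ex ey p O φ γ Γ) (z : Tor 3 L × Fin n) {k1 k2 : ℕ}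
    (h : k1 ≤ k2) (hT : k2 ≤ k1 + T) (h0 : ∀ k ∈ Ico k1 k2, tm T (k + 1) ≠ 0)
    (far : ∀ k ∈ Icc k1 k2, ∀ y, (tm T k, y) ∈ O → 1 < tdist z.1 y.1)
    (rate : ∑ k ∈ Ico k1 k2, tch ex ey p0 z k ≤ κ) :
    (φ (tm T k2, z) - φ (tm T k1, z)) ^ 2 ≤
      2 * κ * ∑ s, if z = ex s ∨ z = ey s then p s * (1 - p s) * γ s ^ 2 else 0 := by
  have key : ∀ k ∈ Ico k1 k2, z = ex (tm T k) ∨ z = ey (tm T k) →
      p (tm T k) ≤ p0 (tm T k) := fun k hk e => by
    by_cases e0 : p (tm T k) = 0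
    · rw [e0]; exact (hp0 _).1
    have n1 := hE.nn _ e0
    have fr := far k (Ico_subset_Icc_self hk)
    have := tdist_comm (ex (tm T k)).1 (ey (tm T k)).1
    have := tdist_self (ex (tm T k)).1
    have := tdist_self (ey (tm T k)).1
    refine ((hE.free _ (fun h => ?_) fun h => ?_).resolve_right (by simp)).le <;>
      have := fr _ h <;> rcases e with e | e <;> rw [e] at this <;> omega
  have G0 : ∀ s, 0 ≤ if z = ex s ∨ z = ey s then p s * (1 - p s) * γ s ^ 2 else 0 := fun s => by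
    split_ifs
    exacts [mul_nonneg (mul_nonneg (hp s).1 (sub_nonneg.2 (hp s).2)) (sq_nonneg _), le_rfl]
  have h1 := H.tel z h fun k hk => ⟨h0 k hk, fun e => by
    have := far (k + 1) (by rw [mem_Ico] at hk; rw [mem_Icc]; omega) z e
    rw [tdist_self] at this; omega⟩
  refine (sq_le_sq' (abs_le.1 h1).1 (abs_le.1 h1).2).trans
    ((sum_sq_le_sum_mul_sum_of_sq_le_mul _ (f := tch ex ey p0 z) (g := fun k => 2 *
      if z = ex (tm T k) ∨ z = ey (tm T k) then p (tm T k) * (1 - p (tm T k)) * γ (tm T k) ^ 2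
      else 0) (fun k _ => (Cr.tch_bd hp0 z k).1) (fun k _ => mul_nonneg zero_le_two (G0 _))
      fun k hk => ?_).trans ?_)
  · unfold tch
    split_ifs with e
    · have := key k hk e
      have := hp0 (tm T k)
      have := (hp (tm T k)).1
      generalize p (tm T k) = x, p0 (tm T k) = y, γ (tm T k) = g at *
      have : x * (x * g ^ 2) ≤ y * (2 * (1 - x)) * (x * g ^ 2) :=
        mul_le_mul_of_nonneg_right (by nlinarith) (by positivity)
      nlinarith
    · simp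
  · rw [← mul_sum, mul_left_comm, ← mul_assoc]
    refine mul_le_mul (by linarith) ?_ (sum_nonneg fun _ _ => G0 _)
      (mul_nonneg zero_le_two ((sum_nonneg fun k _ => (Cr.tch_bd hp0 z k).1).trans rate))
    rw [← sum_image (s := Ico k1 k2) (g := tm T)
      (f := fun s => if z = ex s ∨ z = ey s then p s * (1 - p s) * γ s ^ 2 else 0) fun a ha c hc e => by
        rw [coe_Ico, Set.mem_Ico] at ha hc
        have := (tm_add_inj (T := T) k1 (a := a - k1) (b := c - k1) (by omega) (by omega)).1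
          (by rwa [Nat.add_sub_cancel' ha.1, Nat.add_sub_cancel' hc.1])
        omega]
    exact sum_le_sum_of_subset_of_nonneg (subset_univ _) fun _ _ _ => G0 _

end dyn

end Crest.Agent.N337.ZM.BT
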