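import Crest.Agent.N337.Top.BTest0

/-!
# Row 337, TOP (B), test slots (helper5), part 1: one layer, one sweep, exceptional sites
-/

set_option autoImplicit false

namespace Crest.Agent.N337.ZM.BT

open Finset Crest.MathPhysics.SpinModel Geo Free KV G1 G1.Ex

variable {L : ℕ} [NeZero L] {n T : ℕ} [NeZero T] {ex ey : Fin T → Tor 3 L × Fin n}
  {p p0 c0 : Fin T → ℝ} {b φ : Fin T × (Tor 3 L × Fin n) → ℝ} {γ : Fin T → ℝ} {Γ q κ : ℝ}
  {O : Finset (Fin T × (Tor 3 L × Fin n))} {E w B D : ℕ} {Bd : Finset ℕ} {P : Scales}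
  {U : ℕ → Finset (Tor 3 L)} {j A : ℕ}

omit [NeZero L] in
theorem eta_mono (hP : P.Ok L) {m : ℕ} (hm : m < P.mt) : P.η 0 ≤ P.η m := by
  induction m with
  | zero => exact le_rfl
  | succ m ih =>
    have h1 := hP.grow m hm
    have h2 := ih (by omega)
    nlinarith [Nat.zero_le (P.a (m + 1) * (2 * (P.σ (m + 1) + P.ρ (m + 1)) + 2 * P.η m + 1))]

theorem En0 (R : Finset (Tor 3 L)) (ψ : Tor 3 L → ℝ) : 0 ≤ En (Jn L) R 1 ψ :=
  sum_nonneg fun x _ => sum_nonneg fun y _ => by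
    split_ifs
    exacts [div_nonneg (mul_nonneg (Cu.Jn_nonneg x y) (sq_nonneg _)) (by simp), le_rfl]

/-- Poincaré on the good set of a filling. -/
theorem fillP {R Good : Finset (Tor 3 L)} {wt ψ : Tor 3 L → ℝ} {K : ℝ}
    (hS : St (Jn L) R ∅ Good wt) (hK : ∀ x, wt x ≤ K) (hψ : ∀ x, 0 ≤ ψ x) :
    ∃ m, ∑ x ∈ Good, (ψ x - m) ^ 2 ≤ 9 * (L : ℝ) ^ 2 * K * En (Jn L) R 1 ψ := by
  obtain ⟨Φ, -, h1, h2, -⟩ := hS.2 ψ hψ
  obtain ⟨m, hm⟩ := poincare Φ
  have K0 : 0 ≤ K := zero_le_one.trans ((hS.1 0).trans (hK 0))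
  refine ⟨m, (sum_congr rfl fun x hx => by rw [h1 x hx]).symm.trans_le
    ((sum_le_sum_of_subset_of_nonneg (subset_univ _) fun _ _ _ => sq_nonneg _).trans
      (hm.trans ?_))⟩
  rw [mul_assoc _ K]
  refine mul_le_mul_of_nonneg_left (le_trans ?_ (mul_le_mul_of_nonneg_left h2 K0)) (by positivity)
  simp only [En, mul_sum, notMem_empty, not_false_eq_true, and_self, if_true]
  refine sum_le_sum fun x _ => sum_le_sum fun y _ => ?_
  have h3 : 0 < max (wt x) (wt y) := lt_max_of_lt_left (by linarith [hS.1 x])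
  rw [← mul_div_assoc, le_div_iff₀ h3, mul_comm K]
  exact mul_le_mul_of_nonneg_left (max_le (hK x) (hK y))
    (mul_nonneg (Cu.Jn_nonneg x y) (sq_nonneg _))

theorem ballsum {h : Tor 3 L → ℝ} (h0 : ∀ x, 0 ≤ h x) (S : Finset (Tor 3 L)) (A : ℕ) :
    ∑ z ∈ S, ∑ x ∈ bl z A, h x ≤ (2 * (A : ℝ) + 1) ^ 3 * ∑ x, h x := by
  refine (sum_le_sum_of_subset_of_nonneg (subset_univ S) fun _ _ _ =>
    sum_nonneg fun x _ => h0 x).trans ?_
  rw [sum_comm' (t' := univ) (s' := fun x => bl x A) fun z x => by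
    simp only [mem_univ, true_and, and_true, mem_bl, tdist_comm z x], mul_sum]
  refine sum_le_sum fun x _ => ?_
  rw [sum_const, nsmul_eq_mul]
  exact mul_le_mul_of_nonneg_right (by exact_mod_cast card_bl x A) (h0 x)

/-- sites with a free ray to the good set. -/
theorem raysum {R Good S : Finset (Tor 3 L)} (ψ : Tor 3 L → ℝ) (m : ℝ) {A : ℕ}
    (h : ∀ z ∈ S, ∃ (e : ℕ → Tor 3 L) (t : ℕ), t ≤ A ∧ e 0 = z ∧
      (∀ i ≤ A, e i ∉ R ∧ tdist z (e i) = i) ∧ (∀ i, 1 ≤ Jn L (e i) (e (i + 1))) ∧ e t ∈ Good) :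
    ∑ z ∈ S, (ψ z - m) ^ 2 ≤ 2 * (2 * (A : ℝ) + 1) ^ 3 *
      ((A : ℝ) ^ 2 * En (Jn L) R 1 ψ + ∑ x ∈ Good, (ψ x - m) ^ 2) := by
  obtain ⟨f, hf⟩ : ∃ f : Tor 3 L → Tor 3 L → ℝ, ∀ x y, f x y =
    if x ∉ R ∧ y ∉ R then Jn L x y * (ψ x - ψ y) ^ 2 else 0 := ⟨_, fun _ _ => rfl⟩
  have f0 : ∀ x y, 0 ≤ f x y := fun x y => by
    rw [hf]; split_ifs; exacts [mul_nonneg (Cu.Jn_nonneg x y) (sq_nonneg _), le_rfl]
  have g0 : ∀ x, 0 ≤ if x ∈ Good then (ψ x - m) ^ 2 else 0 := fun x => by positivity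
  have h1 := ballsum (fun x => add_nonneg (mul_nonneg (sq_nonneg (A : ℝ))
    (sum_nonneg fun y (_ : y ∈ univ) => f0 x y)) (g0 x)) S A
  rw [sum_add_distrib (s := univ), ← mul_sum, ← sum_filter, filter_mem_eq_inter, univ_inter,
    show ∑ x, ∑ y, f x y = En (Jn L) R 1 ψ by simp [En, hf]] at h1
  rw [mul_assoc]
  refine le_trans ?_ (mul_le_mul_of_nonneg_left h1 zero_le_two)
  rw [mul_sum]
  refine sum_le_sum fun z hz => ?_
  obtain ⟨e, t, ht, e0, eU, eJ, eG⟩ := h z hz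
  have hb : ∀ i ≤ A, e i ∈ bl z A := fun i hi => mem_bl.2 ((eU i hi).2.trans_le hi)
  have F0 : 0 ≤ ∑ x ∈ bl z A, ∑ y, f x y := sum_nonneg fun x _ => sum_nonneg fun y _ => f0 x y
  have a1 : ∀ i ∈ range t, (ψ (e (i + 1)) - ψ (e i)) ^ 2 ≤ ∑ x ∈ bl z A, ∑ y, f x y := fun i hi => by
    have hi := mem_range.1 hi
    refine le_trans ?_ ((single_le_sum (fun y _ => f0 (e i) y) (mem_univ (e (i + 1)))).trans
      (single_le_sum (f := fun x => ∑ y, f x y) (fun x _ => sum_nonneg fun y _ => f0 x y)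
        (hb i (by omega))))
    rw [hf, if_pos ⟨(eU i (by omega)).1, (eU (i + 1) (by omega)).1⟩, sub_sq_comm]
    exact le_mul_of_one_le_left (sq_nonneg _) (eJ i)
  have a2 := (tele (fun i => ψ (e i)) t).trans
    (mul_le_mul_of_nonneg_left (sum_le_sum a1) (Nat.cast_nonneg t))
  have a3 := single_le_sum (fun x _ => g0 x) (hb t ht)
  rw [if_pos eG] at a3
  rw [sum_const, card_range, nsmul_eq_mul, ← mul_assoc, ← sq, e0] at a2
  have a4 := mul_le_mul_of_nonneg_right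
    (pow_le_pow_left₀ (Nat.cast_nonneg t) ((Nat.cast_le (α := ℝ)).2 ht) 2) F0
  rw [sum_add_distrib, ← mul_sum]
  nlinarith [sq_nonneg (ψ z - 2 * ψ (e t) + m)]

open Classical in
/-- one layer at one time. -/
theorem layer (hG : Geom ex ey p O P U D j A) (top : U P.mt = ∅) (hL : 100 ≤ L) (k : ℕ)
    (c : Fin n) (ψ : Tor 3 L → ℝ) (hψ : ∀ x, 0 ≤ ψ x) :
    ∃ (G : Finset (Tor 3 L)) (m : ℝ),
      (∀ x ∈ G, x ∉ U0 ex ey p O P D j (tm T k) c ∧ x ∉ U 1) ∧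
      100 * (Gᶜ.card : ℝ) ≤ 26 * (L : ℝ) ^ 3 ∧
      ∑ x ∈ G, (ψ x - m) ^ 2 ≤ 1000 * ((L : ℝ) ^ 2 * (P.K (P.mt - 1) * P.η (P.mt - 1)) ^ 4) *
        En (Jn L) (U0 ex ey p O P D j (tm T k) c) 1 ψ ∧
      ∑ x ∈ univ.filter fun x => Tst O P U A k (x, c), (ψ x - m) ^ 2 ≤
        1000 * ((L : ℝ) ^ 2 * (P.K (P.mt - 1) * P.η (P.mt - 1)) ^ 4) *
          En (Jn L) (U0 ex ey p O P D j (tm T k) c) 1 ψ := by
  have hP := hG.ok
  have pos := hP.pos
  obtain ⟨V, Good, wt, hV, hSt, hGood, hwt⟩ := VV_fill hG (tm T k) c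
  rw [top, subset_empty] at hV
  subst hV
  have K1 := one_le_K P (P.mt - 1)
  obtain ⟨m, hm⟩ := fillP hSt (K := P.K (P.mt - 1)) (fun x => (hwt x).elim (fun e => e ▸ K1)
    fun ⟨m, m1, _, e⟩ => e.trans (K_mono P (by omega))) hψ
  have η1 : (1 : ℝ) ≤ P.η (P.mt - 1) := by
    have := tS_le hP; have := one_le_tS; have := eta_mono hP (m := P.mt - 1) (by omega)
    exact_mod_cast (by omega : 1 ≤ P.η (P.mt - 1))
  have hm' := hm.trans (mul_le_mul_of_nonneg_right (show 9 * (L : ℝ) ^ 2 * P.K (P.mt - 1) ≤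
      1000 * ((L : ℝ) ^ 2 * (P.K (P.mt - 1) * P.η (P.mt - 1)) ^ 4) by
    have h1 : P.K (P.mt - 1) ≤ P.K (P.mt - 1) * P.η (P.mt - 1) := le_mul_of_one_le_right (by linarith) η1
    have h2 := h1.trans (le_self_pow₀ (K1.trans h1) four_ne_zero)
    have h3 := mul_le_mul_of_nonneg_left h2 (sq_nonneg (L : ℝ))
    have h4 : 0 ≤ (L : ℝ) ^ 2 * P.K (P.mt - 1) := by positivity
    linarith) (En0 _ ψ))
  have htop : VV ex ey p O P U D j (tm T k) c P.mt = ∅ := by rw [VV_pos pos, top]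
  refine ⟨univ.filter fun x => ∀ l < P.mt, x ∉ Fm P (VV ex ey p O P U D j (tm T k) c) l, m,
    fun x hx => ?_, ?_, le_trans (sum_le_sum_of_subset_of_nonneg (fun x hx => ?_)
      fun _ _ _ => sq_nonneg _) hm', (raysum (R := U0 ex ey p O P D j (tm T k) c) (Good := Good)
      (A := A) ψ m fun z hz => ?_).trans ?_⟩
  · have h := (mem_filter.1 hx).2
    rw [← VV_zero (U := U), ← VV_pos (ex := ex) (ey := ey) (p := p) (R := O) (P := P) (D := D)
      (j := j) (s := tm T k) (c := c) (U := U) le_rfl]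
    exact ⟨not_mem_U htop (Nat.zero_le _) fun l _ => h l, not_mem_U htop pos fun l _ => h l⟩
  · have h1 := fm_sum hP (fun m hm => VV_cov (s := tm T k) (c := c) hG hm) 0 (L / 2) (range P.mt)
      fun m hm => ⟨mem_range.1 hm, Or.inl (by have := hP.ηL m (mem_range.1 hm); omega)⟩
    generalize VV ex ey p O P U D j (tm T k) c = V at h1
    have h2 : ((univ.filter fun x => ∀ l < P.mt, x ∉ Fm P V l)ᶜ).card ≤
        ∑ m ∈ range P.mt, (Fm P V m ∩ bl 0 (L / 2)).card := by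
      refine le_trans (card_le_card fun x hx => ?_) card_biUnion_le
      simp only [mem_compl, mem_filter, mem_univ, true_and, not_forall, not_not] at hx
      obtain ⟨l, l1, l2⟩ := hx
      exact mem_biUnion.2 ⟨l, mem_range.2 l1, mem_inter.2 ⟨l2, mem_bl.2 (tdist_le_half _ _)⟩⟩
    have h3 := ((Nat.cast_le (α := ℝ)).2 h2).trans ((Nat.cast_sum _ _).trans_le ((sum_le_sum
      fun m _ => le_mul_of_one_le_left (Nat.cast_nonneg _) (one_le_K P m)).trans h1))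
    have h4 : (2 * ((L / 2 : ℕ) : ℝ) + 1) ≤ 1.01 * L := by
      have : ((2 * (L / 2) : ℕ) : ℝ) ≤ L := by exact_mod_cast Nat.mul_div_le L 2
      have : (100 : ℝ) ≤ L := by exact_mod_cast hL
      push_cast at *
      linarith
    have h5 := pow_le_pow_left₀ (by positivity) h4 3
    have h6 : (0 : ℝ) ≤ (L : ℝ) ^ 3 := by positivity
    rw [mul_pow] at h5
    norm_num at h5
    linarith
  · by_contra h
    obtain ⟨l, l1, l2⟩ := hGood x h
    exact (mem_filter.1 hx).2 l l1 l2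
  · obtain ⟨h1, h2, h3⟩ := (mem_filter.1 hz).2
    have h5 := h3 z (by simp [tdist_self])
    have h6 : z ∉ U 1 := not_mem_U' h5.1 pos h5.2
    obtain ⟨e, t, ht, e0, eU, eJ, eρ⟩ := ray (ρ := P.ρ 0) (fun e => h1 ((mem_U0.1 e).resolve_left
      (not_not.2 (hG.leaf z h6 z (by simp [tdist_self]))))) (U0_card (c := c) hG h6 h2) hG.hA.1
      (by have := hP.ηL 0 pos; have := hG.hA.2; omega)
    refine ⟨e, t, ht, e0, eU, eJ, by_contra fun h => ?_⟩
    obtain ⟨l, l1, l2⟩ := hGood _ h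
    rcases l.eq_zero_or_pos with rfl | l0
    · obtain ⟨v, v0, -, v1⟩ := mem_Fm.1 l2
      exact (eρ v (by rwa [VV_zero] at v0)).not_ge v1
    · exact (h3 _ ((eU t ht).2.trans_le ht)).2 l l0 l1 (by rwa [Fm_VV l0] at l2)
  · have E0 := En0 (U0 ex ey p O P D j (tm T k) c) ψ
    have a1 : (A : ℝ) ≤ P.η (P.mt - 1) := by
      exact_mod_cast hG.hA.2.trans (eta_mono hP (m := P.mt - 1) (by omega))
    have a2 : (A : ℝ) ≤ L := by
      have := hP.ηL 0 pos; have := hG.hA.2; exact_mod_cast (by omega : A ≤ L)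
    generalize En (Jn L) (U0 ex ey p O P D j (tm T k) c) 1 ψ = e, (P.η (P.mt - 1) : ℝ) = η,
      P.K (P.mt - 1) = K at *
    have a3 : K * η ^ 3 ≤ (K * η) ^ 4 := by
      rw [mul_pow]
      exact mul_le_mul (le_self_pow₀ K1 four_ne_zero) (pow_le_pow_right₀ η1 (by norm_num))
        (by positivity) (by positivity)
    have a4 : (L : ℝ) ^ 2 * e ≤ L ^ 2 * K * e := by
      gcongr; exact le_mul_of_one_le_right (sq_nonneg _) K1
    calc _ ≤ 2 * (3 * η) ^ 3 * (L ^ 2 * e + 9 * L ^ 2 * K * e) := by gcongr; linarith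
      _ ≤ 2 * (3 * η) ^ 3 * (10 * (L ^ 2 * K * e)) := by gcongr; linarith
      _ = 540 * (L ^ 2 * (K * η ^ 3)) * e := by ring
      _ ≤ _ := by gcongr; norm_num

/-- sites off `U 1` that see a slot of `O` in a double window are rare. -/
theorem exc (hG : Geom ex ey p O P U D j A) (hj : 3 * j < P.η 0) (t : ℕ) {S : Finset (Tor 3 L)}
    (hS : ∀ x ∈ S, x ∉ U 1 ∧ ∃ k ∈ Ico (t * D) ((t + 2) * D), ∃ y,
      (tm T k, y) ∈ O ∧ tdist x y.1 ≤ 1) : 20 * (S.card : ℝ) ≤ (L : ℝ) ^ 3 := by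
  have h := sparse (X := S) (N := j * 27) (hG.ok.ηL 0 hG.ok.pos) fun x0 h0 => by
    have h1 := (hG.leaf x0 (hS x0 h0).1 x0 (by simp [tdist_self])).shd t
    refine le_trans (card_le_card fun x hx => ?_) ((card_biUnion_le_card_mul _
      (fun y : Tor 3 L × Fin n => bl y.1 1) 27 fun y _ => by exact_mod_cast card_bl y.1 1).trans
        (Nat.mul_le_mul_right _ h1))
    obtain ⟨x1, x2⟩ := mem_filter.1 hx
    obtain ⟨-, k, k1, y, y1, y2⟩ := hS x x1
    have := tdist_triangle x0 x y.1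
    simp only [mem_biUnion, mem_filter, mem_univ, true_and]
    exact ⟨y, ⟨by omega, k, k1, y1⟩, mem_bl.2 (tdist_comm x y.1 ▸ y2)⟩
  generalize S.card = X at h ⊢
  have h1 : 20 * (j * 27) ≤ (2 * P.η 0 + 1) ^ 3 :=
    le_trans (by nlinarith [Nat.zero_le (j ^ 3), Nat.zero_le (j ^ 2), Nat.le_self_pow two_ne_zero j])
      (Nat.pow_le_pow_left (show 6 * j + 3 ≤ 2 * P.η 0 + 1 by omega) 3)
  have h2 : 20 * X ≤ L ^ 3 := le_of_mul_le_mul_right (a := (2 * P.η 0 + 1) ^ 3) (by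
    calc _ = 20 * (X * (2 * P.η 0 + 1) ^ 3) := by ring
      _ ≤ L ^ 3 * (20 * (j * 27)) := by nlinarith
      _ ≤ _ := Nat.mul_le_mul_left _ h1) (by positivity)
  exact_mod_cast h2

/-- a large common set. -/
theorem big {G G' X : Finset (Tor 3 L)} (v : Tor 3 L) (h : 100 * (Gᶜ.card : ℝ) ≤ 26 * (L : ℝ) ^ 3)
    (h' : 100 * (G'ᶜ.card : ℝ) ≤ 26 * (L : ℝ) ^ 3) (hX : 20 * (X.card : ℝ) ≤ (L : ℝ) ^ 3) :
    (L : ℝ) ^ 3 ≤ 3 * (G.filter fun x => x + v ∈ G' ∧ x ∉ X).card := by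
  have h1 : L ^ 3 ≤ (G.filter fun x => x + v ∈ G' ∧ x ∉ X).card + Gᶜ.card + G'ᶜ.card + X.card := by
    rw [← card_Tor (d := 3) (L := L), ← card_univ,
      ← card_image_of_injective G'ᶜ (sub_left_injective (b := v))]
    refine le_trans (card_le_card fun x _ => ?_) ((card_union_le _ _).trans (Nat.add_le_add_right
      ((card_union_le _ _).trans (Nat.add_le_add_right (card_union_le _ _) _)) _))
    simp only [mem_union, mem_filter, mem_compl, mem_image]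
    by_cases h1 : x + v ∈ G'
    · tauto
    · exact Or.inl (Or.inr ⟨x + v, h1, add_sub_cancel_right x v⟩)
  have h2 := (Nat.cast_le (α := ℝ)).2 h1
  push_cast at h2
  have : (0 : ℝ) ≤ (L : ℝ) ^ 3 := by positivity
  linarith

theorem tm_ne0 {k : ℕ} (h : k + 1 < T) : tm T (k + 1) ≠ 0 := fun e => by
  have := congrArg Fin.val e
  rw [tm_val_of_lt h] at this
  simp at this

/-- freezing in a good sweep. -/
theorem freeze (hE : Env ex ey p p0 b c0 O ∅) (hC : Clock ex ey p0 c0 E w B q κ Bd)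
    (hη : 1 ≤ P.η 0) (H : Lip ex ey p O φ γ Γ) {i : ℕ} (hi : i < B * w)
    (hg : Gd0 ex ey p O E Bd P D j i) (z : Tor 3 L × Fin n)
    (hz : z.1 ∉ U0 ex ey p O P D j (tm T (i * E)) z.2) (a : ℕ) (ha : a < E) :
    |φ (tm T (i * E + a), z) - φ (tm T (i * E), z)| ≤ κ * q * Γ := by
  have hT : (i + 1) * E ≤ T := hC.hT ▸ Nat.mul_le_mul_right _ hi
  rw [add_mul] at hT
  have Γ0 : 0 ≤ Γ := (H.gam 0).1.trans (H.gam 0).2
  refine (H.tel z (Nat.le_add_right _ a) fun k hk => ?_).trans ?_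
  · rw [mem_Ico] at hk
    have := green hg hz (a := k + 1 - i * E) (by omega)
    rw [Nat.add_sub_cancel' (by omega)] at this
    exact ⟨tm_ne0 (by omega), this⟩
  rw [sum_Ico_eq_sum_range, Nat.add_sub_cancel_left]
  refine le_trans ?_ (mul_le_mul_of_nonneg_right ((sum_le_sum_of_subset_of_nonneg
    (range_mono ha.le) fun _ _ _ => (Cr.tch_bd hC.hp0 z _).1).trans (hC.rate i hi hg.1 z)) Γ0)
  rw [sum_mul]
  exact sum_le_sum fun a' ha' => le_trans (mul_le_mul_of_nonneg_right (rate_le hE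
    (fun s => (hC.hp0 s).1) hη hg hz (by simp) ((mem_range.1 ha').trans ha)) (H.gam _).1)
    (mul_le_mul_of_nonneg_left (H.gam _).2 (Cr.tch_bd hC.hp0 z _).1)

open Classical in
/-- a good sweep of small energy in each window. -/
theorem pick (hT : T = B * w * E) (hw : 2 * (Bd.card + L ^ 3 * j + 1) ≤ w) {F : Fin T → ℝ}
    (hF : ∀ s, 0 ≤ F s) {t : ℕ} (ht : t < B) : ∃ i ∈ Ico (t * w) ((t + 1) * w),
      Gd0 ex ey p O E Bd P (w * E) j i ∧ w * ∑ a ∈ range E, F (tm T (i * E + a)) ≤ 2 * ∑ s, F s := by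
  have h1 := good0 (ex := ex) (ey := ey) (p := p) (R := O) (P := P) hT hw ht
  generalize hS : ((range (B * w)).filter (Gd0 ex ey p O E Bd P (w * E) j)).filter
    (fun i => t = i / w) = S at h1
  have w0 : 0 < w := by omega
  have h2 : ∑ i ∈ S, ∑ a ∈ range E, F (tm T (i * E + a)) ≤ ∑ s, F s := by
    rw [sum_tm F, show range T = range (B * w * E) by rw [← hT], sum_range_mul, ← hS]
    exact sum_le_sum_of_subset_of_nonneg ((filter_subset _ _).trans (filter_subset _ _))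
      fun _ _ _ => sum_nonneg fun _ _ => hF _
  obtain ⟨i, hi, h⟩ := Finset.exists_le_of_sum_le (s := S) (card_pos.1 (by omega))
    (f := fun i => w * ∑ a ∈ range E, F (tm T (i * E + a))) (g := fun _ => 2 * ∑ s, F s) (by
      rw [← mul_sum, sum_const, nsmul_eq_mul, ← mul_assoc]
      exact mul_le_mul (by rw [mul_comm]; exact_mod_cast h1) h2
        (sum_nonneg fun _ _ => sum_nonneg fun _ _ => hF _) (by positivity))
  rw [← hS, mem_filter, mem_filter] at hi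
  refine ⟨i, mem_Ico.2 ⟨hi.2 ▸ Nat.div_mul_le_self i w, ?_⟩, hi.1.2, h⟩
  rw [hi.2, mul_comm]
  exact Nat.lt_mul_div_succ i w0

end Crest.Agent.N337.ZM.BT
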