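import Crest.Agent.N337.Top.Defs

/-!
# Row 337, TOP: pressure closing, abstract part (finite tilted sums)
-/

set_option autoImplicit false

namespace Crest.Agent.N337.Top.Sh

open Finset

variable {Ω : Type} [Fintype Ω]

theorem pos_mul {w g : Ω → ℝ} (hw : ∀ ω, 0 ≤ w ω) (hp : 0 < ∑ ω, w ω) (hg : ∀ ω, 0 < g ω) :
    0 < ∑ ω, w ω * g ω := by
  obtain ⟨ω, -, h⟩ := exists_ne_zero_of_sum_ne_zero hp.ne'
  exact sum_pos' (fun ω _ => mul_nonneg (hw ω) (hg ω).le)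
    ⟨ω, mem_univ _, mul_pos ((hw ω).lt_of_ne h.symm) (hg ω)⟩

theorem jensen {w : Ω → ℝ} (X : Ω → ℝ) (hw : ∀ ω, 0 ≤ w ω) (hp : 0 < ∑ ω, w ω) :
    (∑ ω, w ω * X ω) / (∑ ω, w ω) ≤
      Real.log (∑ ω, w ω * Real.exp (X ω)) - Real.log (∑ ω, w ω) := by
  set μ := (∑ ω, w ω * X ω) / (∑ ω, w ω) with hμ
  have h1 : Real.exp μ * ∑ ω, w ω ≤ ∑ ω, w ω * Real.exp (X ω) := by
    have h2 : ∑ ω, w ω * (Real.exp μ * (X ω - μ + 1)) = Real.exp μ * ∑ ω, w ω := by
      have : ∑ ω, w ω * X ω = μ * ∑ ω, w ω := by rw [hμ, div_mul_cancel₀ _ hp.ne']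
      calc ∑ ω, w ω * (Real.exp μ * (X ω - μ + 1))
          = Real.exp μ * ((∑ ω, w ω * X ω) + (1 - μ) * ∑ ω, w ω) := by
            rw [mul_sum, ← sum_add_distrib, mul_sum]
            exact sum_congr rfl fun ω _ => by ring
        _ = _ := by rw [this]; ring
    rw [← h2]
    refine sum_le_sum fun ω _ => mul_le_mul_of_nonneg_left ?_ (hw ω)
    calc Real.exp μ * (X ω - μ + 1) ≤ Real.exp μ * Real.exp (X ω - μ) :=
          mul_le_mul_of_nonneg_left (Real.add_one_le_exp _) (Real.exp_pos _).le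
      _ = _ := by rw [← Real.exp_add]; ring_nf
  have h3 := Real.log_le_log (mul_pos (Real.exp_pos _) hp) h1
  rw [Real.log_mul (Real.exp_pos _).ne' hp.ne', Real.log_exp] at h3
  linarith

/-- tilted moments. -/
noncomputable def mo (w X : Ω → ℝ) (t : ℝ) (j : ℕ) : ℝ :=
  ∑ ω, w ω * (Real.exp (t * X ω) * X ω ^ j)

theorem hasDerivAt_mo (w X : Ω → ℝ) (t : ℝ) (j : ℕ) :
    HasDerivAt (fun t => mo w X t j) (mo w X t (j + 1)) t := by
  unfold mo
  refine HasDerivAt.fun_sum fun ω _ => ?_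
  have := ((((hasDerivAt_id t).mul_const (X ω)).exp).mul_const (X ω ^ j)).const_mul (w ω)
  refine this.congr_deriv ?_
  simp only [id]; ring

theorem taylor {w : Ω → ℝ} (X : Ω → ℝ) (hw : ∀ ω, 0 ≤ w ω) (hp : 0 < ∑ ω, w ω) {lam c : ℝ}
    (hl : 0 < lam) (h : ∀ t, 0 ≤ t → t ≤ lam →
      lam * (mo w X t 2 * mo w X t 0 - mo w X t 1 ^ 2) ≤ c * mo w X t 0 ^ 2) :
    Real.log (∑ ω, w ω * Real.exp (lam * X ω)) - Real.log (∑ ω, w ω) ≤
      lam * ((∑ ω, w ω * X ω) / (∑ ω, w ω) + c) := by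
  have m0 : ∀ t, 0 < mo w X t 0 := fun t => pos_mul hw hp fun ω => by
    simpa using Real.exp_pos (t * X ω)
  have hd : ∀ t, HasDerivAt (fun t => mo w X t 1 / mo w X t 0)
      ((mo w X t 2 * mo w X t 0 - mo w X t 1 * mo w X t 1) / mo w X t 0 ^ 2) t := fun t =>
    (hasDerivAt_mo w X t 1).div (hasDerivAt_mo w X t 0) (m0 t).ne'
  obtain ⟨t, ht, he⟩ := exists_hasDerivAt_eq_slope _ _ hl
    (fun t _ => (hd t).continuousAt.continuousWithinAt) fun t _ => hd t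
  have h1 := h t ht.1.le ht.2.le
  have h2 : mo w X lam 1 / mo w X lam 0 - mo w X 0 1 / mo w X 0 0 ≤ c := by
    rw [sub_zero, eq_div_iff hl.ne'] at he
    rw [← he, div_mul_eq_mul_div, div_le_iff₀ (pow_pos (m0 t) 2)]
    nlinarith
  have hp' : 0 < ∑ ω, w ω * Real.exp (lam * X ω) := pos_mul hw hp fun ω => Real.exp_pos _
  have h3 := jensen (w := fun ω => w ω * Real.exp (lam * X ω)) (fun ω => -(lam * X ω))
    (fun ω => mul_nonneg (hw ω) (Real.exp_pos _).le) hp'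
  have e1 : ∑ ω, w ω * Real.exp (lam * X ω) * Real.exp (-(lam * X ω)) = ∑ ω, w ω :=
    sum_congr rfl fun ω _ => by rw [mul_assoc, ← Real.exp_add]; simp
  have e2 : ∑ ω, w ω * Real.exp (lam * X ω) * -(lam * X ω) = -(lam * mo w X lam 1) := by
    unfold mo; rw [mul_sum, ← sum_neg_distrib]; exact sum_congr rfl fun ω _ => by ring
  have e3 : mo w X lam 0 = ∑ ω, w ω * Real.exp (lam * X ω) := by simp [mo]
  have e4 : mo w X 0 0 = ∑ ω, w ω := by simp [mo]
  have e5 : mo w X 0 1 = ∑ ω, w ω * X ω := by simp [mo]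
  rw [e1, e2, ← e3, neg_div, mul_div_assoc] at h3
  rw [← e3, ← e5, ← e4]
  rw [← e4] at h3
  nlinarith

/-- partition function with field `x` and tilt `t`. -/
noncomputable def Zf (w N X : Ω → ℝ) (x t : ℝ) : ℝ :=
  ∑ ω, w ω * Real.exp (-(x * N ω)) * Real.exp (t * X ω)

/-- mean of `F` at field `x`. -/
noncomputable def av (w N : Ω → ℝ) (x : ℝ) (F : Ω → ℝ) : ℝ :=
  (∑ ω, w ω * Real.exp (-(x * N ω)) * F ω) / ∑ ω, w ω * Real.exp (-(x * N ω))

theorem Zf_zero (w N X : Ω → ℝ) (x : ℝ) : Zf w N X x 0 = ∑ ω, w ω * Real.exp (-(x * N ω)) := by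
  simp [Zf]

theorem Zf_pos {w : Ω → ℝ} (N X : Ω → ℝ) (hw : ∀ ω, 0 ≤ w ω) (hp : 0 < ∑ ω, w ω) (x t : ℝ) :
    0 < Zf w N X x t := by
  unfold Zf
  simp only [mul_assoc]
  exact pos_mul hw hp fun ω => mul_pos (Real.exp_pos _) (Real.exp_pos _)

/-- Jensen in the field. -/
theorem jensen_N {w : Ω → ℝ} (N X : Ω → ℝ) (hw : ∀ ω, 0 ≤ w ω) (hp : 0 < ∑ ω, w ω) (x x' : ℝ) :
    (x - x') * av w N x N ≤ Real.log (Zf w N X x' 0) - Real.log (Zf w N X x 0) := by
  have h := jensen (w := fun ω => w ω * Real.exp (-(x * N ω))) (fun ω => (x - x') * N ω)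
    (fun ω => mul_nonneg (hw ω) (Real.exp_pos _).le) (pos_mul hw hp fun ω => Real.exp_pos _)
  have e1 : ∑ ω, w ω * Real.exp (-(x * N ω)) * Real.exp ((x - x') * N ω) =
      ∑ ω, w ω * Real.exp (-(x' * N ω)) :=
    sum_congr rfl fun ω _ => by rw [mul_assoc, ← Real.exp_add]; ring_nf
  have e2 : ∑ ω, w ω * Real.exp (-(x * N ω)) * ((x - x') * N ω) =
      (x - x') * ∑ ω, w ω * Real.exp (-(x * N ω)) * N ω := by
    rw [mul_sum]; exact sum_congr rfl fun ω _ => by ring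
  rw [e1, e2, mul_div_assoc] at h
  rw [Zf_zero, Zf_zero]; exact h

theorem chain {I : Type} [Fintype I] {w : Ω → ℝ} {wb : I → Ω → ℝ} {N X : Ω → ℝ}
    (hw : ∀ ω, 0 ≤ w ω) (hp : 0 < ∑ ω, w ω) (hwb : ∀ i ω, 0 ≤ wb i ω)
    (hpb : ∀ i, 0 < ∑ ω, wb i ω) {x x' lam c e B : ℝ} (hXN : ∀ ω, X ω ≤ N ω)
    (hN : ∀ ω, 0 ≤ N ω ∧ N ω ≤ B) (hx : 0 < x) (hx0 : 0 ≤ x') (hx' : x' ≤ x) (hl : 0 < lam)
    (hK : ∀ y t, 0 ≤ y → 0 ≤ t → t ≤ lam → ∏ i, Zf (wb i) N X y t ≤ Zf w N X y t ∧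
      Zf w N X y t ≤ Real.exp c * ∏ i, Zf (wb i) N X y t)
    (hV : ∀ i t, 0 ≤ t → t ≤ lam →
      let m := mo (fun ω => wb i ω * Real.exp (-(x * N ω))) X t
      lam * (m 2 * m 0 - m 1 ^ 2) ≤ e * m 0 ^ 2) :
    av w N x' X ≤ av w N (x / 2) N + (x * B + c) / lam + 2 * c / x + Fintype.card I * e := by
  have Zp := Zf_pos N X hw hp
  have Zb := fun i => Zf_pos N X (hwb i) (hpb i)
  have hlo : ∀ y t, 0 ≤ y → 0 ≤ t → t ≤ lam →
      ∑ i, Real.log (Zf (wb i) N X y t) ≤ Real.log (Zf w N X y t) := fun y t a b d => by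
    rw [← Real.log_prod fun i _ => (Zb i y t).ne']
    exact Real.log_le_log (prod_pos fun i _ => Zb i y t) (hK y t a b d).1
  have hup : ∀ y t, 0 ≤ y → 0 ≤ t → t ≤ lam →
      Real.log (Zf w N X y t) ≤ c + ∑ i, Real.log (Zf (wb i) N X y t) := fun y t a b d => by
    rw [← Real.log_prod fun i _ => (Zb i y t).ne']
    have := Real.log_le_log (Zp y t) (hK y t a b d).2
    rwa [Real.log_mul (Real.exp_pos _).ne' (prod_pos fun i _ => Zb i y t).ne', Real.log_exp] at this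
  have s1 : lam * av w N x' X ≤ Real.log (Zf w N X x' lam) - Real.log (Zf w N X x' 0) := by
    have h := jensen (w := fun ω => w ω * Real.exp (-(x' * N ω))) (fun ω => lam * X ω)
      (fun ω => mul_nonneg (hw ω) (Real.exp_pos _).le) (pos_mul hw hp fun ω => Real.exp_pos _)
    have e2 : ∑ ω, w ω * Real.exp (-(x' * N ω)) * (lam * X ω) =
        lam * ∑ ω, w ω * Real.exp (-(x' * N ω)) * X ω := by
      rw [mul_sum]; exact sum_congr rfl fun ω _ => by ring
    rw [e2, mul_div_assoc] at h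
    rw [Zf_zero]; exact h
  have s2 : Real.log (Zf w N X x' lam) ≤ x * B + Real.log (Zf w N X x lam) := by
    have : Zf w N X x' lam ≤ Real.exp (x * B) * Zf w N X x lam := by
      unfold Zf
      rw [mul_sum]
      refine sum_le_sum fun ω _ => ?_
      have h1 : Real.exp (-(x' * N ω)) ≤ Real.exp (x * B) * Real.exp (-(x * N ω)) := by
        rw [← Real.exp_add]
        refine Real.exp_le_exp.2 ?_
        nlinarith [hN ω, mul_nonneg hx0 (hN ω).1, mul_le_mul_of_nonneg_left (hN ω).2 hx.le]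
      calc w ω * Real.exp (-(x' * N ω)) * Real.exp (lam * X ω)
          ≤ w ω * (Real.exp (x * B) * Real.exp (-(x * N ω))) * Real.exp (lam * X ω) :=
            mul_le_mul_of_nonneg_right (mul_le_mul_of_nonneg_left h1 (hw ω)) (Real.exp_pos _).le
        _ = _ := by ring
    have := Real.log_le_log (Zp _ _) this
    rwa [Real.log_mul (Real.exp_pos _).ne' (Zp _ _).ne', Real.log_exp] at this
  have s3 := hup x lam hx.le hl.le le_rfl
  have s4 : Real.log (Zf w N X x 0) ≤ Real.log (Zf w N X x' 0) := by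
    refine Real.log_le_log (Zp _ _) ?_
    rw [Zf_zero, Zf_zero]
    refine sum_le_sum fun ω _ => mul_le_mul_of_nonneg_left (Real.exp_le_exp.2 ?_) (hw ω)
    nlinarith [hN ω]
  have s4' := hlo x 0 hx.le le_rfl hl.le
  have s5 : ∀ i, Real.log (Zf (wb i) N X x lam) - Real.log (Zf (wb i) N X x 0) ≤
      lam * (2 / x * (Real.log (Zf (wb i) N X (x / 2) 0) - Real.log (Zf (wb i) N X x 0)) + e) := by
    intro i
    have hpi := pos_mul (hwb i) (hpb i) fun ω => Real.exp_pos (-(x * N ω))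
    have a := taylor (w := fun ω => wb i ω * Real.exp (-(x * N ω))) X
      (fun ω => mul_nonneg (hwb i ω) (Real.exp_pos _).le) hpi hl (hV i)
    have b := jensen_N N X (hwb i) (hpb i) x (x / 2)
    have d : av (wb i) N x X ≤ av (wb i) N x N :=
      div_le_div_of_nonneg_right (sum_le_sum fun ω _ => mul_le_mul_of_nonneg_left (hXN ω)
        (mul_nonneg (hwb i ω) (Real.exp_pos _).le)) hpi.le
    have f : av (wb i) N x N ≤
        2 / x * (Real.log (Zf (wb i) N X (x / 2) 0) - Real.log (Zf (wb i) N X x 0)) := by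
      rw [div_mul_eq_mul_div, le_div_iff₀ hx]; linarith
    rw [← Zf_zero (wb i) N X x] at a
    refine le_trans a (mul_le_mul_of_nonneg_left ?_ hl.le)
    have : (∑ ω, wb i ω * Real.exp (-(x * N ω)) * X ω) / Zf (wb i) N X x 0 = av (wb i) N x X := by
      rw [Zf_zero]; rfl
    rw [this]; linarith
  have s6 := sum_le_sum fun i (_ : i ∈ univ) => s5 i
  rw [sum_sub_distrib, ← mul_sum, sum_add_distrib, ← mul_sum, sum_sub_distrib, sum_const, card_univ,
    nsmul_eq_mul] at s6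
  have s7 := hlo (x / 2) 0 (by linarith) le_rfl hl.le
  have s7' := hup x 0 hx.le le_rfl hl.le
  have s8 := jensen_N N X hw hp (x / 2) x
  have s9 : 2 / x * (∑ i, Real.log (Zf (wb i) N X (x / 2) 0) - ∑ i, Real.log (Zf (wb i) N X x 0)) ≤
      av w N (x / 2) N + 2 * c / x := by
    rw [div_mul_eq_mul_div, div_le_iff₀ hx, add_mul, div_mul_cancel₀ _ hx.ne']; linarith
  have s10 := mul_le_mul_of_nonneg_left s9 hl.le
  have : av w N x' X ≤ (x * B + c) / lam + (av w N (x / 2) N + 2 * c / x + Fintype.card I * e) := by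
    rw [← sub_le_iff_le_add, le_div_iff₀ hl]; nlinarith
  linarith

end Crest.Agent.N337.Top.Sh
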